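import Vale.Agent.P284.H494.TailS
import Vale.Agent.P284.H998.ZS

/-!
# P284 (helper672): MF(I), existence of a trace zero function on the components of the fibres

`F : E → ℂ^q` holomorphic with periods `c`.  If two points of one regular fibre lie in components which
are not equivalent under the kernel of `c`, there is a holomorphic function `h` on the components of
the fibres, of polynomial growth, not zero, with trace zero, such that `h dF₁ ∧ … ∧ dF_q` is
holomorphic on `E`.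
-/

open scoped Manifold ContDiff Topology ENNReal
open Filter Set Metric MeasureTheory

noncomputable section

namespace Vale.Agent.P284.H672

open Vale.Agent.P272.K Vale.Agent.P284.H573 Vale.Agent.P284.H894.G Vale.Agent.P284.H894.W
  Vale.Agent.P284.H494 Vale.Agent.P284.H998

section
variable {n : ℕ} {X : Type} [TopologicalSpace X] [ChartedSpace (Cm n) X]
  {E : Type} [TopologicalSpace E]

variable (n) in
/-- `h` is locally a function of `F` at the regular points, and `h dF₁ ∧ … ∧ dF_q` is holomorphic on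
`E` (the first two fields of `SheetFun`). -/
structure SheetHol (p : E → X) {q : ℕ} (F : E → Cm q) {W : Type} [NormedAddCommGroup W]
    [InnerProductSpace ℂ W] (h : E → W) : Prop where
  loc : ∀ y, Reg (n := n) p F y → ∃ f : Cm q → W, AnalyticAt ℂ f (F y) ∧ ∀ᶠ y' in 𝓝 y, h y' = f (F y')
  ext : ∀ (y : E) (e : Chart n X) (f : Cm n → Cm q), At e (p y) → AnalyticAt ℂ f (e (p y)) →
    (∀ᶠ y' in 𝓝 y, F y' = f (e (p y'))) → ∀ ξ : Fin q → Cm n, ∃ φ : Cm n → W,
      AnalyticAt ℂ φ (e (p y)) ∧ ∀ᶠ y' in 𝓝 y, Reg (n := n) p F y' →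
        (Matrix.of fun i j => fderiv ℂ f (e (p y')) (ξ j) i).det • h y' = φ (e (p y'))

variable (n) in
/-- Output of Hörmander's theorem: `h` is a function on the components of the fibres modulo the
kernel of `c`, of polynomial growth, not zero, with trace zero. -/
structure ExFun (Γ : Type) [Group Γ] [MulAction Γ E] (p : E → X) {q : ℕ} (F : E → Cm q)
    (c : Γ → Cm q) (h : E → ℂ) : Prop extends SheetHol n p F h where
  ker : ∀ g : Γ, c g = 0 → ∀ y, Reg (n := n) p F y → h (g • y) = h y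
  growth : ∃ k : ℕ, ∀ (y : E) (e : Chart n X) (f : Cm n → Cm q), At e (p y) →
    AnalyticAt ℂ f (e (p y)) → (∀ᶠ y' in 𝓝 y, F y' = f (e (p y'))) → ∀ ξ : Fin q → Cm n,
    ∃ C : ℝ, ∀ᶠ y' in 𝓝 y, Reg (n := n) p F y' → ∀ g : Γ,
      ‖(Matrix.of fun i j => fderiv ℂ f (e (p y')) (ξ j) i).det * h (g • y')‖ ≤
        C * (1 + ‖c g‖) ^ k
  trace : ∃ (N : ℕ) (z : Fin (N + 1) → E), (∀ i, Reg (n := n) p F (z i)) ∧
    ∀ g : Γ, ∑ i, h (g • z i) = 0
  ne : ∃ y, Reg (n := n) p F y ∧ h y ≠ 0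

end

/-- **MF(I), existence.** -/
def ExStmt : Prop :=
  ∀ (n q : ℕ) (X : Type) [TopologicalSpace X] [T2Space X] [CompactSpace X] [ConnectedSpace X]
    [ChartedSpace (Cm n) X] [IsManifold 𝓘(ℂ, Cm n) ω X]
    (ι : Type) [Fintype ι] (_ : PJ n X ι)
    (w : Chart n X → Cm n → Matrix (Fin n) (Fin n) ℂ), IsKahler w →
    ∀ (E Γ : Type) [TopologicalSpace E] [ConnectedSpace E] [Group Γ] [MulAction Γ E]
    (p : E → X), IsGalois Γ p →
    ∀ (F : E → Cm q) (c : Γ → Cm q), Per p w F c →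
    ∀ y y' : E, F y' = F y → F y ∈ RV n p F → (∀ g : Γ, c g = 0 → ¬ Same F (g • y) y') →
    ∃ h : E → ℂ, ExFun n Γ p F c h

/-- **T5**: the square of the norm of such a function is bounded by a locally integrable function
of `F`. -/
def T5Stmt : Prop :=
  ∀ (n q : ℕ) (X : Type) [TopologicalSpace X] [T2Space X] [CompactSpace X] [ConnectedSpace X]
    [ChartedSpace (Cm n) X] [IsManifold 𝓘(ℂ, Cm n) ω X]
    (ι : Type) [Fintype ι] (_ : PJ n X ι)
    (w : Chart n X → Cm n → Matrix (Fin n) (Fin n) ℂ)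
    (E Γ : Type) [TopologicalSpace E] [ConnectedSpace E] [Group Γ] [MulAction Γ E]
    (p : E → X), IsGalois Γ p →
    ∀ (F : E → Cm q) (c : Γ → Cm q), Per p w F c → (∃ y, Reg (n := n) p F y) →
    ∀ (W : Type) [NormedAddCommGroup W] [InnerProductSpace ℂ W] [CompleteSpace W] (h : E → W),
      SheetHol n p F h → (∀ g : Γ, c g = 0 → ∀ y, Reg (n := n) p F y → ‖h (g • y)‖ = ‖h y‖) →
    ∃ s : Cm q → ℝ≥0∞, (∀ R : ℝ, ∫⁻ t in ball (0 : Cm q) R, s t < ⊤) ∧
      ∀ y, F y ∈ RV n p F → ENNReal.ofReal (‖h y‖ ^ 2) ≤ s (F y)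

/-- **Limit** (helper608): from `ExFun` to an equivariant Hilbert space valued function. -/
def LimStmt : Prop :=
  ∀ (n q : ℕ) (X : Type) [TopologicalSpace X] [T2Space X] [CompactSpace X] [ConnectedSpace X]
    [ChartedSpace (Cm n) X] [IsManifold 𝓘(ℂ, Cm n) ω X]
    (w : Chart n X → Cm n → Matrix (Fin n) (Fin n) ℂ)
    (E Γ : Type) [TopologicalSpace E] [ConnectedSpace E] [Group Γ] [MulAction Γ E]
    (p : E → X), IsGalois Γ p →
    ∀ (F : E → Cm q) (c : Γ → Cm q), Per p w F c → ∀ h : E → ℂ, ExFun n Γ p F c h →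
    ∃ (W : Type) (_ : NormedAddCommGroup W) (_ : InnerProductSpace ℂ W) (_ : CompleteSpace W)
      (h₁ : E → W), SheetHol n p F h₁ ∧
      (∀ g : Γ, ∃ U : W →ₗᵢ[ℂ] W, ∀ y, Reg (n := n) p F y → h₁ (g • y) = U (h₁ y)) ∧
      ∃ y y', Reg (n := n) p F y ∧ Reg (n := n) p F y' ∧ h₁ y ≠ h₁ y'

end Vale.Agent.P284.H672
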