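import Vale.Agent.P284.H224.Base
import Vale.Agent.P284.H224.Top

/-!
# P284 (helper672): components of the fibres modulo the kernel of the periods
-/

set_option linter.unusedSectionVars false

open scoped Manifold ContDiff Topology ENNReal
open Filter Set Metric MeasureTheory

noncomputable section

namespace Vale.Agent.P284.H672

open Vale.Agent.P284.H35.S4 (Sm sm_iff sm_of)
open Vale.Agent.P284.H35.S4

section abs

variable {E Y : Type*} [TopologicalSpace E] {F : E → Y} {Γ : Type*} [Group Γ] [MulAction Γ E]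

/-- if two points near the regular fibre lie in components of a fibre which are equivalent under `K`,
so do the points of the regular fibre nearby -/
theorem bwdK [T2Space E] [TopologicalSpace Y] [T2Space Y] {K : Subgroup Γ} (hFc : Continuous F) (hcont : ∀ k : Γ, Continuous fun y : E => k • y)
    (hK : ∀ k ∈ K, ∀ y, F (k • y) = F y) {y₀ : Y}
    (h1 : ∀ y, F y = y₀ → ∀ O ∈ 𝓝 y, ∃ W, IsOpen W ∧ y ∈ W ∧ W ⊆ O ∧
      ∀ v, IsPreconnected (W ∩ F ⁻¹' {v}))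
    (h3 : ∀ y : E, ∀ O ∈ 𝓝 y, ∃ A, IsCompact A ∧ A ∈ 𝓝 y ∧ A ⊆ O)
    (h4 : ∃ B ∈ 𝓝 y₀, ∃ Q : Set E, IsCompact Q ∧ ∀ y, F y ∈ B → ∃ k ∈ K, k • y ∈ Q)
    (h5 : ∀ A : Set E, IsCompact A → {k : Γ | ∃ x ∈ A, k • x ∈ A}.Finite)
    {y y' : E} (hy : F y = y₀) (hy' : F y' = y₀) :
    ∃ U ∈ 𝓝 y, ∃ U' ∈ 𝓝 y', ∀ x ∈ U, ∀ x' ∈ U', (∃ k ∈ K, Sm F (k • x) x') →
      ∃ k ∈ K, Sm F (k • y) y' := by
  classical
  obtain ⟨B₁, hB₁, Q₁, hQ₁, hQK⟩ := h4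
  set V : Set E := F ⁻¹' {y₀} with hV
  have hVc : IsClosed V := isClosed_singleton.preimage hFc
  -- the compact set
  set Q : Set E := Q₁ ∪ {y, y'} with hQdef
  have hQ : IsCompact Q := hQ₁.union (Set.toFinite _).isCompact
  -- boxes
  have hbox : ∀ q : E, ∃ A W : Set E, F q = y₀ → IsCompact A ∧ A ∈ 𝓝 q ∧ A ⊆ W ∧ IsOpen W ∧
      IsPreconnected (W ∩ V) := by
    intro q
    by_cases hq : F q = y₀
    · obtain ⟨W, hW, hqW, -, hWc⟩ := h1 q hq univ univ_mem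
      obtain ⟨A, hA1, hA2, hA3⟩ := h3 q W (hW.mem_nhds hqW)
      exact ⟨A, W, fun _ => ⟨hA1, hA2, hA3, hW, hWc y₀⟩⟩
    · exact ⟨∅, ∅, fun h => absurd h hq⟩
  choose A W hAW using hbox
  have hQV : IsCompact (Q ∩ V) := hQ.inter_right hVc
  obtain ⟨t, ht, htc⟩ := hQV.elim_nhds_subcover (fun q => interior (A q)) fun q hq =>
    interior_mem_nhds.2 (hAW q hq.2).2.1
  have htV : ∀ q ∈ t, F q = y₀ := fun q hq => (ht q hq).2
  -- the union of the compact sets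
  set AA : Set E := ⋃ q ∈ t, A q with hAA
  have hAAc : IsCompact AA := t.isCompact_biUnion fun q hq => (hAW q (htV q hq)).1
  have hfin := h5 AA hAAc
  -- step 1
  set B₂ : Set Y := B₁ ∩ (F '' (Q \ ⋃ q ∈ t, interior (A q)))ᶜ with hB₂
  have hB₂n : B₂ ∈ 𝓝 y₀ := by
    refine inter_mem hB₁ ?_
    have hc : IsCompact (Q \ ⋃ q ∈ t, interior (A q)) :=
      hQ.diff (isOpen_biUnion fun q _ => isOpen_interior)
    refine (hc.image hFc).isClosed.isOpen_compl.mem_nhds ?_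
    rintro ⟨x, ⟨hx1, hx2⟩, hx3⟩
    exact hx2 (htc ⟨hx1, hx3⟩)
  have hstep1 : ∀ x, F x ∈ B₂ → ∃ k ∈ K, ∃ q ∈ t, k • x ∈ interior (A q) := by
    rintro x ⟨hx1, hx2⟩
    obtain ⟨k, hk, hkx⟩ := hQK x hx1
    refine ⟨k, hk, ?_⟩
    by_contra hcon
    push Not at hcon
    refine hx2 ⟨k • x, ⟨Or.inl hkx, fun h => ?_⟩, hK k hk x⟩
    obtain ⟨q, hq, hq2⟩ := mem_iUnion₂.1 h
    exact hcon q hq hq2
  -- step 2
  set D : E × E × Γ → Set E := fun j => A j.1 ∩ (fun x => j.2.2⁻¹ • x) ⁻¹' A j.2.1 with hD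
  set J : Set (E × E × Γ) := {j | j.1 ∈ t ∧ j.2.1 ∈ t ∧ j.2.2 ∈ {k : Γ | ∃ x ∈ AA, k • x ∈ AA}} with hJ
  have hJf : J.Finite := by
    have : J ⊆ (t : Set E) ×ˢ ((t : Set E) ×ˢ {k : Γ | ∃ x ∈ AA, k • x ∈ AA}) := by
      rintro ⟨a, b, k⟩ ⟨h1, h2, h3⟩
      exact ⟨h1, h2, h3⟩
    exact (t.finite_toSet.prod (t.finite_toSet.prod hfin)).subset this
  have hDc : ∀ j ∈ J, IsCompact (D j) := by
    rintro ⟨a, b, k⟩ ⟨h1, h2, h3⟩
    refine ((hAW a (htV a h1)).1).inter_right ?_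
    exact ((hAW b (htV b h2)).1.isClosed).preimage (hcont _)
  set B₃ : Set Y := ⋂ j ∈ J, {v | (D j ∩ V).Nonempty ∨ v ∉ F '' D j} with hB₃
  have hB₃n : B₃ ∈ 𝓝 y₀ := by
    refine (biInter_mem hJf).2 fun j hj => ?_
    by_cases hne : (D j ∩ V).Nonempty
    · exact Filter.mem_of_superset univ_mem fun v _ => Or.inl hne
    · refine Filter.mem_of_superset (((hDc j hj).image hFc).isClosed.isOpen_compl.mem_nhds ?_)
        fun v hv => Or.inr hv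
      rintro ⟨x, hx1, hx2⟩
      exact hne ⟨x, hx1, hx2⟩
  -- the link
  have hlink : ∀ x, F x ∈ B₃ → ∀ k ∈ K, ∀ k' ∈ K, ∀ q ∈ t, ∀ q' ∈ t, k • x ∈ A q → k' • x ∈ A q' →
      Sm F (k⁻¹ • q) (k'⁻¹ • q') := by
    intro x hx k hk k' hk' q hq q' hq' h6 h7
    have hjJ : ((q, q', k * k'⁻¹) : E × E × Γ) ∈ J := by
      refine ⟨hq, hq', k' • x, mem_iUnion₂.2 ⟨q', hq', h7⟩, ?_⟩
      rw [smul_smul, inv_mul_cancel_right]
      exact mem_iUnion₂.2 ⟨q, hq, h6⟩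
    have h8 := mem_iInter₂.1 hx _ hjJ
    have h9 : (D (q, q', k * k'⁻¹) ∩ V).Nonempty := by
      rcases h8 with h8 | h8
      · exact h8
      · refine absurd ⟨k • x, ⟨h6, ?_⟩, hK k hk x⟩ h8
        show (k * k'⁻¹)⁻¹ • k • x ∈ A q'
        rw [smul_smul, mul_inv_rev, inv_inv, inv_mul_cancel_right]
        exact h7
    obtain ⟨y₁, ⟨h10, h11⟩, h12⟩ := h9
    have h11' : (k * k'⁻¹)⁻¹ • y₁ ∈ A q' := h11
    have hkk : (k * k'⁻¹)⁻¹ ∈ K := K.inv_mem (K.mul_mem hk (K.inv_mem hk'))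
    have e1 : Sm F q y₁ := sm_of (hAW q (htV q hq)).2.2.2.2
      ((hAW q (htV q hq)).2.2.1 (mem_of_mem_nhds (hAW q (htV q hq)).2.1))
      ((hAW q (htV q hq)).2.2.1 h10) (htV q hq) h12
    have e2 : Sm F ((k * k'⁻¹)⁻¹ • y₁) q' := sm_of (hAW q' (htV q' hq')).2.2.2.2
      ((hAW q' (htV q' hq')).2.2.1 h11')
      ((hAW q' (htV q' hq')).2.2.1 (mem_of_mem_nhds (hAW q' (htV q' hq')).2.1))
      (by rw [hK _ hkk]; exact h12) (htV q' hq')
    have e3 := e1.smul hcont hK (K.inv_mem hk)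
    have e4 := e2.smul hcont hK (K.inv_mem hk')
    rw [smul_smul, mul_inv_rev, inv_inv, inv_mul_cancel_left] at e4
    exact e3.trans e4
  -- the boxes of `y` and `y'`
  have hyt : ∃ q ∈ t, y ∈ interior (A q) := by
    obtain ⟨q, hq, h⟩ := mem_iUnion₂.1 (htc ⟨Or.inr (Or.inl rfl), hy⟩)
    exact ⟨q, hq, h⟩
  have hyt' : ∃ q ∈ t, y' ∈ interior (A q) := by
    obtain ⟨q, hq, h⟩ := mem_iUnion₂.1 (htc ⟨Or.inr (Or.inr rfl), hy'⟩)
    exact ⟨q, hq, h⟩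
  obtain ⟨q, hq, hyq⟩ := hyt
  obtain ⟨q', hq', hyq'⟩ := hyt'
  have eq1 : Sm F y q := sm_of (hAW q (htV q hq)).2.2.2.2
      ((hAW q (htV q hq)).2.2.1 (interior_subset hyq))
      ((hAW q (htV q hq)).2.2.1 (mem_of_mem_nhds (hAW q (htV q hq)).2.1)) hy (htV q hq)
  have eq2 : Sm F q' y' := sm_of (hAW q' (htV q' hq')).2.2.2.2
      ((hAW q' (htV q' hq')).2.2.1 (mem_of_mem_nhds (hAW q' (htV q' hq')).2.1))
      ((hAW q' (htV q' hq')).2.2.1 (interior_subset hyq')) (htV q' hq') hy'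
  refine ⟨interior (A q) ∩ F ⁻¹' (B₂ ∩ B₃), inter_mem (isOpen_interior.mem_nhds hyq)
    (hFc.continuousAt (by rw [hy]; exact inter_mem hB₂n hB₃n)), interior (A q'),
    isOpen_interior.mem_nhds hyq', ?_⟩
  rintro x ⟨hx1, hx2, hx3⟩ x' hx' ⟨k₀, hk₀, hxx'⟩
  obtain ⟨C, hC, hxC, hxC', hCF⟩ := sm_iff.1 hxx'
  rw [hK k₀ hk₀] at hCF
  -- the class is constant on `C`
  have key : ∃ k ∈ K, ∃ q₁ ∈ t, k • x' ∈ A q₁ ∧ ∃ m ∈ K, Sm F (m • q) q₁ := by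
    have := hC.induction₂' (fun a b => ∀ k ∈ K, ∀ q₁ ∈ t, k • a ∈ A q₁ →
      (∃ m ∈ K, Sm F (m • q) q₁) →
      ∃ k' ∈ K, ∃ q₂ ∈ t, k' • b ∈ A q₂ ∧ ∃ m ∈ K, Sm F (m • q) q₂) ?_ ?_ hxC hxC'
    · exact this k₀⁻¹ (K.inv_mem hk₀) q hq (by rw [inv_smul_smul]; exact interior_subset hx1)
        ⟨1, K.one_mem, by rw [one_smul]; exact Sm.refl q⟩
    · intro a ha
      have hFa : F a ∈ B₂ := by rw [hCF a ha]; exact hx2
      have hFa3 : F a ∈ B₃ := by rw [hCF a ha]; exact hx3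
      obtain ⟨k₁, hk₁, q₀, hq₀, h6⟩ := hstep1 a hFa
      have h7 : ∀ᶠ b in 𝓝[C] a, k₁ • b ∈ interior (A q₀) :=
        eventually_nhdsWithin_of_eventually_nhds
          ((hcont k₁).continuousAt.eventually (isOpen_interior.mem_nhds h6))
      have hcl : ∀ b, F b ∈ B₃ → ∀ k ∈ K, ∀ k' ∈ K, ∀ q₁ ∈ t, ∀ q₂ ∈ t, k • b ∈ A q₁ →
          k' • b ∈ A q₂ → (∃ m ∈ K, Sm F (m • q) q₁) → ∃ m ∈ K, Sm F (m • q) q₂ := by
        rintro b hb k hk k' hk' q₁ hq₁ q₂ hq₂ h8 h9 ⟨m, hm, h10⟩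
        have h11 := hlink b hb k hk k' hk' q₁ hq₁ q₂ hq₂ h8 h9
        have h12 := (h10.smul hcont hK (K.inv_mem hk)).trans h11
        have h13 := h12.smul hcont hK hk'
        rw [smul_inv_smul, smul_smul, smul_smul] at h13
        exact ⟨_, K.mul_mem (K.mul_mem hk' (K.inv_mem hk)) hm, h13⟩
      filter_upwards [h7, self_mem_nhdsWithin] with b hb hbC
      have hFb3 : F b ∈ B₃ := by rw [hCF b hbC]; exact hx3
      refine ⟨fun k hk q₁ hq₁ h8 h9 => ⟨k₁, hk₁, q₀, hq₀, interior_subset hb, ?_⟩,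
        fun k hk q₁ hq₁ h8 h9 => ⟨k₁, hk₁, q₀, hq₀, interior_subset h6, ?_⟩⟩
      · exact hcl a hFa3 k hk k₁ hk₁ q₁ hq₁ q₀ hq₀ h8 (interior_subset h6) h9
      · exact hcl b hFb3 k hk k₁ hk₁ q₁ hq₁ q₀ hq₀ h8 (interior_subset hb) h9
    · intro a b c ha hb hc hab hbc k hk q₁ hq₁ h8 h9
      obtain ⟨k', hk', q₂, hq₂, h10, h11⟩ := hab k hk q₁ hq₁ h8 h9
      exact hbc k' hk' q₂ hq₂ h10 h11
  obtain ⟨k, hk, q₁, hq₁, h6, m, hm, h7⟩ := key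
  have h8 : F x' ∈ B₃ := by rw [hCF x' hxC']; exact hx3
  have h9 := hlink x' h8 k hk 1 K.one_mem q₁ hq₁ q' hq' h6
    (by rw [one_smul]; exact interior_subset hx')
  rw [inv_one, one_smul] at h9
  have e1 := eq1.smul hcont hK (K.mul_mem (K.inv_mem hk) hm)
  have e2 := h7.smul hcont hK (K.inv_mem hk)
  rw [smul_smul] at e2
  exact ⟨_, K.mul_mem (K.inv_mem hk) hm, ((e1.trans e2).trans h9).trans eq2⟩


end abs

open Vale.Agent.P272.K Vale.Agent.P284.H894.G Vale.Agent.P284.H894.W Vale.Agent.P284.H494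
  Vale.Agent.P284.H10 Vale.Agent.P284.H224

section
variable {n : ℕ} {X : Type} [TopologicalSpace X] [ChartedSpace (Cm n) X] {E : Type}
  [TopologicalSpace E] {p : E → X} {Γ : Type} [Group Γ] [MulAction Γ E]
  {w : Chart n X → Cm n → Matrix (Fin n) (Fin n) ℂ} {q : ℕ} {F : E → Cm q} {c : Γ → Cm q}

/-- the components of the fibre of `y` and `y'` are equivalent under the kernel of `c` -/
def Cl (F : E → Cm q) (c : Γ → Cm q) (y y' : E) : Prop := ∃ g : Γ, c g = 0 ∧ Same F (g • y) y'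

variable {y y' y'' : E}

theorem same_smul (hp : IsGalois Γ p) (hA : Per p w F c) (γ : Γ) (h : Same F y y') :
    Same F (γ • y) (γ • y') := by
  obtain ⟨C, hC, h1, h2, h3⟩ := sm_iff.1 (show Sm F y y' from h)
  refine sm_iff.2 ⟨(fun y => γ • y) '' C, hC.image _ (hp.cont γ).continuousOn, ⟨y, h1, rfl⟩,
    ⟨y', h2, rfl⟩, ?_⟩
  rintro _ ⟨x, hx, rfl⟩
  show F (γ • x) = F (γ • y)
  rw [hA.equiv, hA.equiv, h3 x hx]

theorem Cl.eq (hA : Per p w F c) (h : Cl F c y y') : F y' = F y := by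
  obtain ⟨g, hg, h1⟩ := h
  rw [show F y' = F (g • y) from Sm.eq h1, hA.equiv, hg, add_zero]

theorem cl_of_same [Nonempty E] (hA : Per p w F c) (h : Same F y y') : Cl F c y y' :=
  ⟨1, per_one hA, by rwa [one_smul]⟩

theorem cl_refl [Nonempty E] (hA : Per p w F c) (y : E) : Cl F c y y := cl_of_same hA (Sm.refl y)

theorem Cl.smul [Nonempty E] (hp : IsGalois Γ p) (hA : Per p w F c) (γ : Γ) (h : Cl F c y y') :
    Cl F c (γ • y) (γ • y') := by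
  obtain ⟨g, hg, h1⟩ := h
  refine ⟨γ * g * γ⁻¹, ?_, ?_⟩
  · rw [per_add hA, per_add hA, per_inv hA, hg]
    abel
  · have := same_smul hp hA γ h1
    rwa [smul_smul, inv_mul_cancel_right, ← smul_smul]

theorem Cl.symm [Nonempty E] (hp : IsGalois Γ p) (hA : Per p w F c) (h : Cl F c y y') :
    Cl F c y' y := by
  obtain ⟨g, hg, h1⟩ := h
  refine ⟨g⁻¹, by rw [per_inv hA, hg, neg_zero], ?_⟩
  have h2 := same_smul hp hA g⁻¹ (Sm.symm h1)
  rwa [inv_smul_smul] at h2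

theorem Cl.trans [Nonempty E] (hp : IsGalois Γ p) (hA : Per p w F c) (h : Cl F c y y')
    (h' : Cl F c y' y'') : Cl F c y y'' := by
  obtain ⟨g, hg, h1⟩ := h
  obtain ⟨g', hg', h1'⟩ := h'
  refine ⟨g' * g, by rw [per_add hA, hg, hg', add_zero], ?_⟩
  have h2 := same_smul hp hA g' h1
  rw [smul_smul] at h2
  exact Sm.trans h2 h1'

theorem cl_ker [Nonempty E] (hA : Per p w F c) {g : Γ} (hg : c g = 0) (y : E) :
    Cl F c y (g • y) := ⟨g, hg, Sm.refl _⟩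

theorem cl_of_lift [Nonempty E] (hp : IsGalois Γ p) (hA : Per p w F c) (h : p y = p y')
    (h' : F y = F y') : Cl F c y y' := by
  obtain ⟨γ, rfl⟩ := (hp.orb y y').1 h
  refine cl_ker hA ?_ y
  rw [hA.equiv] at h'
  exact left_eq_add.1 h'

/-- local constancy of the classes -/
theorem cl_loc [T2Space X] [CompactSpace X] [Nonempty E] (hp : IsGalois Γ p) (hA : Per p w F c)
    (y y' : E) (hy : F y ∈ RV n p F) (hy' : F y' = F y) :
    ∃ U ∈ 𝓝 y, ∃ U' ∈ 𝓝 y', ∀ x ∈ U, ∀ x' ∈ U', F x = F x' → (Cl F c x x' ↔ Cl F c y y') := by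
  have hT2 : T2Space E := Vale.Agent.P284.H35.S4.t2_of_cov hp.cov
  obtain ⟨B, hB⟩ := hA.hol
  have hFc := per_cont hp.cov hA
  have h1 : ∀ z, F z = F y → ∀ O ∈ 𝓝 z, ∃ W, IsOpen W ∧ z ∈ W ∧ W ⊆ O ∧
      ∀ v, IsPreconnected (W ∩ F ⁻¹' {v}) := fun z hz O hO =>
    Vale.Agent.P284.H35.S4.box_E hp.cov hB (hy z hz) O hO
  by_cases hs : Cl F c y y'
  · obtain ⟨g, hg, hs'⟩ := id hs
    have h3 : F (g • y) = F y := by rw [hA.equiv, hg, add_zero]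
    obtain ⟨U, hU, U', hU', h⟩ := same_loc hp hA (g • y) y' (by rw [h3]; exact hy)
      (by rw [h3]; exact hy')
    refine ⟨(fun x => g • x) ⁻¹' U, (hp.cont g).continuousAt hU, U', hU',
      fun x hx x' hx' he => ⟨fun _ => hs, fun _ => ⟨g, hg, ?_⟩⟩⟩
    exact (h (g • x) hx x' hx' (by rw [hA.equiv, hg, add_zero]; exact he)).2 hs'
  · have h4 : ∃ B ∈ 𝓝 (F y), ∃ Q : Set E, IsCompact Q ∧
        ∀ z, F z ∈ B → ∃ k ∈ ker hA, k • z ∈ Q := by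
      obtain ⟨C, hC, hcov⟩ := per_compact hp hA (‖F y‖ + 1)
      refine ⟨ball (F y) 1, ball_mem_nhds _ one_pos, C, hC, fun z hz => hcov z ?_⟩
      have := mem_ball_iff_norm.1 hz
      calc ‖F z‖ = ‖F y + (F z - F y)‖ := by congr 1; abel
        _ ≤ ‖F y‖ + ‖F z - F y‖ := norm_add_le _ _
        _ ≤ _ := by linarith
    obtain ⟨U, hU, U', hU', h⟩ := bwdK hFc hp.cont (fun k hk y => ker_smul hA hk y) h1
      (Vale.Agent.P284.H35.S4.exists_cpt (p := p) n hp.cov) h4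
      (Vale.Agent.P284.H35.S4.proper_disc (Γ := Γ) hp) rfl hy'
    refine ⟨U, hU, U', hU', fun x hx x' hx' he => ⟨fun h' => ?_, fun h' => absurd h' hs⟩⟩
    obtain ⟨g, hg, h''⟩ := h'
    obtain ⟨k, hk, hk'⟩ := h x hx x' hx' ⟨g, hg, h''⟩
    exact ⟨k, hk, hk'⟩

end

end Vale.Agent.P284.H672
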