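import Vale.Agent.P284.H672.TW

/-!
# P284 (helper672): `T5Stmt`
-/

set_option linter.unusedSectionVars false

open scoped Manifold ContDiff Topology ENNReal ComplexOrder
open Filter Set Metric MeasureTheory

noncomputable section

namespace Vale.Agent.P284.H672

open Vale.Agent.P272.K Vale.Agent.P284.H894.G Vale.Agent.P284.H894.W Vale.Agent.P284.H494
  Vale.Agent.P284.H10 Vale.Agent.P284.H224 Vale.Agent.P272.KOD Vale.Agent.P284.H812
  Vale.Agent.P300.H266 Vale.Agent.P300.L2 Vale.Agent.P284.H998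

/-- expansion of the minors -/
theorem mnr_expand {n q : ℕ} (A : Cm n →L[ℂ] Cm q) (ξ : Fin q → Cm n) :
    (Matrix.of fun i j => A (ξ j) i).det = ∑ κ : Fin q → Fin n, (∏ j, ξ j (κ j)) *
      (Matrix.of fun i j => A (Pi.single (κ j) (1 : ℂ)) i).det := by
  set MM : MultilinearMap ℂ (fun _ : Fin q => Cm n) ℂ :=
    (Matrix.detRowAlternating (R := ℂ) (n := Fin q)).toMultilinearMap.compLinearMap
      (fun _ => (A : Cm n →ₗ[ℂ] Cm q)) with hMM
  have h0 : ∀ η : Fin q → Cm n, (Matrix.of fun i j => A (η j) i).det = MM η := by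
    intro η
    rw [← Matrix.det_transpose]
    rfl
  have h1 : ξ = fun j => ∑ k : Fin n, ξ j k • (Pi.single k (1 : ℂ) : Cm n) := by
    funext j
    exact pi_eq_sum_univ' (ξ j)
  rw [h0]
  conv_lhs => rw [h1]
  rw [MM.map_sum]
  refine Finset.sum_congr rfl fun κ _ => ?_
  rw [MM.map_smul_univ, smul_eq_mul, h0]

section
variable {n : ℕ} {X : Type} [TopologicalSpace X] [ChartedSpace (Cm n) X] {E : Type}
  [TopologicalSpace E] {p : E → X} {Γ : Type} [Group Γ] [MulAction Γ E]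
  {w : Chart n X → Cm n → Matrix (Fin n) (Fin n) ℂ} {q : ℕ} {F : E → Cm q} {c : Γ → Cm q}
  [T2Space X] [CompactSpace X] [IsManifold 𝓘(ℂ, Cm n) ω X]
  {Z : Type} [TopologicalSpace Z] {j : Z → X} [T2Space Z] [CompactSpace Z]
  [ChartedSpace (Cm q) Z] [IsManifold 𝓘(ℂ, Cm q) ω Z] {wz : Chart q Z → Cm q → ℝ}
  {W : Type} [NormedAddCommGroup W] [InnerProductSpace ℂ W] {h : E → W}

/-- every local expression of `F` is analytic -/
theorem analytic_expr (hp : IsCoveringMap p) {B : ℝ} (hB : HolB p w F B) {y : E} {e : Chart n X}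
    (he : At e (p y)) {f : Cm n → Cm q} (hfF : ∀ᶠ y' in 𝓝 y, F y' = f (e (p y'))) :
    AnalyticAt ℂ f (e (p y)) := by
  obtain ⟨ε, hε, hyε⟩ := exists_eps hp he
  have h1 := hε.ev_of hyε hfF
  have h2 : AnalyticAt ℂ (F ∘ ε.symm) (ε y) :=
    Vale.Agent.P268.analyticOnNhd_of_differentiableOn ε.open_target (hε.diff hB) _
      (ε.map_source hyε)
  rw [← hε.eq y hyε]
  exact h2.congr h1

/-- the chain rule for the multivalued map on `Z` -/
theorem fderiv_g {f : Cm n → Cm q} {e : Chart n X} {cc : Chart q Z} {ζ : Cm q}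
    (hf : AnalyticAt ℂ f (e (j (cc.symm ζ)))) (hι : AnalyticAt ℂ (fun ζ => e (j (cc.symm ζ))) ζ) :
    fderiv ℂ (fun ζ => f (e (j (cc.symm ζ)))) ζ =
      (fderiv ℂ f (e (j (cc.symm ζ)))).comp (fderiv ℂ (fun ζ => e (j (cc.symm ζ))) ζ) :=
  fderiv_comp (g := f) (f := fun ζ => e (j (cc.symm ζ))) ζ hf.differentiableAt hι.differentiableAt

/-- the points over the regular values of `Z` are regular -/
theorem reg_of_rho [Nonempty E] (hp : IsGalois Γ p) (hA : Per p w F c)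
    (hj : ContMDiff 𝓘(ℂ, Cm q) 𝓘(ℂ, Cm n) ω j) (hwz : IsCanonicalMetric wz) {y : E} {z : Z}
    (hy : p y = j z) (hz : rho (OvE p F j) wz z ≠ 0) : Reg (n := n) p F y := by
  obtain ⟨B, hB⟩ := id hA.hol
  intro e f he hfF
  have hf := analytic_expr hp.cov hB he hfF
  have hcc : At (chartAt (Cm q) z : Chart q Z) z := ⟨chart_mem_atlas _ _, mem_chart_source _ _⟩
  obtain ⟨h1, h2, -, -⟩ := isG_of (F := F) hp.cov hj hy he hf hfF hcc
  have h3 := (rho_ne (tmap hp hA hj) hwz hcc h1).1 hz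
  have hleft : (chartAt (Cm q) z).symm ((chartAt (Cm q) z) z) = z :=
    (chartAt (Cm q) z).left_inv (mem_chart_source _ _)
  rw [fderiv_g (by rw [hleft, ← hy]; exact hf) h2] at h3
  have h4 : Function.Surjective ((fderiv ℂ f (e (j ((chartAt (Cm q) z).symm
      ((chartAt (Cm q) z) z))))).comp (fderiv ℂ (fun ζ => e (j ((chartAt (Cm q) z).symm ζ)))
        ((chartAt (Cm q) z) z))) := by
    intro v
    refine ⟨(ContinuousLinearMap.toContinuousLinearEquivOfDetNeZero _ h3).symm v, ?_⟩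
    exact (ContinuousLinearMap.toContinuousLinearEquivOfDetNeZero _ h3).apply_symm_apply v
  rw [hleft, ← hy] at h4
  intro v
  obtain ⟨u, hu⟩ := h4 v
  exact ⟨_, hu⟩

/-- the square of the norm, as a function on the covering -/
def hn (p : E → X) (F : E → Cm q) (j : Z → X) (h : E → W) (t : Cm q) (z : Z) : ℝ≥0∞ :=
  open Classical in if hz : OvE p F j t z then ENNReal.ofReal (‖h hz.choose‖ ^ 2) else 0

theorem hn_eq [Nonempty E] (hp : IsGalois Γ p) (hA : Per p w F c)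
    (hker : ∀ g : Γ, c g = 0 → ∀ y, Reg (n := n) p F y → ‖h (g • y)‖ = ‖h y‖) {e : E} {z : Z}
    (he : p e = j z) (hr : Reg (n := n) p F e) : hn p F j h (F e) z = ENNReal.ofReal (‖h e‖ ^ 2) := by
  have hz : OvE p F j (F e) z := ⟨e, he, rfl⟩
  rw [hn, dif_pos hz]
  obtain ⟨h1, h2⟩ := hz.choose_spec
  obtain ⟨g, hg⟩ := (hp.orb e hz.choose).1 (he.trans h1.symm)
  have h3 : c g = 0 := by
    rw [← hg, hA.equiv] at h2
    simpa using h2
  rw [← hg, hker g h3 e hr]

theorem det_fderiv_eq {q : ℕ} (A : Cm q →L[ℂ] Cm q) :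
    A.det = (Matrix.of fun i j => A (Pi.single j (1 : ℂ)) i).det := by
  rw [ContinuousLinearMap.det, ← LinearMap.det_toMatrix']
  congr 1

/-- charts of the graph of the multivalued map -/
theorem graph_chart [ConnectedSpace E] [Nonempty (TT (OvE p F j) wz)] (hp : IsGalois Γ p)
    (hA : Per p w F c) (hj : ContMDiff 𝓘(ℂ, Cm q) 𝓘(ℂ, Cm n) ω j) (hwz : IsCanonicalMetric wz)
    (hS : SheetHol n p F h)
    (hker : ∀ g : Γ, c g = 0 → ∀ y, Reg (n := n) p F y → ‖h (g • y)‖ = ‖h y‖) {t₀ : Cm q} {z₀ : Z}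
    (hz₀ : OvE p F j t₀ z₀) :
    ∃ N ∈ 𝓝 (t₀, z₀), ∃ (κ : Cm q → TT (OvE p F j) wz) (A : Set (Cm q)) (M : ℝ),
      IsChart TT.p κ A ∧ volume A ≠ ⊤ ∧
      (∀ ζ ∈ A, ENNReal.ofReal (‖jac TT.p κ ζ‖ ^ 2) * hn p F j h (κ ζ).p (κ ζ).z ≤
        ENNReal.ofReal M) ∧
      ∀ x : TT (OvE p F j) wz, (x.p, x.z) ∈ N → x ∈ κ '' A := by
  classical
  obtain ⟨B, hB⟩ := id hA.hol
  have hT := tmap hp hA hj
  set cc : Chart q Z := chartAt (Cm q) z₀ with hccdef
  have hcc : At cc z₀ := ⟨chart_mem_atlas _ _, mem_chart_source _ _⟩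
  obtain ⟨e₀, he₀, hFe₀⟩ := id hz₀
  set e : Chart n X := chartAt (Cm n) (p e₀) with hedef
  have he : At e (p e₀) := ⟨chart_mem_atlas _ _, mem_chart_source _ _⟩
  obtain ⟨f, hf, hfF⟩ := exists_expr hB e₀ e he
  obtain ⟨hG, hι, hval, hlift⟩ := isG_of (F := F) hp.cov hj he₀ he hf hfF hcc
  obtain ⟨O, l, hO, hzO, hlc, hl0, hlp⟩ := exists_lift hp.cov hj.continuous he₀
  set ζ₀ := cc z₀ with hζ₀
  set ι : Cm q → Cm n := fun ζ => e (j (cc.symm ζ)) with hιdef
  set g : Cm q → Cm q := fun ζ => f (ι ζ) with hgdef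
  have hcz : cc.symm ζ₀ = z₀ := cc.left_inv hcc.2
  have hιz : ι ζ₀ = e (p e₀) := by rw [hιdef]; simp only; rw [hcz, he₀]
  have hlca : ContinuousAt l z₀ := hlc.continuousAt (hO.mem_nhds hzO)
  -- the extension data
  have hext := fun κ' : Fin q → Fin n => hS.ext e₀ e f he hf hfF
    (fun j => (Pi.single (κ' j) (1 : ℂ) : Cm n))
  choose φ hφa hφ using hext
  set T : Cm q → W := fun ζ => ∑ κ' : Fin q → Fin n,
    (∏ j, fderiv ℂ ι ζ (Pi.single j (1 : ℂ)) (κ' j)) • φ κ' (ι ζ) with hTdef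
  have hTc : ContinuousAt T ζ₀ := by
    refine tendsto_finset_sum _ fun κ' _ => ?_
    refine ContinuousAt.smul (f := fun ζ => ∏ j, fderiv ℂ ι ζ (Pi.single j (1 : ℂ)) (κ' j))
      (g := fun ζ => φ κ' (ι ζ)) ?_ ?_
    · refine tendsto_finset_prod _ fun k _ => ?_
      have h1 : ContinuousAt (fderiv ℂ ι) ζ₀ := hι.fderiv.continuousAt
      have h2 : ContinuousAt (fun ζ => fderiv ℂ ι ζ (Pi.single k (1 : ℂ))) ζ₀ :=
        h1.clm_apply continuousAt_const
      exact (continuous_apply (κ' k)).continuousAt.comp h2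
    · refine ContinuousAt.comp (g := φ κ') (f := ι) ?_ hι.continuousAt
      rw [hιz]
      exact (hφa κ').continuousAt
  -- the conditions near `ζ₀`
  have hev : ∀ᶠ ζ in 𝓝 ζ₀, ζ ∈ cc.target ∧ cc.symm ζ ∈ O ∧ F (l (cc.symm ζ)) = g ζ ∧
      AnalyticAt ℂ g ζ ∧ AnalyticAt ℂ ι ζ ∧ AnalyticAt ℂ f (ι ζ) ∧
      (∀ κ' : Fin q → Fin n, Reg (n := n) p F (l (cc.symm ζ)) →
        (Matrix.of fun i j => fderiv ℂ f (e (p (l (cc.symm ζ))))
          (Pi.single (κ' j) (1 : ℂ) : Cm n) i).det • h (l (cc.symm ζ)) =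
            φ κ' (e (p (l (cc.symm ζ))))) ∧ ‖T ζ‖ < ‖T ζ₀‖ + 1 := by
    have h1 := ev_target hcc
    have h2 := ev_chart (P := fun z => z ∈ O) hcc (hO.mem_nhds hzO)
    have h3 := ev_chart hcc (hlift l hlca hl0 (by
      filter_upwards [hO.mem_nhds hzO] with z hz using hlp z hz))
    have h4 := hG.1.eventually_analyticAt
    have h5 := hι.eventually_analyticAt
    have h6 : ∀ᶠ ζ in 𝓝 ζ₀, AnalyticAt ℂ f (ι ζ) := by
      refine hι.continuousAt.eventually (p := fun x => AnalyticAt ℂ f x) ?_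
      rw [hιz]
      exact hf.eventually_analyticAt
    have h7 : ∀ᶠ ζ in 𝓝 ζ₀, ∀ κ' : Fin q → Fin n, Reg (n := n) p F (l (cc.symm ζ)) →
        (Matrix.of fun i j => fderiv ℂ f (e (p (l (cc.symm ζ))))
          (Pi.single (κ' j) (1 : ℂ) : Cm n) i).det • h (l (cc.symm ζ)) =
            φ κ' (e (p (l (cc.symm ζ)))) := by
      rw [Filter.eventually_all]
      intro κ'
      refine ev_chart (P := fun z => Reg (n := n) p F (l z) →
        (Matrix.of fun i j => fderiv ℂ f (e (p (l z)))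
          (Pi.single (κ' j) (1 : ℂ) : Cm n) i).det • h (l z) = φ κ' (e (p (l z)))) hcc ?_
      refine hlca.eventually (p := fun y' => Reg (n := n) p F y' →
        (Matrix.of fun i j => fderiv ℂ f (e (p y'))
          (Pi.single (κ' j) (1 : ℂ) : Cm n) i).det • h y' = φ κ' (e (p y'))) ?_
      rw [hl0]
      exact hφ κ'
    have h8 : ∀ᶠ ζ in 𝓝 ζ₀, ‖T ζ‖ < ‖T ζ₀‖ + 1 :=
      hTc.norm.eventually_lt_const (by linarith)
    filter_upwards [h1, h2, h3, h4, h5, h6, h7, h8] with ζ a1 a2 a3 a4 a5 a6 a7 a8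
    refine ⟨a1, a2, ?_, a4, a5, a6, a7, a8⟩
    rw [a3, cc.right_inv a1]
  obtain ⟨r, hr, hball⟩ := Metric.eventually_nhds_iff_ball.1 hev
  have hOv : ∀ ζ ∈ ball ζ₀ r, OvE p F j (g ζ) (cc.symm ζ) := fun ζ hζ =>
    ⟨l (cc.symm ζ), hlp _ (hball ζ hζ).2.1, (hball ζ hζ).2.2.1⟩
  set A : Set (Cm q) := ball ζ₀ r ∩ g ⁻¹' VZ (OvE p F j) wz with hAdef
  have hgc : ContinuousOn g (ball ζ₀ r) := fun ζ hζ =>
    (hball ζ hζ).2.2.2.1.continuousAt.continuousWithinAt
  have hAo : IsOpen A := hgc.isOpen_inter_preimage isOpen_ball (isOpen_VZ hT hwz)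
  obtain ⟨x₀⟩ := ‹Nonempty (TT (OvE p F j) wz)›
  set κ : Cm q → TT (OvE p F j) wz := fun ζ => if hζ : ζ ∈ A then
    TT.mk (g ζ) (cc.symm ζ) hζ.2 (hOv ζ hζ.1) else x₀ with hκ
  have hκp : ∀ ζ ∈ A, (κ ζ).p = g ζ := fun ζ hζ => by
    simp only [hκ, dif_pos hζ]; rfl
  have hκz : ∀ ζ ∈ A, (κ ζ).z = cc.symm ζ := fun ζ hζ => by
    simp only [hκ, dif_pos hζ]; rfl
  have hchart : IsChart TT.p κ A := by
    refine ⟨hAo, ?_, ?_, ?_⟩
    · rw [continuousOn_iff_continuous_domRestrict]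
      have h9 : ∀ ζ : A, (A.domRestrict κ) ζ =
          TT.mk (g ζ.1) (cc.symm ζ.1) ζ.2.2 (hOv ζ.1 ζ.2.1) := by
        intro ζ
        simp [Set.domRestrict, hκ]
      rw [funext h9]
      refine Continuous.subtype_mk ?_ _
      refine Continuous.prodMk ?_ ?_
      · exact continuousOn_iff_continuous_domRestrict.1 (hgc.mono inter_subset_left)
      · refine continuousOn_iff_continuous_domRestrict.1 (cc.continuousOn_symm.mono fun ζ hζ => ?_)
        exact (hball ζ hζ.1).1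
    · intro ζ hζ ζ' hζ' heq
      have h9 := congrArg TT.z heq
      rw [hκz ζ hζ, hκz ζ' hζ'] at h9
      exact cc.symm.injOn (hball ζ hζ.1).1 (hball ζ' hζ'.1).1 h9
    · refine DifferentiableOn.congr (f := g) (fun ζ hζ => ?_) hκp
      exact (hball ζ hζ.1).2.2.2.1.differentiableAt.differentiableWithinAt
  -- the neighbourhood
  obtain ⟨δ, hδ, hiso⟩ := hT.disc.isolated 0
  have hN : ∀ᶠ x : Cm q × Z in 𝓝 (t₀, z₀), x.2 ∈ cc.source ∧ cc x.2 ∈ ball ζ₀ r ∧
      ‖x.1 - g (cc x.2)‖ < δ := by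
    have h1 : ∀ᶠ x : Cm q × Z in 𝓝 (t₀, z₀), x.2 ∈ cc.source :=
      continuousAt_snd.eventually (cc.open_source.mem_nhds hcc.2)
    have h2 : ContinuousAt (fun x : Cm q × Z => cc x.2) (t₀, z₀) :=
      ContinuousAt.comp (g := cc) (f := Prod.snd) (cc.continuousAt hcc.2) continuousAt_snd
    have h3 : ContinuousAt (fun x : Cm q × Z => ‖x.1 - g (cc x.2)‖) (t₀, z₀) := by
      refine (continuousAt_fst.sub ?_).norm
      exact ContinuousAt.comp (g := g) (f := fun x : Cm q × Z => cc x.2) hG.1.continuousAt h2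
    have h4 : ‖t₀ - g (cc z₀)‖ < δ := by
      have : g (cc z₀) = t₀ := by
        show f (e (j (cc.symm (cc z₀)))) = t₀
        rw [← hFe₀]; exact hval
      rw [this, sub_self, norm_zero]
      exact hδ
    filter_upwards [h1, h2.eventually (ball_mem_nhds ζ₀ hr), h3.eventually_lt_const h4] with x a b c
    exact ⟨a, b, c⟩
  refine ⟨_, hN, κ, A, (‖T ζ₀‖ + 1) ^ 2, hchart, ?_, ?_, ?_⟩
  · exact ((measure_mono inter_subset_left).trans_lt measure_ball_lt_top).ne
  · intro ζ hζ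
    obtain ⟨a1, a2, a3, a4, a5, a6, a7, a8⟩ := hball ζ hζ.1
    rw [hκp ζ hζ, hκz ζ hζ]
    set y' := l (cc.symm ζ) with hy'
    have hpy' : p y' = j (cc.symm ζ) := hlp _ a2
    have hrg : Reg (n := n) p F y' := reg_of_rho hp hA hj hwz hpy' (hζ.2 _ (hOv ζ hζ.1))
    have h1 := hn_eq (h := h) hp hA hker hpy' hrg
    rw [a3] at h1
    rw [h1]
    have h2 : jac TT.p κ ζ = (fderiv ℂ g ζ).det := by
      unfold jac
      have h3 : (fun x => TT.p (κ x)) =ᶠ[𝓝 ζ] g := by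
        filter_upwards [hAo.mem_nhds hζ] with ζ' hζ' using hκp ζ' hζ'
      rw [h3.fderiv_eq]
    have h4 : (fderiv ℂ g ζ).det • h y' = T ζ := by
      have h5 : fderiv ℂ g ζ = (fderiv ℂ f (ι ζ)).comp (fderiv ℂ ι ζ) := fderiv_g a6 a5
      have h6 : (fderiv ℂ g ζ).det = ∑ κ' : Fin q → Fin n,
          (∏ j, fderiv ℂ ι ζ (Pi.single j (1 : ℂ)) (κ' j)) *
          (Matrix.of fun i j => fderiv ℂ f (ι ζ) (Pi.single (κ' j) (1 : ℂ)) i).det := by
        rw [det_fderiv_eq, h5]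
        exact mnr_expand (fderiv ℂ f (ι ζ)) fun j => fderiv ℂ ι ζ (Pi.single j (1 : ℂ))
      rw [h6, Finset.sum_smul]
      refine Finset.sum_congr rfl fun κ' _ => ?_
      rw [mul_smul]
      congr 1
      have h7 := a7 κ' hrg
      rw [hpy'] at h7
      exact h7
    rw [h2, ← ENNReal.ofReal_mul (by positivity), ← mul_pow, ← norm_smul, h4]
    exact ENNReal.ofReal_le_ofReal (pow_le_pow_left₀ (norm_nonneg _) a8.le 2)
  · rintro x ⟨h1, h2, h3⟩
    have h4 : cc.symm (cc x.z) = x.z := cc.left_inv h1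
    have h5 := hOv _ h2
    rw [h4] at h5
    have h6 := hT.sub_mem h5 x.ov
    have h7 : x.p = g (cc x.z) := by
      have := hiso _ h6 (by rw [dist_zero_right]; exact h3)
      exact sub_eq_zero.1 this
    have h8 : cc x.z ∈ A := ⟨h2, by
      show g (cc x.z) ∈ VZ (OvE p F j) wz
      rw [← h7]; exact x.mem⟩
    exact ⟨cc x.z, h8, TT.ext (by rw [hκp _ h8, h7]) (by rw [hκz _ h8, h4])⟩

theorem hn_cont [ConnectedSpace E] (hp : IsGalois Γ p)
    (hA : Per p w F c) (hj : ContMDiff 𝓘(ℂ, Cm q) 𝓘(ℂ, Cm n) ω j) (hwz : IsCanonicalMetric wz)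
    (hS : SheetHol n p F h)
    (hker : ∀ g : Γ, c g = 0 → ∀ y, Reg (n := n) p F y → ‖h (g • y)‖ = ‖h y‖) :
    Continuous fun x : TT (OvE p F j) wz => hn p F j h x.p x.z := by
  rw [continuous_iff_continuousAt]
  intro x₀
  have hT := tmap hp hA hj
  have hFc := per_cont hp.cov hA
  obtain ⟨e₀, he₀, hFe₀⟩ := x₀.ov
  obtain ⟨O, l, hO, hzO, hlc, hl0, hlp⟩ := exists_lift hp.cov hj.continuous he₀
  have hlca : ContinuousAt l x₀.z := hlc.continuousAt (hO.mem_nhds hzO)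
  have hlx : ContinuousAt (fun x : TT (OvE p F j) wz => l x.z) x₀ :=
    ContinuousAt.comp (g := l) (f := TT.z) hlca TT.continuous_z.continuousAt
  obtain ⟨δ, hδ, hiso⟩ := hT.disc.isolated 0
  have hrg₀ : Reg (n := n) p F e₀ := reg_of_rho hp hA hj hwz he₀ (x₀.mem _ x₀.ov)
  have h1 : ContinuousAt (fun x : TT (OvE p F j) wz => ‖F (l x.z) - x.p‖) x₀ :=
    ((hFc.continuousAt.comp hlx).sub TT.continuous_p.continuousAt).norm
  have h2 : ‖F (l x₀.z) - x₀.p‖ < δ := by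
    rw [hl0, hFe₀, sub_self, norm_zero]; exact hδ
  have h3 : (fun x : TT (OvE p F j) wz => hn p F j h x.p x.z) =ᶠ[𝓝 x₀]
      fun x => ENNReal.ofReal (‖h (l x.z)‖ ^ 2) := by
    filter_upwards [h1.eventually_lt_const h2,
      TT.continuous_z.continuousAt.eventually (hO.mem_nhds hzO)] with x h4 h5
    have h6 : OvE p F j (F (l x.z)) x.z := ⟨l x.z, hlp _ h5, rfl⟩
    have h7 : F (l x.z) = x.p :=
      sub_eq_zero.1 (hiso _ (hT.sub_mem x.ov h6) (by rw [dist_zero_right]; exact h4))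
    have h8 := hn_eq (h := h) hp hA hker (hlp _ h5)
      (reg_of_rho hp hA hj hwz (hlp _ h5) (x.mem _ x.ov))
    rw [h7] at h8
    exact h8
  refine ContinuousAt.congr ?_ h3.symm
  obtain ⟨f, hf, hfe⟩ := hS.loc e₀ hrg₀
  have h9 : ContinuousAt h e₀ := by
    have h10 : ContinuousAt (fun y' => f (F y')) e₀ :=
      ContinuousAt.comp (g := f) (f := F) hf.continuousAt hFc.continuousAt
    exact h10.congr (hfe.mono fun _ hh => hh.symm)
  have h11 : ContinuousAt (fun x : TT (OvE p F j) wz => h (l x.z)) x₀ := by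
    refine ContinuousAt.comp (g := h) (f := fun x : TT (OvE p F j) wz => l x.z) ?_ hlx
    rw [hl0]; exact h9
  exact ENNReal.continuous_ofReal.continuousAt.comp (h11.norm.pow 2)

/-- the norms are attained over `Z` -/
theorem norm_le_hn [ConnectedSpace E] (hp : IsGalois Γ p) (hA : Per p w F c)
    (hS : SheetHol n p F h)
    (hker : ∀ g : Γ, c g = 0 → ∀ y, Reg (n := n) p F y → ‖h (g • y)‖ = ‖h y‖) {y : E}
    (hy : F y ∈ RV n p F) {z : Z} (hz : z ∈ AA p F c j y) :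
    ENNReal.ofReal (‖h y‖ ^ 2) = hn p F j h (F y) z := by
  obtain ⟨e, he, hc⟩ := hz
  have hFe := hc.eq hA
  obtain ⟨g, hg, hs⟩ := hc
  have h1 := hn_eq (h := h) hp hA hker he (hy e hFe.symm)
  rw [hFe, h1, ← hker g hg e (hy e hFe.symm)]
  have h2 : h (g • e) = h y := by
    refine const_of_loc (F := F) (C := connectedComponentIn (F ⁻¹' {F (g • e)}) (g • e))
      isPreconnected_connectedComponentIn (v := F (g • e)) (fun x hx => ?_) (fun x hx => ?_)
      (mem_connectedComponentIn rfl) hs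
    · exact (connectedComponentIn_subset _ _ hx : x ∈ F ⁻¹' {F (g • e)})
    · have h3 : F x = F (g • e) := (connectedComponentIn_subset _ _ hx : x ∈ F ⁻¹' {F (g • e)})
      obtain ⟨f, -, hf⟩ := hS.loc x (hy x (by rw [h3, hA.equiv, hg, add_zero, hFe]))
      exact ⟨f, hf⟩
  rw [h2]

/-- integrability -/
theorem hn_int [ConnectedSpace E] [SecondCountableTopology Z] (hq : 1 ≤ q) (hp : IsGalois Γ p)
    (hA : Per p w F c) (hj : ContMDiff 𝓘(ℂ, Cm q) 𝓘(ℂ, Cm n) ω j) (hwz : IsCanonicalMetric wz)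
    {N : ℕ} (hN1 : 1 ≤ N) (hN : ∀ t ∈ VZ (OvE p F j) wz, (fib (OvE p F j) t).ncard = N)
    [Nonempty (TT (OvE p F j) wz)] (hS : SheetHol n p F h)
    (hker : ∀ g : Γ, c g = 0 → ∀ y, Reg (n := n) p F y → ‖h (g • y)‖ = ‖h y‖) (R : ℝ) :
    ∫⁻ t in ball (0 : Cm q) R ∩ VZ (OvE p F j) wz, ∑ᶠ z ∈ fib (OvE p F j) t, hn p F j h t z < ⊤ := by
  classical
  borelize (TT (OvE p F j) wz)
  have hT := tmap hp hA hj
  have hfc := isFinCov hT hwz hN1 hN
  set D := hfc.ecov with hD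
  set K : TT (OvE p F j) wz → ℝ≥0∞ := fun x => hn p F j h x.p x.z with hK
  have hKm : Measurable K := (hn_cont hp hA hj hwz hS hker).measurable
  -- the compact piece of the graph
  set KR : Set (Cm q × Z) := {x | ‖x.1‖ ≤ R ∧ OvE p F j x.1 x.2} with hKR
  have hKRc : IsCompact KR := by
    have h1 : KR = (closedBall (0 : Cm q) R ×ˢ (univ : Set Z)) ∩ {x | OvE p F j x.1 x.2} := by
      ext x
      simp [hKR]
    rw [h1]
    exact ((isCompact_closedBall _ _).prod isCompact_univ).inter_right (isClosed_ov hT)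
  have key : ∫⁻ x in {x : TT (OvE p F j) wz | (x.p, x.z) ∈ KR}, K x ∂D.μE < ⊤ := by
    refine hKRc.induction_on (p := fun S => ∫⁻ x in {x : TT (OvE p F j) wz | (x.p, x.z) ∈ S},
      K x ∂D.μE < ⊤) ?_ ?_ ?_ ?_
    · simp
    · intro S T hST hT
      exact lt_of_le_of_lt (lintegral_mono_set (μ := D.μE) (f := K)
        (show {x : TT (OvE p F j) wz | (x.p, x.z) ∈ S} ⊆ {x | (x.p, x.z) ∈ T} from
          fun x hx => hST hx)) hT
    · intro S T hS hT
      refine lt_of_le_of_lt ?_ (ENNReal.add_lt_top.2 ⟨hS, hT⟩)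
      exact lintegral_union_le _ _ _
    · rintro ⟨t₀, z₀⟩ ⟨-, hz₀⟩
      obtain ⟨N', hN', κ, A, M, hch, hvol, hM, hsub⟩ := graph_chart (h := h) (wz := wz) hp hA hj
        hwz hS hker hz₀
      refine ⟨N', mem_nhdsWithin_of_mem_nhds hN', ?_⟩
      have h1 := ECov.cov D (κ := κ) (B := A) hch hKm hch.isOpen.measurableSet subset_rfl
      calc ∫⁻ x in {x : TT (OvE p F j) wz | (x.p, x.z) ∈ N'}, K x ∂D.μE
          ≤ ∫⁻ x in κ '' A, K x ∂D.μE := lintegral_mono_set fun x hx => hsub x hx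
        _ = _ := h1
        _ ≤ ∫⁻ _ in A, ENNReal.ofReal M := setLIntegral_mono' hch.isOpen.measurableSet
            fun ζ hζ => hM ζ hζ
        _ < ⊤ := by
            rw [lintegral_const, Measure.restrict_apply MeasurableSet.univ, univ_inter]
            exact ENNReal.mul_lt_top ENNReal.ofReal_lt_top (lt_top_iff_ne_top.2 hvol)
  have hset : MeasurableSet {x : TT (OvE p F j) wz | (x.p, x.z) ∈ KR} := by
    have h1 : {x : TT (OvE p F j) wz | (x.p, x.z) ∈ KR} = {x | ‖x.p‖ ≤ R} := by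
      ext x
      exact ⟨fun hx => hx.1, fun hx => ⟨hx, x.ov⟩⟩
    rw [h1]
    exact (isClosed_le TT.continuous_p.norm continuous_const).measurableSet
  rw [← lintegral_indicator hset, D.lintegral_μE (hKm.indicator hset)] at key
  refine lt_of_le_of_lt ?_ key
  refine le_trans ?_ (lintegral_mono_set (μ := volume)
    (f := fun t => ∑ x ∈ D.fibE t, {x : TT (OvE p F j) wz | (x.p, x.z) ∈ KR}.indicator K x)
    (inter_subset_right : ball (0 : Cm q) R ∩ VZ (OvE p F j) wz ⊆ VZ (OvE p F j) wz))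
  refine setLIntegral_mono' (measurableSet_ball.inter (isOpen_VZ hT hwz).measurableSet)
    fun t ht => ?_
  rw [← sum_fibE hfc (fun t z => hn p F j h t z) ht.2]
  refine Finset.sum_le_sum fun x hx => ?_
  have h2 : TT.p x = t := (D.mem_fibE ht.2 x).1 hx
  rw [indicator_of_mem]
  exact ⟨by rw [h2]; exact (mem_ball_zero_iff.1 ht.1).le, x.ov⟩

end

theorem t5Stmt : T5Stmt := by
  intro n q X _ _ _ _ _ _ ι _ PJX w E Γ _ _ _ _ p hp F c hA hex W _ _ _ h hS hker
  classical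
  rcases Nat.eq_zero_or_pos q with rfl | hq
  · obtain ⟨y₀, -⟩ := hex
    refine ⟨fun _ => ENNReal.ofReal (‖h y₀‖ ^ 2), fun R => ?_, fun y _ => ?_⟩
    · rw [lintegral_const, Measure.restrict_apply MeasurableSet.univ, univ_inter]
      exact ENNReal.mul_lt_top ENNReal.ofReal_lt_top measure_ball_lt_top
    · have h1 : h y = h y₀ := const_of_loc (F := F) (C := univ) isPreconnected_univ
        (v := F y₀) (fun x _ => Subsingleton.elim _ _) (fun x _ => by
          obtain ⟨f, -, hf⟩ := hS.loc x (reg_zero x)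
          exact ⟨f, hf⟩) (mem_univ _) (mem_univ _)
      rw [h1]
  obtain ⟨Z, _, _, _, _, _, _, j, hj, wz, hwz, hpos, hrho⟩ := exists_Z PJX hq hp hA hex
  have hT := tmap hp hA hj
  obtain ⟨N, hN1, hN⟩ := exists_card hq hT hwz hrho
  obtain ⟨N₁, hN₁1, hN₁⟩ := exists_N1 hq hp hA hj hwz hrho hex
  have hsc : SecondCountableTopology Z := ChartedSpace.secondCountable_of_sigmaCompact (Cm q) Z
  have hVo := isOpen_V1 (n := n) hp hA hj hwz
  have hVc := cov_V1 (n := n) hq hp hA hj hwz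
  obtain ⟨t₁, -, ht₁⟩ := meets_V1 (n := n) (wz := wz) (O := univ) hq hp hA hj hwz isOpen_univ
    univ_nonempty
  have hfne : (fib (OvE p F j) t₁).Nonempty := by
    rw [nonempty_iff_ne_empty]
    intro h
    have := hN t₁ ht₁.1
    rw [h, ncard_empty] at this
    omega
  obtain ⟨z₁, hz₁⟩ := hfne
  have hNE : Nonempty (TT (OvE p F j) wz) := ⟨TT.mk t₁ z₁ ht₁.1 hz₁⟩
  refine ⟨fun t => if t ∈ V1 n p F j wz then ∑ᶠ z ∈ fib (OvE p F j) t, hn p F j h t z else ⊤,
    fun R => ?_, fun y hy => ?_⟩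
  · have hnull : volume (V1 n p F j wz)ᶜ = 0 := by
      have h1 := null_of_cov hVc (by simp; omega)
      exact (Measure.absolutelyContinuous_isAddHaarMeasure volume Measure.addHaar) h1
    set s : Cm q → ℝ≥0∞ := fun t => if t ∈ V1 n p F j wz then
      ∑ᶠ z ∈ fib (OvE p F j) t, hn p F j h t z else ⊤ with hs
    have h1 : ∫⁻ t in ball (0 : Cm q) R, s t ≤
        (∫⁻ t in ball (0 : Cm q) R ∩ V1 n p F j wz, s t) + ∫⁻ t in (V1 n p F j wz)ᶜ, s t := by
      refine le_trans (lintegral_mono_set (t := (ball (0 : Cm q) R ∩ V1 n p F j wz) ∪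
        (V1 n p F j wz)ᶜ) fun t ht => ?_) (lintegral_union_le _ _ _)
      by_cases h : t ∈ V1 n p F j wz
      · exact Or.inl ⟨ht, h⟩
      · exact Or.inr h
    rw [setLIntegral_measure_zero _ _ hnull, add_zero] at h1
    refine h1.trans_lt (lt_of_le_of_lt ?_ (hn_int (h := h) hq hp hA hj hwz hN1 hN hS hker R))
    refine le_trans ?_ (lintegral_mono_set (μ := volume)
      (f := fun t => ∑ᶠ z ∈ fib (OvE p F j) t, hn p F j h t z)
      (inter_subset_inter_right _ inter_subset_left :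
        ball (0 : Cm q) R ∩ V1 n p F j wz ⊆ ball (0 : Cm q) R ∩ VZ (OvE p F j) wz))
    refine setLIntegral_mono' (measurableSet_ball.inter hVo.measurableSet) fun t ht => ?_
    rw [hs]
    simp only
    rw [if_pos ht.2]
  · by_cases hV : F y ∈ V1 n p F j wz
    · simp only
      rw [if_pos hV]
      have hAne : (AA p F c j y).Nonempty := by
        rw [nonempty_iff_ne_empty]
        intro h
        have := hN₁ y hV
        rw [h, ncard_empty] at this
        omega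
      obtain ⟨z, hz⟩ := hAne
      have hfin := finite_fib' hT hwz hV.1
      rw [norm_le_hn hp hA hS hker hy hz, finsum_mem_eq_finite_toFinset_sum _ hfin]
      exact Finset.single_le_sum (f := fun z => hn p F j h (F y) z) (fun _ _ => zero_le)
        ((hfin.mem_toFinset).2 (AA_sub hA y hz))
    · simp only
      rw [if_neg hV]
      exact le_top

end Vale.Agent.P284.H672
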