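import Vale.Agent.P284.H672.TA

/-!
# P284 (helper672): the sum over a class
-/

set_option linter.unusedSectionVars false

open scoped Manifold ContDiff Topology ENNReal
open Filter Set Metric MeasureTheory

noncomputable section

namespace Vale.Agent.P284.H672

open Vale.Agent.P272.K Vale.Agent.P284.H894.G Vale.Agent.P284.H894.W Vale.Agent.P284.H494
  Vale.Agent.P284.H10 Vale.Agent.P284.H224 Vale.Agent.P272.KOD Vale.Agent.P284.H812
  Vale.Agent.P300.H266 Vale.Agent.P300.L2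

section
variable {q : ℕ} {Z : Type} [TopologicalSpace Z] [ChartedSpace (Cm q) Z]
  {L : AddSubgroup (Cm q)} {Ov : Cm q → Z → Prop} [IsManifold 𝓘(ℂ, Cm q) ω Z]
  {wz : Chart q Z → Cm q → ℝ} {t : Cm q} {W : Set (Cm q)} {s : Z → Cm q → Z}

theorem LFib.finsum_eq (hL : LFib Ov wz t W s) {M : Type*} [AddCommMonoid M] (K : Z → M)
    {τ : Cm q} (hτ : τ ∈ W) : ∑ᶠ z ∈ fib Ov τ, K z = ∑ᶠ z ∈ fib Ov t, K (s z τ) := by
  rw [hL.surj τ hτ, finsum_mem_image (hL.inj τ hτ)]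

theorem sum_fibE [T2Space Z] [CompactSpace Z] [Nonempty (TT Ov wz)] {N : ℕ}
    (h : IsFinCov (TT.p (Ov := Ov) (w := wz)) (VZ Ov wz) N) {M : Type*} [AddCommMonoid M]
    (K : Cm q → Z → M) {τ : Cm q} (hτ : τ ∈ VZ Ov wz) :
    ∑ x ∈ h.ecov.fibE τ, K x.p x.z = ∑ᶠ z ∈ fib Ov τ, K τ z := by
  classical
  have hmem : ∀ x, x ∈ h.ecov.fibE τ ↔ TT.p x = τ := h.ecov.mem_fibE hτ
  have h1 : fib Ov τ = TT.z '' (h.ecov.fibE τ : Set (TT Ov wz)) := by
    ext z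
    constructor
    · intro hz
      exact ⟨TT.mk τ z hτ hz, (hmem _).2 rfl, rfl⟩
    · rintro ⟨x, hx, rfl⟩
      have h2 : TT.p x = τ := (hmem x).1 hx
      have := x.ov
      rw [h2] at this
      exact this
  have h2 : InjOn TT.z (h.ecov.fibE τ : Set (TT Ov wz)) := by
    intro x hx y hy hxy
    exact TT.ext (((hmem x).1 hx).trans ((hmem y).1 hy).symm) hxy
  rw [h1, finsum_mem_image h2, finsum_mem_coe_finset]
  refine Finset.sum_congr rfl fun x hx => ?_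
  rw [(hmem x).1 hx]

/-- continuity of sums over the fibre -/
theorem continuousOn_sum [T2Space Z] [CompactSpace Z] (hT : TMap L Ov) (hw : IsCanonicalMetric wz)
    {K : Cm q → Z → ℝ≥0∞} (hK : ∀ (t : Cm q) (W : Set (Cm q)) (s : Z → Cm q → Z),
      LFib Ov wz t W s → ∀ z ∈ fib Ov t, ContinuousAt (fun τ => K τ (s z τ)) t) :
    ContinuousOn (fun τ => ∑ᶠ z ∈ fib Ov τ, K τ z) (VZ Ov wz) := by
  intro t ht
  obtain ⟨W, s, hL⟩ := exists_lfib hT hw ht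
  have hfin := finite_fib' hT hw ht
  refine ContinuousAt.continuousWithinAt ?_
  have h1 : (fun τ => ∑ᶠ z ∈ fib Ov τ, K τ z) =ᶠ[𝓝 t]
      fun τ => ∑ z ∈ hfin.toFinset, K τ (s z τ) := by
    filter_upwards [hL.openW.mem_nhds hL.mem] with τ hτ
    rw [hL.finsum_eq _ hτ, finsum_mem_eq_finite_toFinset_sum _ hfin]
  refine ContinuousAt.congr ?_ h1.symm
  exact tendsto_finset_sum _ fun z hz => hK t W s hL z ((hfin.mem_toFinset).1 hz)

end

section
variable {n : ℕ} {X : Type} [TopologicalSpace X] [ChartedSpace (Cm n) X] {E : Type}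
  [TopologicalSpace E] {p : E → X} {Γ : Type} [Group Γ] [MulAction Γ E]
  {w : Chart n X → Cm n → Matrix (Fin n) (Fin n) ℂ} {q : ℕ} {F : E → Cm q} {c : Γ → Cm q}
  {Z : Type} [TopologicalSpace Z] {j : Z → X}
  [T2Space X] [CompactSpace X] [T2Space Z] [CompactSpace Z]
  [ChartedSpace (Cm q) Z] [IsManifold 𝓘(ℂ, Cm q) ω Z] [IsManifold 𝓘(ℂ, Cm n) ω X]
  {wz : Chart q Z → Cm q → ℝ}

/-- the good values -/
def V1 (n : ℕ) [ChartedSpace (Cm n) X] (p : E → X) (F : E → Cm q) (j : Z → X)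
    (wz : Chart q Z → Cm q → ℝ) : Set (Cm q) := VZ (OvE p F j) wz ∩ RV n p F

theorem isOpen_V1 [Nonempty E] (hp : IsGalois Γ p) (hA : Per p w F c)
    (hj : ContMDiff 𝓘(ℂ, Cm q) 𝓘(ℂ, Cm n) ω j) (hwz : IsCanonicalMetric wz) :
    IsOpen (V1 n p F j wz) := (isOpen_VZ (tmap hp hA hj) hwz).inter (rv_open hp hA)

theorem cov_V1 [Nonempty E] (hq : 1 ≤ q) (hp : IsGalois Γ p) (hA : Per p w F c)
    (hj : ContMDiff 𝓘(ℂ, Cm q) 𝓘(ℂ, Cm n) ω j) (hwz : IsCanonicalMetric wz) :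
    Cov (q - 1) (V1 n p F j wz)ᶜ := by
  rw [V1, compl_inter]
  exact (cov_VZ hq (tmap hp hA hj) hwz).union (rv_cov hq hp hA)

theorem meets_V1 [Nonempty E] (hq : 1 ≤ q) (hp : IsGalois Γ p) (hA : Per p w F c)
    (hj : ContMDiff 𝓘(ℂ, Cm q) 𝓘(ℂ, Cm n) ω j) (hwz : IsCanonicalMetric wz) {O : Set (Cm q)}
    (hO : IsOpen O) (hne : O.Nonempty) : (O ∩ V1 n p F j wz).Nonempty := by
  have h1 := nonempty_diff (k := q - 1) (S := (V1 n p F j wz)ᶜ) (O := O)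
    ((cov_V1 hq hp hA hj hwz).mono inter_subset_left) (by simp; omega) hO hne
  rwa [sdiff_eq, compl_compl] at h1

theorem V1_add [Nonempty E] (hp : IsGalois Γ p) (hA : Per p w F c) (g : Γ)
    (hj : ContMDiff 𝓘(ℂ, Cm q) 𝓘(ℂ, Cm n) ω j) {t : Cm q} (ht : t ∈ V1 n p F j wz) :
    t + c g ∈ V1 n p F j wz := by
  refine ⟨fun z hz => ht.1 z ?_, fun y hy => ?_⟩
  · obtain ⟨y, hy, hFy⟩ := hz
    refine ⟨g⁻¹ • y, ?_, ?_⟩
    · rw [← hy]; exact ((hp.orb y (g⁻¹ • y)).2 ⟨_, rfl⟩).symm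
    · rw [hA.equiv, per_inv hA, hFy]; abel
  · refine (per_reg_iff (g := g⁻¹) hp hA).1 (ht.2 _ ?_)
    rw [hA.equiv, per_inv hA, hy]; abel

theorem preconn_E1 [ConnectedSpace E] (hq : 1 ≤ q) (hp : IsGalois Γ p) (hA : Per p w F c)
    (hj : ContMDiff 𝓘(ℂ, Cm q) 𝓘(ℂ, Cm n) ω j) (hwz : IsCanonicalMetric wz)
    (hex : ∃ y, Reg (n := n) p F y) : IsPreconnected (F ⁻¹' V1 n p F j wz) := by
  obtain ⟨B, hB⟩ := hA.hol
  have h1 := (removal hq hp.cov hB hex (cov_V1 hq hp hA hj hwz) isOpen_univ).2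
    (isPreconnected_univ)
  rwa [preimage_compl, diff_compl', univ_inter] at h1

theorem dense_E1 [ConnectedSpace E] (hq : 1 ≤ q) (hp : IsGalois Γ p) (hA : Per p w F c)
    (hj : ContMDiff 𝓘(ℂ, Cm q) 𝓘(ℂ, Cm n) ω j) (hwz : IsCanonicalMetric wz)
    (hex : ∃ y, Reg (n := n) p F y) {U : Set E} (hU : IsOpen U) (hne : U.Nonempty) :
    (U ∩ F ⁻¹' V1 n p F j wz).Nonempty := by
  obtain ⟨B, hB⟩ := hA.hol
  have h1 := (removal hq hp.cov hB hex (cov_V1 hq hp hA hj hwz) hU).1 hne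
  rwa [preimage_compl, diff_compl'] at h1

/-- the number of points of `Z` in a class -/
theorem exists_N1 [ConnectedSpace E] (hq : 1 ≤ q) (hp : IsGalois Γ p) (hA : Per p w F c)
    (hj : ContMDiff 𝓘(ℂ, Cm q) 𝓘(ℂ, Cm n) ω j) (hwz : IsCanonicalMetric wz)
    (hne : ∃ z, rho (OvE p F j) wz z ≠ 0) (hex : ∃ y, Reg (n := n) p F y) :
    ∃ N₁ : ℕ, 1 ≤ N₁ ∧ ∀ y, F y ∈ V1 n p F j wz → (AA p F c j y).ncard = N₁ := by
  have hT := tmap hp hA hj
  obtain ⟨N, hN1, hN⟩ := exists_card hq hT hwz hne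
  obtain ⟨t, -, ht⟩ := meets_V1 (wz := wz) (O := univ) hq hp hA hj hwz isOpen_univ univ_nonempty
  have hfne : (fib (OvE p F j) t).Nonempty := by
    rw [nonempty_iff_ne_empty]
    intro h
    have := hN t ht.1
    rw [h, ncard_empty] at this
    omega
  obtain ⟨z, e, he, hFe⟩ := hfne
  have hev : (AA p F c j e).Nonempty := ⟨z, e, he, cl_refl hA e⟩
  have hfin : ∀ y, F y ∈ V1 n p F j wz → (AA p F c j y).Finite := fun y hy =>
    (finite_fib' hT hwz hy.1).subset (AA_sub hA y)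
  refine ⟨(AA p F c j e).ncard, ?_, fun y hy => ?_⟩
  · rw [Nat.one_le_iff_ne_zero, Ne, Set.ncard_eq_zero (hfin e (by rw [hFe]; exact ht))]
    exact nonempty_iff_ne_empty.1 hev
  · refine (preconn_E1 hq hp hA hj hwz hex).constant (f := fun y => (AA p F c j y).ncard) ?_ hy
      (show F e ∈ V1 n p F j wz by rw [hFe]; exact ht)
    intro y hy
    obtain ⟨W, s, hL⟩ := exists_lfib hT hwz hy.1
    refine ContinuousAt.continuousWithinAt ?_
    have h8 : ∀ᶠ y' in 𝓝 y, (AA p F c j y).ncard = (AA p F c j y').ncard := by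
      filter_upwards [AA_loc hwz hp hA hj hy.2 hL] with y' hy'
      have h9 : AA p F c j y' = (fun z => s z (F y')) '' AA p F c j y := by
        ext z'
        constructor
        · intro hz'
          have h10 := AA_sub hA y' hz'
          rw [hL.surj _ hy'.1] at h10
          obtain ⟨z, hz, rfl⟩ := h10
          exact ⟨z, (hy'.2 z hz).1 hz', rfl⟩
        · rintro ⟨z, hz, rfl⟩
          exact (hy'.2 z (AA_sub hA y hz)).2 hz
      rw [h9, Set.InjOn.ncard_image ((hL.inj _ hy'.1).mono (AA_sub hA y))]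
    exact continuousAt_const.congr h8

/-- the weights -/
def wt (p : E → X) (F : E → Cm q) (c : Γ → Cm q) (j : Z → X) (N N₁ : ℕ) (y : E) (z : Z) : ℂ :=
  open Classical in (if z ∈ AA p F c j y then 1 else 0) - N₁ / N

theorem wt_le {N N₁ : ℕ} (h : N₁ ≤ N) (y : E) (z : Z) : ‖wt p F c j N N₁ y z‖ ≤ 1 := by
  have h0 : (0 : ℝ) ≤ N₁ / N := by positivity
  have h1 : (N₁ : ℝ) / N ≤ 1 := div_le_one_of_le₀ (by exact_mod_cast h) (by positivity)
  have h2 : ((N₁ : ℂ) / N) = (((N₁ : ℝ) / N : ℝ) : ℂ) := by push_cast; rfl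
  unfold wt
  rw [h2]
  split_ifs
  · rw [← Complex.ofReal_one, ← Complex.ofReal_sub, Complex.norm_real, Real.norm_eq_abs, abs_le]
    constructor <;> linarith
  · rw [zero_sub, norm_neg, Complex.norm_real, Real.norm_eq_abs, abs_le]
    constructor <;> linarith

theorem wt_cl [Nonempty E] (hp : IsGalois Γ p) (hA : Per p w F c) {N N₁ : ℕ} {y y' : E}
    (h : Cl F c y y') (z : Z) : wt p F c j N N₁ y z = wt p F c j N N₁ y' z := by
  unfold wt
  rw [AA_cl hp hA h]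

theorem wt_smul [Nonempty E] (hp : IsGalois Γ p) (hA : Per p w F c) {N N₁ : ℕ} (g : Γ) (y : E)
    (z : Z) : wt p F c j N N₁ (g • y) z = wt p F c j N N₁ y z := by
  unfold wt
  rw [AA_smul hp hA]

/-- the function, at the points over the good values -/
def h0 (p : E → X) (F : E → Cm q) (c : Γ → Cm q) (j : Z → X) {wz : Chart q Z → Cm q → ℝ}
    (G : TT (OvE p F j) wz → ℂ) (N N₁ : ℕ) (y : E) : ℂ :=
  ∑ᶠ z ∈ fib (OvE p F j) (F y), wt p F c j N N₁ y z * onZ G (F y) z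

theorem h0_loc [ConnectedSpace E] (hp : IsGalois Γ p) (hA : Per p w F c)
    (hj : ContMDiff 𝓘(ℂ, Cm q) 𝓘(ℂ, Cm n) ω j) (hwz : IsCanonicalMetric wz)
    {G : TT (OvE p F j) wz → ℂ} (hG : HoloE TT.p (VZ (OvE p F j) wz) G) (N N₁ : ℕ) {y : E}
    (hy : F y ∈ V1 n p F j wz) : ∃ f : Cm q → ℂ, AnalyticAt ℂ f (F y) ∧
      ∀ᶠ y' in 𝓝 y, h0 p F c j G N N₁ y' = f (F y') := by
  have hT := tmap hp hA hj
  obtain ⟨W, s, hL⟩ := exists_lfib hT hwz hy.1
  have hfin := finite_fib' hT hwz hy.1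
  refine ⟨fun τ => ∑ z ∈ hfin.toFinset, wt p F c j N N₁ y z * onZ G τ (s z τ), ?_, ?_⟩
  · refine Vale.Agent.P268.analyticOnNhd_of_differentiableOn hL.openW ?_ _ hL.mem
    refine DifferentiableOn.fun_sum fun z hz => ?_
    exact (hL.onZ_diff hG ((hfin.mem_toFinset).1 hz)).const_mul _
  · filter_upwards [AA_loc hwz hp hA hj hy.2 hL] with y' hy'
    rw [h0, hL.finsum_eq _ hy'.1, finsum_mem_eq_finite_toFinset_sum _ hfin]
    refine Finset.sum_congr rfl fun z hz => ?_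
    congr 1
    unfold wt
    have h1 := hy'.2 z ((hfin.mem_toFinset).1 hz)
    by_cases h2 : z ∈ AA p F c j y
    · rw [if_pos h2, if_pos (h1.2 h2)]
    · rw [if_neg h2, if_neg fun h3 => h2 (h1.1 h3)]

theorem h0_le [ConnectedSpace E] (hp : IsGalois Γ p) (hA : Per p w F c)
    (hj : ContMDiff 𝓘(ℂ, Cm q) 𝓘(ℂ, Cm n) ω j) (hwz : IsCanonicalMetric wz)
    {G : TT (OvE p F j) wz → ℂ} {N N₁ : ℕ} (hNN : N₁ ≤ N)
    (hN : ∀ t ∈ VZ (OvE p F j) wz, (fib (OvE p F j) t).ncard = N) {y : E}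
    (hy : F y ∈ V1 n p F j wz) : ENNReal.ofReal (‖h0 p F c j G N N₁ y‖ ^ 2) ≤
      N * ∑ᶠ z ∈ fib (OvE p F j) (F y), ENNReal.ofReal (‖onZ G (F y) z‖ ^ 2) := by
  have hT := tmap hp hA hj
  have hfin := finite_fib' hT hwz hy.1
  rw [h0, finsum_mem_eq_finite_toFinset_sum _ hfin, finsum_mem_eq_finite_toFinset_sum _ hfin,
    ← ENNReal.ofReal_sum_of_nonneg fun _ _ => by positivity, ← ENNReal.ofReal_natCast,
    ← ENNReal.ofReal_mul (by positivity)]
  refine ENNReal.ofReal_le_ofReal ?_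
  have hcard : hfin.toFinset.card = N := by
    rw [← hN _ hy.1, ncard_eq_toFinset_card _ hfin]
  have h1 : ‖∑ z ∈ hfin.toFinset, wt p F c j N N₁ y z * onZ G (F y) z‖ ≤
      ∑ z ∈ hfin.toFinset, ‖onZ G (F y) z‖ := by
    refine (norm_sum_le _ _).trans (Finset.sum_le_sum fun z _ => ?_)
    rw [norm_mul]
    exact mul_le_of_le_one_left (norm_nonneg _) (wt_le hNN y z)
  have h2 := sq_sum_le_card_mul_sum_sq (s := hfin.toFinset) (f := fun z => ‖onZ G (F y) z‖)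
  rw [hcard] at h2
  exact (pow_le_pow_left₀ (norm_nonneg _) h1 2).trans h2

end

end Vale.Agent.P284.H672
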