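import Vale.Agent.P284.H672.TZ

/-!
# P284 (helper672): simultaneous local sections, and the classes met by `Z`
-/

set_option linter.unusedSectionVars false

open scoped Manifold ContDiff Topology ENNReal
open Filter Set Metric MeasureTheory

noncomputable section

namespace Vale.Agent.P284.H672

open Vale.Agent.P272.K Vale.Agent.P284.H894.G Vale.Agent.P284.H894.W Vale.Agent.P284.H494
  Vale.Agent.P284.H10 Vale.Agent.P284.H224 Vale.Agent.P272.KOD Vale.Agent.P284.H812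
  Vale.Agent.P300.H266

section
variable {q : ℕ} {Z : Type} [TopologicalSpace Z] [ChartedSpace (Cm q) Z]
  {L : AddSubgroup (Cm q)} {Ov : Cm q → Z → Prop} [IsManifold 𝓘(ℂ, Cm q) ω Z]
  {wz : Chart q Z → Cm q → ℝ} {t : Cm q} {W : Set (Cm q)} {s : Z → Cm q → Z}

/-- the sheets `s z`, `z ∈ fib Ov t`, over the neighbourhood `W` of `t` -/
structure LFib (Ov : Cm q → Z → Prop) (wz : Chart q Z → Cm q → ℝ) (t : Cm q) (W : Set (Cm q))
    (s : Z → Cm q → Z) : Prop where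
  openW : IsOpen W
  mem : t ∈ W
  sub : W ⊆ VZ Ov wz
  cont : ∀ z ∈ fib Ov t, ContinuousOn (s z) W
  at0 : ∀ z ∈ fib Ov t, s z t = z
  ov : ∀ z ∈ fib Ov t, ∀ τ ∈ W, Ov τ (s z τ)
  inj : ∀ τ ∈ W, InjOn (fun z => s z τ) (fib Ov t)
  surj : ∀ τ ∈ W, fib Ov τ = (fun z => s z τ) '' fib Ov t

theorem exists_lfib [T2Space Z] [CompactSpace Z] (hT : TMap L Ov) (hw : IsCanonicalMetric wz)
    (ht : t ∈ VZ Ov wz) : ∃ W s, LFib Ov wz t W s := by
  obtain ⟨g, U, W, s, hWo, htW, h5, h6, h7⟩ := lemA hT hw (t := t) isClosed_univ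
    fun z _ h => ht z h
  refine ⟨W, s, hWo, htW, ?_, ?_, ?_, ?_, ?_, ?_⟩
  · intro τ hτ z' hz'
    obtain ⟨z, hz, hzU⟩ := h7 τ hτ z' (mem_univ _) hz'
    have h8 := (h5 z hz).1
    exact (rho_ne hT hw (h8.mem z' hzU) (h8.isG z' hzU)).2 (h8.det z' hzU)
  · exact fun z hz => (h5 z ⟨hz, mem_univ _⟩).1.cont
  · exact fun z hz => (h5 z ⟨hz, mem_univ _⟩).2.2
  · exact fun z hz τ hτ => (h5 z ⟨hz, mem_univ _⟩).1.ov hτ
  · exact fun τ hτ => fib_inj h5 h6 hτ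
  · exact fun τ hτ => fib_eq h5 h7 hτ

/-- function on the total space of the covering, as a function of the two coordinates -/
def onZ (G : TT Ov wz → ℂ) (t : Cm q) (z : Z) : ℂ :=
  open Classical in if h : t ∈ VZ Ov wz ∧ Ov t z then G (TT.mk t z h.1 h.2) else 0

theorem onZ_eq (G : TT Ov wz → ℂ) {z : Z} (ht : t ∈ VZ Ov wz) (hz : Ov t z) :
    onZ G t z = G (TT.mk t z ht hz) := dif_pos ⟨ht, hz⟩

/-- the section of the covering -/
def LFib.sec (x₀ : TT Ov wz) (h : LFib Ov wz t W s) {z : Z} (hz : z ∈ fib Ov t) (τ : Cm q) :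
    TT Ov wz :=
  open Classical in if hτ : τ ∈ W then TT.mk τ (s z τ) (h.sub hτ) (h.ov z hz τ hτ) else x₀

theorem LFib.isSec (x₀ : TT Ov wz) (h : LFib Ov wz t W s) {z : Z} (hz : z ∈ fib Ov t) :
    IsSec TT.p (VZ Ov wz) W (h.sec x₀ hz) where
  isOpen := h.openW
  sub := h.sub
  cont := by
    rw [continuousOn_iff_continuous_domRestrict]
    have h9 : ∀ τ : W, (W.domRestrict (h.sec x₀ hz)) τ =
        TT.mk τ.1 (s z τ.1) (h.sub τ.2) (h.ov z hz τ.1 τ.2) := by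
      intro τ
      simp [Set.domRestrict, LFib.sec]
    rw [funext h9]
    refine Continuous.subtype_mk ?_ _
    exact Continuous.prodMk continuous_subtype_val
      (continuousOn_iff_continuous_domRestrict.1 (h.cont z hz))
  sec := by
    intro τ hτ
    simp only [LFib.sec, dif_pos hτ]
    rfl

theorem LFib.onZ_diff (h : LFib Ov wz t W s) {G : TT Ov wz → ℂ} (hG : HoloE TT.p (VZ Ov wz) G)
    {z : Z} (hz : z ∈ fib Ov t) : DifferentiableOn ℂ (fun τ => onZ G τ (s z τ)) W := by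
  have x₀ : TT Ov wz := TT.mk t z (h.sub h.mem) hz
  refine (hG W _ (h.isSec x₀ hz)).congr fun τ hτ => ?_
  simp only [LFib.sec, dif_pos hτ]
  exact onZ_eq G (h.sub hτ) (h.ov z hz τ hτ)

theorem LFib.mono (h : LFib Ov wz t W s) {W' : Set (Cm q)} (h1 : IsOpen W') (h2 : t ∈ W')
    (h3 : W' ⊆ W) : LFib Ov wz t W' s :=
  ⟨h1, h2, h3.trans h.sub, fun z hz => (h.cont z hz).mono h3, h.at0,
    fun z hz τ hτ => h.ov z hz τ (h3 hτ), fun τ hτ => h.inj τ (h3 hτ),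
    fun τ hτ => h.surj τ (h3 hτ)⟩

end

section
variable {n : ℕ} {X : Type} [TopologicalSpace X] [ChartedSpace (Cm n) X] {E : Type}
  [TopologicalSpace E] {p : E → X} {Γ : Type} [Group Γ] [MulAction Γ E]
  {w : Chart n X → Cm n → Matrix (Fin n) (Fin n) ℂ} {q : ℕ} {F : E → Cm q} {c : Γ → Cm q}
  {Z : Type} [TopologicalSpace Z] {j : Z → X}

/-- local lift of a section -/
theorem lift_sec [Nonempty E] (hp : IsGalois Γ p) (hA : Per p w F c) (hj : Continuous j)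
    {W : Set (Cm q)} (hW : IsOpen W) {s : Cm q → Z} (hs : ContinuousOn s W)
    (hov : ∀ τ ∈ W, OvE p F j τ (s τ)) {t : Cm q} (ht : t ∈ W) {y : E} (hy : p y = j (s t))
    (hFy : F y = t) : ∃ (W' : Set (Cm q)) (l : Cm q → E), IsOpen W' ∧ t ∈ W' ∧ W' ⊆ W ∧
      ContinuousOn l W' ∧ l t = y ∧ ∀ τ ∈ W', p (l τ) = j (s τ) ∧ F (l τ) = τ := by
  obtain ⟨O, l, hO, hzO, hlc, hl0, hlp⟩ := exists_lift hp.cov hj hy
  have h1 : IsOpen (W ∩ s ⁻¹' O) := hs.isOpen_inter_preimage hW hO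
  have hc : ContinuousOn (fun τ => l (s τ)) (W ∩ s ⁻¹' O) :=
    hlc.comp (hs.mono inter_subset_left) fun τ hτ => hτ.2
  obtain ⟨ε, hε, hiso⟩ := (show Disc (Lc hA) from hA.disc).isolated 0
  have hFc := per_cont hp.cov hA
  have hu : ContinuousOn (fun τ => F (l (s τ)) - τ) (W ∩ s ⁻¹' O) :=
    (hFc.comp_continuousOn hc).sub continuousOn_id
  have h2 : IsOpen ((W ∩ s ⁻¹' O) ∩ (fun τ => F (l (s τ)) - τ) ⁻¹' ball 0 ε) :=
    hu.isOpen_inter_preimage h1 isOpen_ball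
  refine ⟨_, fun τ => l (s τ), h2, ⟨⟨ht, hzO⟩, ?_⟩, fun τ hτ => hτ.1.1, hc.mono fun τ hτ => hτ.1,
    hl0, ?_⟩
  · show F (l (s t)) - t ∈ ball 0 ε
    rw [hl0, hFy, sub_self]
    exact mem_ball_self hε
  · rintro τ ⟨⟨h3, h4⟩, h5⟩
    have h6 : p (l (s τ)) = j (s τ) := hlp _ h4
    refine ⟨h6, ?_⟩
    have h7 : F (l (s τ)) - τ ∈ Lc hA := (ovE_add hp hA (hov τ h3) _).1 ⟨l (s τ), h6, rfl⟩
    exact sub_eq_zero.1 (hiso _ h7 h5)

/-- the points of `Z` in the class of `y` -/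
def AA (p : E → X) (F : E → Cm q) (c : Γ → Cm q) (j : Z → X) (y : E) : Set Z :=
  {z | ∃ e, p e = j z ∧ Cl F c e y}

theorem AA_sub (hA : Per p w F c) (y : E) : AA p F c j y ⊆ fib (OvE p F j) (F y) := by
  rintro z ⟨e, he, h⟩
  exact ⟨e, he, (h.eq hA).symm⟩

theorem AA_cl [Nonempty E] (hp : IsGalois Γ p) (hA : Per p w F c) {y y' : E} (h : Cl F c y y') :
    AA p F c j y = AA p F c j y' := by
  ext z
  constructor
  · rintro ⟨e, he, h1⟩
    exact ⟨e, he, h1.trans hp hA h⟩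
  · rintro ⟨e, he, h1⟩
    exact ⟨e, he, h1.trans hp hA (h.symm hp hA)⟩

theorem AA_smul_sub [Nonempty E] (hp : IsGalois Γ p) (hA : Per p w F c) (g : Γ) (y : E) :
    AA p F c j y ⊆ AA p F c j (g • y) := by
  rintro z ⟨e, he, h1⟩
  refine ⟨g • e, ?_, h1.smul hp hA g⟩
  rw [← he]
  exact ((hp.orb e (g • e)).2 ⟨g, rfl⟩).symm

theorem AA_smul [Nonempty E] (hp : IsGalois Γ p) (hA : Per p w F c) (g : Γ) (y : E) :
    AA p F c j (g • y) = AA p F c j y := by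
  refine subset_antisymm ?_ (AA_smul_sub hp hA g y)
  have h := AA_smul_sub (j := j) hp hA g⁻¹ (g • y)
  rwa [inv_smul_smul] at h

theorem mem_AA_iff [Nonempty E] (hp : IsGalois Γ p) (hA : Per p w F c) {y e : E} {z : Z}
    (he : p e = j z) (hFe : F e = F y) : z ∈ AA p F c j y ↔ Cl F c e y := by
  constructor
  · rintro ⟨e', he', h⟩
    exact (cl_of_lift hp hA (he.trans he'.symm) (hFe.trans (h.eq hA))).trans hp hA h
  · intro h
    exact ⟨e, he, h⟩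

/-- local constancy of the classes -/
theorem AA_loc [T2Space X] [CompactSpace X] [Nonempty E] [T2Space Z] [CompactSpace Z]
    [ChartedSpace (Cm q) Z] [IsManifold 𝓘(ℂ, Cm q) ω Z] [IsManifold 𝓘(ℂ, Cm n) ω X]
    {wz : Chart q Z → Cm q → ℝ} (hwz : IsCanonicalMetric wz)
    (hp : IsGalois Γ p) (hA : Per p w F c) (hj : ContMDiff 𝓘(ℂ, Cm q) 𝓘(ℂ, Cm n) ω j) {y : E}
    (hy : F y ∈ RV n p F) {W : Set (Cm q)} {s : Z → Cm q → Z}
    (hL : LFib (OvE p F j) wz (F y) W s) :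
    ∀ᶠ y' in 𝓝 y, F y' ∈ W ∧ ∀ z ∈ fib (OvE p F j) (F y),
      (s z (F y') ∈ AA p F c j y' ↔ z ∈ AA p F c j y) := by
  have hfin := finite_fib' (tmap hp hA hj) hwz (hL.sub hL.mem)
  have hFc := per_cont hp.cov hA
  have hev : ∀ z ∈ fib (OvE p F j) (F y), ∀ᶠ y' in 𝓝 y, F y' ∈ W →
      (s z (F y') ∈ AA p F c j y' ↔ z ∈ AA p F c j y) := by
    intro z hz
    obtain ⟨e, he, hFe⟩ := id hz
    obtain ⟨W', l, hW', htW', hWW, hlc, hl0, hl⟩ := lift_sec hp hA hj.continuous hL.openW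
      (hL.cont z hz) (hL.ov z hz) hL.mem (y := e) (by rw [hL.at0 z hz]; exact he) hFe
    obtain ⟨U, hU, U', hU', h1⟩ := cl_loc (n := n) hp hA e y (by rw [hFe]; exact hy) hFe.symm
    have h2 : ∀ᶠ y' in 𝓝 y, F y' ∈ W' := hFc.continuousAt.eventually (hW'.mem_nhds htW')
    have h3 : ∀ᶠ y' in 𝓝 y, l (F y') ∈ U := by
      have h4 : ContinuousAt l (F y) := hlc.continuousAt (hW'.mem_nhds htW')
      have h5 : ContinuousAt (fun y' => l (F y')) y :=
        ContinuousAt.comp (g := l) (f := F) h4 hFc.continuousAt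
      exact h5.eventually_mem (by rw [hl0]; exact hU)
    filter_upwards [h2, h3, hU'] with y' h4 h5 h6 _
    obtain ⟨h7, h8⟩ := hl (F y') h4
    rw [mem_AA_iff hp hA h7 h8, mem_AA_iff hp hA he hFe]
    exact h1 _ h5 _ h6 h8
  have h4 : ∀ᶠ y' in 𝓝 y, F y' ∈ W := hFc.continuousAt.eventually (hL.openW.mem_nhds hL.mem)
  filter_upwards [h4, (hfin.eventually_all).2 hev] with y' h5 h6
  exact ⟨h5, fun z hz => h6 z hz h5⟩

end

end Vale.Agent.P284.H672
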