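import Vale.Agent.P284.H672.TV
import Vale.Agent.P300.H14.SecL

/-!
# P284 (helper672): the covering of the set of regular values
-/

set_option linter.unusedSectionVars false

open scoped Manifold ContDiff Topology ENNReal
open Filter Set Metric MeasureTheory

noncomputable section

namespace Vale.Agent.P284.H672

open Vale.Agent.P272.K Vale.Agent.P272.KOD Vale.Agent.P284.H812 Vale.Agent.P284.H10

section
variable {q : ℕ} {Z : Type} [TopologicalSpace Z] [ChartedSpace (Cm q) Z]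
  {L : AddSubgroup (Cm q)} {Ov : Cm q → Z → Prop} [IsManifold 𝓘(ℂ, Cm q) ω Z]
  {w : Chart q Z → Cm q → ℝ}

theorem not_surj_of_det {A : Cm q →L[ℂ] Cm q} (h : A.det = 0) : ¬ Function.Surjective A := by
  intro hs
  have h1 : IsUnit (LinearMap.det (A : Cm q →ₗ[ℂ] Cm q)) := by
    rw [← LinearMap.isUnit_iff_isUnit_det, Module.End.isUnit_iff]
    exact ⟨LinearMap.injective_iff_surjective.2 hs, hs⟩
  exact h1.ne_zero h

/-- the critical values are contained in countably many images of `ℂ^(q-1)` -/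
theorem cov_VZ [CompactSpace Z] (hq : 1 ≤ q) (hT : TMap L Ov) (hw : IsCanonicalMetric w) :
    Cov (q - 1) (VZ Ov w)ᶜ := by
  have hex : ∀ z : Z, ∃ (g : Cm q → Cm q) (O : Set Z), IsOpen O ∧ z ∈ O ∧
      ∀ z' ∈ O, At (chartAt (Cm q) z) z' ∧ IsG Ov (chartAt (Cm q) z) z' g := by
    intro z
    obtain ⟨g, hg⟩ := hT.exists_isG (at_chartAt z)
    obtain ⟨O, h1, h2, h3⟩ := eventually_nhds_iff.1 (hg.eventually (at_chartAt z))
    exact ⟨g, O, h2, h3, h1⟩
  choose g O hO hzO hgO using hex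
  obtain ⟨F, hF⟩ := isCompact_univ.elim_finite_subcover O hO
    (fun z _ => mem_iUnion.2 ⟨z, hzO z⟩)
  have h1 : (VZ Ov w)ᶜ ⊆ ⋃ v ∈ (L : Set (Cm q)), ⋃ z ∈ (F : Set Z), (fun x => x + v) ''
      (g z '' {ζ ∈ (chartAt (Cm q) z).target ∩ (chartAt (Cm q) z).symm ⁻¹' O z |
        ¬ Function.Surjective (fderiv ℂ (g z) ζ)}) := by
    intro t ht
    simp only [VZ, mem_compl_iff, mem_ofPred_eq, not_forall, not_not] at ht
    obtain ⟨z', h2, h3⟩ := ht
    obtain ⟨z, hz, hz'⟩ := mem_iUnion₂.1 (hF (mem_univ z'))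
    have h4 := hgO z z' hz'
    have h5 := hT.sub_mem h4.2.ov h2
    refine mem_iUnion₂.2 ⟨_, h5, mem_iUnion₂.2 ⟨z, hz, _, ⟨chartAt (Cm q) z z', ⟨⟨?_, ?_⟩, ?_⟩,
      rfl⟩, ?_⟩⟩
    · exact (chartAt (Cm q) z).map_source h4.1.2
    · rw [mem_preimage, (chartAt (Cm q) z).left_inv h4.1.2]
      exact hz'
    · refine not_surj_of_det ?_
      by_contra h6
      exact (rho_ne hT hw h4.1 h4.2).2 h6 h3
    · show g z (chartAt (Cm q) z z') + (t - g z (chartAt (Cm q) z z')) = t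
      abel
  refine Cov.mono ?_ h1
  refine Cov.biUnion hT.disc.countable fun v _ => Cov.biUnion F.countable_toSet fun z _ => ?_
  refine Cov.image ?_ fun _ _ => differentiableAt_id.add_const v
  refine crit_cov hq ((chartAt (Cm q) z).symm.isOpen_inter_preimage (hO z)) fun ζ hζ => ?_
  have h7 := (hgO z _ hζ.2).2.1
  rw [(chartAt (Cm q) z).right_inv hζ.1] at h7
  exact h7.differentiableAt.differentiableWithinAt

theorem preconn_VZ [CompactSpace Z] (hq : 1 ≤ q) (hT : TMap L Ov) (hw : IsCanonicalMetric w) :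
    IsPreconnected (VZ Ov w) := by
  have h1 := preconn_diff (k := q - 1) (S := (VZ Ov w)ᶜ) (O := (univ : Set (Cm q)))
    ((cov_VZ hq hT hw).mono inter_subset_left) (by simp; omega) isOpen_univ convex_univ
  rwa [sdiff_eq, compl_compl, univ_inter] at h1

theorem meets_VZ [CompactSpace Z] (hq : 1 ≤ q) (hT : TMap L Ov) (hw : IsCanonicalMetric w)
    {W : Set (Cm q)} (hW : IsOpen W) (hne : W.Nonempty) : (W ∩ VZ Ov w).Nonempty := by
  have h1 := nonempty_diff (k := q - 1) (S := (VZ Ov w)ᶜ) (O := W)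
    ((cov_VZ hq hT hw).mono inter_subset_left) (by simp; omega) hW hne
  rwa [sdiff_eq, compl_compl] at h1

theorem null_VZ [CompactSpace Z] (hq : 1 ≤ q) (hT : TMap L Ov) (hw : IsCanonicalMetric w) :
    volume (VZ Ov w)ᶜ = 0 := by
  have h1 := null_of_cov (cov_VZ hq hT hw) (by simp; omega)
  exact (Measure.absolutelyContinuous_isAddHaarMeasure volume Measure.addHaar) h1

/-- the fibre over a nearby point -/
theorem fib_eq [T2Space Z] [CompactSpace Z] {t : Cm q} {g : Z → Cm q → Cm q} {U : Z → Set Z}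
    {W : Set (Cm q)} {s : Z → Cm q → Z}
    (h1 : ∀ z ∈ fib Ov t ∩ univ, LSec Ov (chartAt (Cm q) z) (g z) (U z) W (s z) ∧ z ∈ U z ∧ s z t = z)
    (h3 : ∀ τ ∈ W, ∀ z' ∈ (univ : Set Z), Ov τ z' → ∃ z ∈ fib Ov t ∩ univ, z' ∈ U z) {τ : Cm q}
    (hτ : τ ∈ W) : fib Ov τ = (fun z => s z τ) '' fib Ov t := by
  ext z'
  constructor
  · intro hz'
    obtain ⟨z, hz, hzU⟩ := h3 τ hτ z' (mem_univ _) hz'
    exact ⟨z, hz.1, ((h1 z hz).1.uniq τ hτ z' hzU hz').symm⟩
  · rintro ⟨z, hz, rfl⟩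
    exact (h1 z ⟨hz, mem_univ _⟩).1.ov hτ

theorem fib_inj [T2Space Z] [CompactSpace Z] {t : Cm q} {g : Z → Cm q → Cm q} {U : Z → Set Z}
    {W : Set (Cm q)} {s : Z → Cm q → Z}
    (h1 : ∀ z ∈ fib Ov t ∩ univ, LSec Ov (chartAt (Cm q) z) (g z) (U z) W (s z) ∧ z ∈ U z ∧ s z t = z)
    (h2 : (fib Ov t ∩ univ).PairwiseDisjoint U) {τ : Cm q}
    (hτ : τ ∈ W) : InjOn (fun z => s z τ) (fib Ov t) := by
  intro z hz z' hz' he
  by_contra hne
  have h4 := (h1 z ⟨hz, mem_univ _⟩).1.sU τ hτ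
  have h5 := (h1 z' ⟨hz', mem_univ _⟩).1.sU τ hτ
  simp only at he
  rw [← he] at h5
  exact Set.disjoint_left.1 (h2 ⟨hz, mem_univ _⟩ ⟨hz', mem_univ _⟩ hne) h4 h5

theorem finite_fib' [T2Space Z] [CompactSpace Z] (hT : TMap L Ov) (hw : IsCanonicalMetric w)
    {t : Cm q} (ht : t ∈ VZ Ov w) : (fib Ov t).Finite := by
  have := finite_fib hT hw (t := t) isClosed_univ fun z _ h => ht z h
  rwa [inter_univ] at this

/-- the number of sheets -/
theorem exists_card [T2Space Z] [CompactSpace Z] (hq : 1 ≤ q) (hT : TMap L Ov)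
    (hw : IsCanonicalMetric w) (hne : ∃ z, rho Ov w z ≠ 0) :
    ∃ N : ℕ, 1 ≤ N ∧ ∀ t ∈ VZ Ov w, (fib Ov t).ncard = N := by
  obtain ⟨z₀, hz₀⟩ := hne
  obtain ⟨t₀, ht₀⟩ := hT.ex z₀
  obtain ⟨g, U, W, s, h1, h2, h3, h4, -⟩ := exists_lsec' hT hw ht₀ hz₀ univ_mem
  obtain ⟨t₁, ht₁W, ht₁V⟩ := meets_VZ hq hT hw h1.openW ⟨t₀, h3⟩
  refine ⟨(fib Ov t₁).ncard, ?_, fun t ht => ?_⟩
  · rw [Nat.one_le_iff_ne_zero, Ne, Set.ncard_eq_zero (finite_fib' hT hw ht₁V)]
    exact Set.nonempty_iff_ne_empty.1 ⟨s t₁, h1.ov ht₁W⟩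
  · refine (preconn_VZ hq hT hw).constant (f := fun t => (fib Ov t).ncard) ?_ ht ht₁V
    intro t ht
    obtain ⟨g, U, W, s, hWo, htW, h5, h6, h7⟩ := lemA hT hw (t := t) isClosed_univ
      fun z _ h => ht z h
    refine ContinuousAt.continuousWithinAt ?_
    have h8 : ∀ᶠ τ in 𝓝 t, (fib Ov t).ncard = (fib Ov τ).ncard := by
      filter_upwards [hWo.mem_nhds htW] with τ hτ
      rw [fib_eq h5 h7 hτ, Set.InjOn.ncard_image (fib_inj h5 h6 hτ)]
    exact continuousAt_const.congr h8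

/-- total space of the covering of the set of regular values -/
def TT (Ov : Cm q → Z → Prop) (w : Chart q Z → Cm q → ℝ) : Type :=
  {x : Cm q × Z // x.1 ∈ VZ Ov w ∧ Ov x.1 x.2}

instance : TopologicalSpace (TT Ov w) := instTopologicalSpaceSubtype

instance [T2Space Z] : T2Space (TT Ov w) := inferInstanceAs (T2Space (Subtype _))

instance [SecondCountableTopology Z] : SecondCountableTopology (TT Ov w) :=
  inferInstanceAs (SecondCountableTopology ({x : Cm q × Z | x.1 ∈ VZ Ov w ∧ Ov x.1 x.2} : Set _))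

/-- the projection -/
def TT.p (x : TT Ov w) : Cm q := x.1.1

/-- the point of `Z` -/
def TT.z (x : TT Ov w) : Z := x.1.2

theorem TT.continuous_p : Continuous (TT.p (Ov := Ov) (w := w)) :=
  continuous_fst.comp continuous_subtype_val

theorem TT.continuous_z : Continuous (TT.z (Ov := Ov) (w := w)) :=
  continuous_snd.comp continuous_subtype_val

theorem TT.mem (x : TT Ov w) : x.p ∈ VZ Ov w := x.2.1

theorem TT.ov (x : TT Ov w) : Ov x.p x.z := x.2.2

theorem TT.ext {x y : TT Ov w} (h : x.p = y.p) (h' : x.z = y.z) : x = y :=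
  Subtype.ext (Prod.ext h h')

/-- constructor -/
def TT.mk (t : Cm q) (z : Z) (h : t ∈ VZ Ov w) (h' : Ov t z) : TT Ov w := ⟨(t, z), h, h'⟩

theorem isFinCov [T2Space Z] [CompactSpace Z] (hT : TMap L Ov) (hw : IsCanonicalMetric w) {N : ℕ}
    (hN1 : 1 ≤ N) (hN : ∀ t ∈ VZ Ov w, (fib Ov t).ncard = N) :
    Vale.Agent.P300.H266.IsFinCov (TT.p (Ov := Ov) (w := w)) (VZ Ov w) N where
  isOpen := isOpen_VZ hT hw
  cont := TT.continuous_p
  mem := TT.mem
  loc := by
    classical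
    intro t ht
    obtain ⟨g, U, W, s, hWo, htW, h5, h6, h7⟩ := lemA hT hw (t := t) isClosed_univ
      fun z _ h => ht z h
    have hfin := finite_fib' hT hw ht
    have hft : Finite (fib Ov t) := hfin.to_subtype
    have hWV : W ⊆ VZ Ov w := by
      intro τ hτ z' hz'
      obtain ⟨z, hz, hzU⟩ := h7 τ hτ z' (mem_univ _) hz'
      have h8 := (h5 z hz).1
      exact (rho_ne hT hw (h8.mem z' hzU) (h8.isG z' hzU)).2 (h8.det z' hzU)
    have hcard : Nat.card (fib Ov t) = N := by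
      rw [Nat.card_coe_set_eq]; exact hN t ht
    obtain ⟨e⟩ : Nonempty (Fin N ≃ fib Ov t) := by
      rw [← hcard]
      exact ⟨(Finite.equivFin _).symm⟩
    have hov : ∀ (i : Fin N) (τ : Cm q), τ ∈ W → Ov τ (s (e i) τ) := fun i τ hτ =>
      (h5 (e i) ⟨(e i).2, mem_univ _⟩).1.ov hτ
    have x₀ : TT Ov w := TT.mk t (e ⟨0, hN1⟩) ht (e ⟨0, hN1⟩).2
    refine ⟨W, fun i τ => if h : τ ∈ W then TT.mk τ (s (e i) τ) (hWV h) (hov i τ h) else x₀, hWo,
      htW, hWV, fun i => ?_, fun i τ hτ => ?_, fun τ hτ i j hij => ?_, fun x hx => ?_⟩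
    · rw [continuousOn_iff_continuous_domRestrict]
      have h9 : ∀ τ : W, (W.domRestrict fun τ => if h : τ ∈ W then
          TT.mk τ (s (e i) τ) (hWV h) (hov i τ h) else x₀) τ =
          TT.mk τ.1 (s (e i) τ.1) (hWV τ.2) (hov i τ.1 τ.2) := by
        intro τ
        simp [Set.domRestrict]
      rw [funext h9]
      refine Continuous.subtype_mk ?_ _
      refine Continuous.prodMk continuous_subtype_val ?_
      exact continuousOn_iff_continuous_domRestrict.1 (h5 (e i) ⟨(e i).2, mem_univ _⟩).1.cont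
    · simp only [dif_pos hτ]
      rfl
    · simp only [dif_pos hτ] at hij
      have h10 : s (e i) τ = s (e j) τ := congrArg TT.z hij
      exact e.injective (Subtype.ext (fib_inj h5 h6 hτ (e i).2 (e j).2 h10))
    · have h11 : x.z ∈ fib Ov x.p := x.ov
      rw [fib_eq h5 h7 hx] at h11
      obtain ⟨z, hz, hzx⟩ := h11
      refine ⟨e.symm ⟨z, hz⟩, ?_⟩
      simp only [dif_pos hx, Equiv.apply_symm_apply]
      exact TT.ext rfl hzx

end

end Vale.Agent.P284.H672
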