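import Vale.Agent.P284.H672.TC
import Vale.Agent.P272.K.AMP.Calc
import Vale.Agent.P300.H113.LeviF

/-!
# P284 (helper672): the psh exhaustion of the set of regular values
-/

set_option linter.unusedSectionVars false

open scoped Manifold ContDiff Topology ENNReal ComplexConjugate ComplexOrder
open Filter Set Metric MeasureTheory

noncomputable section

namespace Vale.Agent.P284.H672

open Vale.Agent.P272.K Vale.Agent.P272.KOD Vale.Agent.P284.H812 Vale.Agent.P284.H10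

/-! ### psh functions -/

section psh
variable {q : ℕ} {u : Cm q → ℝ} {z : Cm q}

theorem posSemidef_exp (hu : ContDiffAt ℝ 2 u z) (h : (cHess u z).PosSemidef) :
    (cHess (fun y => Real.exp (u y)) z).PosSemidef := by
  rw [AMP.cHess_comp_real (φ := Real.exp) Real.contDiff_exp.contDiffAt hu]
  simp only [Real.deriv_exp]
  have h1 := AMP.gm_self_posSemidef u z
  have h2 : (0 : ℂ) ≤ ((Real.exp (u z) : ℝ) : ℂ) := by
    exact_mod_cast (Real.exp_pos _).le
  exact (h.smul h2).add (h1.smul h2)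

theorem posSemidef_re {M : Matrix (Fin q) (Fin q) ℂ} (h : M.PosSemidef) (β : Cm q) :
    0 ≤ (∑ j, ∑ k, M j k * β j * conj (β k)).re := by
  have h1 := h.dotProduct_mulVec_nonneg (fun k => conj (β k))
  have h2 : (star fun k => conj (β k)) ⬝ᵥ (M.mulVec fun k => conj (β k)) =
      ∑ j, ∑ k, M j k * β j * conj (β k) := by
    simp only [dotProduct, Matrix.mulVec, Pi.star_apply, RCLike.star_def, Complex.conj_conj]
    refine Finset.sum_congr rfl fun j _ => ?_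
    rw [Finset.mul_sum]
    refine Finset.sum_congr rfl fun k _ => by ring
  rw [h2] at h1
  exact (Complex.le_def.1 h1).1

theorem norm_dz_le (f : Cm q → ℂ) (j : Fin q) : ‖dz j f z‖ ≤ ‖fderiv ℝ f z‖ := by
  unfold dz
  have h1 : ‖fderiv ℝ f z (Pi.single j 1)‖ ≤ ‖fderiv ℝ f z‖ := by
    refine (ContinuousLinearMap.le_opNorm _ _).trans ?_
    rw [Pi.norm_single]; simp
  have h2 : ‖fderiv ℝ f z (Pi.single j Complex.I)‖ ≤ ‖fderiv ℝ f z‖ := by
    refine (ContinuousLinearMap.le_opNorm _ _).trans ?_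
    rw [Pi.norm_single]; simp
  rw [norm_div]
  have h3 := norm_sub_le (fderiv ℝ f z (Pi.single j 1))
    (Complex.I * fderiv ℝ f z (Pi.single j Complex.I))
  rw [norm_mul, Complex.norm_I, one_mul] at h3
  rw [div_le_iff₀ (by norm_num)]
  have h4 : ‖(2 : ℂ)‖ = 2 := by norm_num
  rw [h4]
  linarith

theorem cHess_sq : cHess (fun z : Cm q => ∑ j, ‖z j‖ ^ 2) z = 1 := by
  ext j k
  rw [cHess_apply]
  have h1 : (dzb k fun y : Cm q => ((∑ j, ‖y j‖ ^ 2 : ℝ) : ℂ)) = fun y => y k := by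
    funext y
    have h2 := Vale.Agent.P300.H813.N.dzb_vz (w0 := (0 : Cm q)) (z := y) (j := k)
    simp only [Vale.Agent.P300.H813.N.vz, Pi.zero_apply, sub_zero] at h2
    exact h2
  rw [h1]
  have h3 := Vale.Agent.P300.H113.ExhAux.dz_coord k j z
  have h4 : dz j (fun y : Cm q => y k) z = if k = j then 1 else 0 := h3
  rw [h4, Matrix.one_apply]
  by_cases h : j = k
  · simp [h]
  · rw [if_neg h, if_neg (Ne.symm h)]

end psh

section
variable {q : ℕ} {Z : Type} [TopologicalSpace Z] [ChartedSpace (Cm q) Z]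
  {L : AddSubgroup (Cm q)} {Ov : Cm q → Z → Prop} [IsManifold 𝓘(ℂ, Cm q) ω Z]
  {w : Chart q Z → Cm q → ℝ}

/-- `rho` in a chart -/
def rhoC (w : Chart q Z → Cm q → ℝ) (c : Chart q Z) (g : Cm q → Cm q) (ζ : Cm q) : ℝ :=
  ‖(fderiv ℂ g ζ).det‖ ^ 2 * Real.exp (-w c ζ)

theorem rho_ev (hT : TMap L Ov) (hw : IsCanonicalMetric w) {c : Chart q Z} {z : Z}
    {g : Cm q → Cm q} (hc : At c z) (h : IsG Ov c z g) :
    ∀ᶠ z' in 𝓝 z, rho Ov w z' = rhoC w c g (c z') := by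
  filter_upwards [h.eventually hc] with z' h1
  rw [rho_eq hT hw h1.1 h1.2, rhoC]

theorem rhoC_smooth (hw : IsCanonicalMetric w) {c : Chart q Z} {z : Z}
    {g : Cm q → Cm q} (hc : At c z) (h : IsG Ov c z g) : ContDiffAt ℝ ∞ (rhoC w c g) (c z) := by
  unfold rhoC
  have h1 : ContDiffAt ℝ ∞ (fun ζ => (fderiv ℂ g ζ).det) (c z) :=
    ((det_analytic h.1).restrictScalars (𝕜 := ℝ)).contDiffAt
  exact (h1.norm_sq ℝ).mul ((hw.smooth c z hc).neg.exp)

/-- the local form of `log rho` along a section -/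
theorem log_rho_sec (hT : TMap L Ov) (hw : IsCanonicalMetric w) {c : Chart q Z}
    {g : Cm q → Cm q} {U : Set Z} {W : Set (Cm q)} {s : Cm q → Z} (h : LSec Ov c g U W s)
    (hpos : ∀ c z, At c z → (cHess (w c) (c z)).PosSemidef) {τ : Cm q} (hτ : τ ∈ W) :
    ContDiffAt ℝ ∞ (fun τ => -Real.log (rho Ov w (s τ))) τ ∧
      (cHess (fun τ => -Real.log (rho Ov w (s τ))) τ).PosSemidef := by
  set G : Cm q → Cm q := fun τ => c (s τ) with hG
  have hGa : AnalyticAt ℂ G τ := Vale.Agent.P268.analyticOnNhd_of_differentiableOn h.openW h.diff τ hτ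
  have hat := h.mem _ (h.sU τ hτ)
  have hgG := h.isG _ (h.sU τ hτ)
  set F : Cm q → ℂ := fun τ => (fderiv ℂ g (G τ)).det with hF
  have hFa : AnalyticAt ℂ F τ :=
    AnalyticAt.fun_comp (g := fun ζ => (fderiv ℂ g ζ).det) (det_analytic hgG.1) hGa
  have hF0 : F τ ≠ 0 := h.det _ (h.sU τ hτ)
  have hwG : ContDiffAt ℝ ∞ (fun τ => w c (G τ)) τ := by
    have h1 : ContDiffAt ℝ ∞ G τ := (hGa.restrictScalars (𝕜 := ℝ)).contDiffAt
    exact ContDiffAt.comp (g := w c) τ (hw.smooth c _ hat) h1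
  have hlF : ContDiffAt ℝ ∞ (fun τ => Real.log (‖F τ‖ ^ 2)) τ := by
    have h1 : ContDiffAt ℝ ∞ F τ := (hFa.restrictScalars (𝕜 := ℝ)).contDiffAt
    exact (h1.norm_sq ℝ).log (by positivity)
  have hev : (fun τ => -Real.log (rho Ov w (s τ))) =ᶠ[𝓝 τ]
      fun τ => w c (G τ) - Real.log (‖F τ‖ ^ 2) := by
    filter_upwards [h.openW.mem_nhds hτ] with τ' hτ'
    have h1 := h.mem _ (h.sU τ' hτ')
    have h2 := h.isG _ (h.sU τ' hτ')
    have h3 : F τ' ≠ 0 := h.det _ (h.sU τ' hτ')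
    rw [rho_eq hT hw h1 h2, Real.log_mul (by positivity) (Real.exp_pos _).ne', Real.log_exp]
    simp only [hF, hG]
    ring
  refine ⟨(hwG.sub hlF).congr_of_eventuallyEq hev, ?_⟩
  rw [cHess_congr hev, cHess_sub (hwG.of_le (by norm_cast))
    (hlF.of_le (by norm_cast)), cHess_log_norm_sq hFa.contDiffAt hF0, sub_zero,
    cHess_comp (f := w c) ((hw.smooth c _ hat).of_le (by norm_cast))
      hGa.contDiffAt]
  have h5 := (hpos c _ hat).mul_mul_conjTranspose_same (jmat G τ).transpose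
  have h6 : (jmat G τ).transpose.conjTranspose = (jmat G τ).map (starRingEnd ℂ) := by
    ext a b
    simp [Matrix.conjTranspose_apply]
  rwa [h6] at h5

/-- `1 / rho` along a section -/
theorem inv_rho_sec (hT : TMap L Ov) (hw : IsCanonicalMetric w) {c : Chart q Z}
    {g : Cm q → Cm q} {U : Set Z} {W : Set (Cm q)} {s : Cm q → Z} (h : LSec Ov c g U W s)
    (hpos : ∀ c z, At c z → (cHess (w c) (c z)).PosSemidef) {τ : Cm q} (hτ : τ ∈ W) :
    ContDiffAt ℝ ∞ (fun τ => (rho Ov w (s τ))⁻¹) τ ∧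
      (cHess (fun τ => (rho Ov w (s τ))⁻¹) τ).PosSemidef := by
  obtain ⟨h1, h2⟩ := log_rho_sec hT hw h hpos hτ
  have hev : (fun τ => (rho Ov w (s τ))⁻¹) =ᶠ[𝓝 τ]
      fun τ => Real.exp (-Real.log (rho Ov w (s τ))) := by
    filter_upwards [h.openW.mem_nhds hτ] with τ' hτ'
    have h3 : 0 < rho Ov w (s τ') := lt_of_le_of_ne (rho_nonneg hT hw _)
      (Ne.symm ((rho_ne hT hw (h.mem _ (h.sU τ' hτ')) (h.isG _ (h.sU τ' hτ'))).2
        (h.det _ (h.sU τ' hτ'))))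
    rw [Real.exp_neg, Real.exp_log h3]
  refine ⟨(h1.exp).congr_of_eventuallyEq hev, ?_⟩
  rw [cHess_congr hev]
  exact posSemidef_exp (h1.of_le (by norm_cast)) h2

/-- the exhaustion function -/
def exh (Ov : Cm q → Z → Prop) (w : Chart q Z → Cm q → ℝ) (t : Cm q) : ℝ :=
  ∑ j, ‖t j‖ ^ 2 + ∑ᶠ z ∈ fib Ov t, (rho Ov w z)⁻¹

theorem exh_ev [T2Space Z] [CompactSpace Z] (hT : TMap L Ov) (hw : IsCanonicalMetric w) {t : Cm q}
    (ht : t ∈ VZ Ov w) :
    ∃ (g : Z → Cm q → Cm q) (U : Z → Set Z) (W : Set (Cm q)) (s : Z → Cm q → Z), IsOpen W ∧ t ∈ W ∧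
      (∀ z ∈ fib Ov t, LSec Ov (chartAt (Cm q) z) (g z) (U z) W (s z) ∧ z ∈ U z ∧ s z t = z) ∧
      ∀ τ ∈ W, exh Ov w τ = ∑ j, ‖τ j‖ ^ 2 +
        ∑ z ∈ (finite_fib' hT hw ht).toFinset, (rho Ov w (s z τ))⁻¹ := by
  obtain ⟨g, U, W, s, hWo, htW, h5, h6, h7⟩ := lemA hT hw (t := t) isClosed_univ
    fun z _ h => ht z h
  refine ⟨g, U, W, s, hWo, htW, fun z hz => h5 z ⟨hz, mem_univ _⟩, fun τ hτ => ?_⟩
  rw [exh, fib_eq h5 h7 hτ, finsum_mem_image (fib_inj h5 h6 hτ),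
    finsum_mem_eq_finite_toFinset_sum _ (finite_fib' hT hw ht)]

theorem exh_smooth [T2Space Z] [CompactSpace Z] (hT : TMap L Ov) (hw : IsCanonicalMetric w)
    (hpos : ∀ c z, At c z → (cHess (w c) (c z)).PosSemidef) {t : Cm q}
    (ht : t ∈ VZ Ov w) : ContDiffAt ℝ ∞ (exh Ov w) t := by
  obtain ⟨g, U, W, s, hWo, htW, h5, h6⟩ := exh_ev hT hw ht
  have hev : exh Ov w =ᶠ[𝓝 t] fun τ => ∑ j, ‖τ j‖ ^ 2 +
        ∑ z ∈ (finite_fib' hT hw ht).toFinset, (rho Ov w (s z τ))⁻¹ := by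
    filter_upwards [hWo.mem_nhds htW] with τ hτ using h6 τ hτ
  refine ContDiffAt.congr_of_eventuallyEq ?_ hev
  refine ContDiffAt.add (ContDiffAt.sum fun j _ => ?_) (ContDiffAt.sum fun z hz => ?_)
  · exact (contDiffAt_apply (𝕜 := ℝ) (E := ℂ) j t).norm_sq ℝ
  · exact (inv_rho_sec hT hw (h5 z ((finite_fib' hT hw ht).mem_toFinset.1 hz)).1 hpos htW).1

theorem cHess_finset_sum {ι : Type*} (F : Finset ι) (f : ι → Cm q → ℝ) {t : Cm q}
    (h : ∀ i ∈ F, ContDiffAt ℝ 2 (f i) t) :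
    cHess (fun τ => ∑ i ∈ F, f i τ) t = ∑ i ∈ F, cHess (f i) t := by
  classical
  induction F using Finset.induction_on with
  | empty =>
    simp only [Finset.sum_empty]
    ext j k
    rw [cHess_apply]
    have h1 : (dzb k fun _ : Cm q => ((0 : ℝ) : ℂ)) = fun _ => 0 := by
      ext y; simp [dzb]
    rw [h1]
    simp [dz]
  | insert a s ha ih =>
    simp only [Finset.sum_insert ha]
    rw [cHess_add (h a (Finset.mem_insert_self _ _)) (ContDiffAt.sum fun i hi =>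
      h i (Finset.mem_insert_of_mem hi)), ih fun i hi => h i (Finset.mem_insert_of_mem hi)]

theorem exh_psh [T2Space Z] [CompactSpace Z] (hT : TMap L Ov) (hw : IsCanonicalMetric w)
    (hpos : ∀ c z, At c z → (cHess (w c) (c z)).PosSemidef) {t : Cm q}
    (ht : t ∈ VZ Ov w) (β : Cm q) : ∑ j, ‖β j‖ ^ 2 ≤
      (∑ j, ∑ k, cHess (exh Ov w) t j k * β j * conj (β k)).re := by
  obtain ⟨g, U, W, s, hWo, htW, h5, h6⟩ := exh_ev hT hw ht
  have hev : exh Ov w =ᶠ[𝓝 t] fun τ => ∑ j, ‖τ j‖ ^ 2 +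
        ∑ z ∈ (finite_fib' hT hw ht).toFinset, (rho Ov w (s z τ))⁻¹ := by
    filter_upwards [hWo.mem_nhds htW] with τ hτ using h6 τ hτ
  have h7 : ∀ z ∈ (finite_fib' hT hw ht).toFinset, ContDiffAt ℝ ∞ (fun τ => (rho Ov w (s z τ))⁻¹) t ∧
      (cHess (fun τ => (rho Ov w (s z τ))⁻¹) t).PosSemidef := fun z hz =>
    inv_rho_sec hT hw (h5 z ((finite_fib' hT hw ht).mem_toFinset.1 hz)).1 hpos htW
  have h8 : ContDiffAt ℝ 2 (fun τ : Cm q => ∑ j, ‖τ j‖ ^ 2) t :=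
    ContDiffAt.sum fun j _ => (contDiffAt_apply (𝕜 := ℝ) (E := ℂ) j t).norm_sq ℝ
  have h9 : ∀ z ∈ (finite_fib' hT hw ht).toFinset,
      ContDiffAt ℝ 2 (fun τ => (rho Ov w (s z τ))⁻¹) t := fun z hz =>
    (h7 z hz).1.of_le (by norm_cast)
  rw [cHess_congr hev, cHess_add h8 (ContDiffAt.sum h9), cHess_sq, cHess_finset_sum _ _ h9]
  have h10 : (∑ z ∈ (finite_fib' hT hw ht).toFinset,
      cHess (fun τ => (rho Ov w (s z τ))⁻¹) t).PosSemidef :=
    Matrix.posSemidef_sum _ fun z hz => (h7 z hz).2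
  have h11 := posSemidef_re h10 β
  simp only [Matrix.add_apply, add_mul, Finset.sum_add_distrib, Complex.add_re]
  have h12 : (∑ j, ∑ k, (1 : Matrix (Fin q) (Fin q) ℂ) j k * β j * conj (β k)).re =
      ∑ j, ‖β j‖ ^ 2 := by
    rw [Complex.re_sum]
    refine Finset.sum_congr rfl fun j _ => ?_
    rw [Finset.sum_eq_single j]
    · rw [Matrix.one_apply_eq, one_mul, Complex.mul_conj, Complex.normSq_eq_norm_sq]
      exact Complex.ofReal_re _
    · intro k _ hk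
      rw [Matrix.one_apply_ne (Ne.symm hk)]
      simp
    · intro h; exact absurd (Finset.mem_univ _) h
  rw [h12]
  linarith

end

end Vale.Agent.P284.H672
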