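import Vale.Agent.P284.H672.TE

/-!
# P284 (helper672): the exhaustion function has compact sublevel sets
-/

set_option linter.unusedSectionVars false

open scoped Manifold ContDiff Topology ENNReal ComplexConjugate ComplexOrder
open Filter Set Metric MeasureTheory

noncomputable section

namespace Vale.Agent.P284.H672

open Vale.Agent.P272.K Vale.Agent.P272.KOD Vale.Agent.P284.H812 Vale.Agent.P284.H10

section
variable {q : ℕ} {Z : Type} [TopologicalSpace Z] [ChartedSpace (Cm q) Z]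
  {L : AddSubgroup (Cm q)} {Ov : Cm q → Z → Prop} [IsManifold 𝓘(ℂ, Cm q) ω Z]
  {w : Chart q Z → Cm q → ℝ}

/-- the regular points are dense -/
theorem freq_rho [PreconnectedSpace Z] (hT : TMap L Ov) (hw : IsCanonicalMetric w)
    (hne : ∃ z, rho Ov w z ≠ 0) (z : Z) : ∃ᶠ z' in 𝓝 z, rho Ov w z' ≠ 0 := by
  set A : Set Z := {z | ∀ᶠ z' in 𝓝 z, rho Ov w z' = 0} with hA
  have hAo : IsOpen A := by
    rw [isOpen_iff_mem_nhds]
    intro z hz
    exact eventually_eventually_nhds.2 hz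
  have hAc : IsClosed A := by
    rw [← closure_subset_iff_isClosed]
    intro z hz
    have hc := at_chartAt (n := q) z
    set c := chartAt (Cm q) z with hcd
    obtain ⟨g, hg⟩ := hT.exists_isG hc
    have h1 : ∀ᶠ ζ in 𝓝 (c z), (At c (c.symm ζ) ∧ IsG Ov c (c.symm ζ) g) ∧ ζ ∈ c.target := by
      filter_upwards [ev_chart hc (hg.eventually hc), ev_target hc] with ζ h1 h2 using ⟨h1, h2⟩
    obtain ⟨r, hr, hB⟩ := Metric.eventually_nhds_iff_ball.1 h1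
    have hJ : AnalyticOnNhd ℂ (fun ζ => (fderiv ℂ g ζ).det) (ball (c z) r) := by
      intro ζ hζ
      have h2 := (hB ζ hζ).1.2.1
      rw [c.right_inv (hB ζ hζ).2] at h2
      exact det_analytic h2
    have hJ0 : ∀ ζ ∈ ball (c z) r, rho Ov w (c.symm ζ) = 0 ↔ (fderiv ℂ g ζ).det = 0 := by
      intro ζ hζ
      have h2 := rho_ne hT hw (hB ζ hζ).1.1 (hB ζ hζ).1.2
      rw [c.right_inv (hB ζ hζ).2] at h2
      exact not_iff_not.1 h2
    have hO : IsOpen (c.source ∩ c ⁻¹' ball (c z) r) := c.isOpen_inter_preimage isOpen_ball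
    obtain ⟨z', ⟨hz1, hz2⟩, hzA⟩ := mem_closure_iff.1 hz _ hO ⟨hc.2, mem_ball_self hr⟩
    have hc' : At c z' := ⟨hc.1, hz1⟩
    have h3 : (fun ζ => (fderiv ℂ g ζ).det) =ᶠ[𝓝 (c z')] 0 := by
      filter_upwards [ev_chart hc' hzA, isOpen_ball.mem_nhds hz2] with ζ h4 h5
      exact (hJ0 ζ h5).1 h4
    have h6 := hJ.eqOn_zero_of_preconnected_of_eventuallyEq_zero (convex_ball _ _).isPreconnected
      hz2 h3
    show ∀ᶠ z' in 𝓝 z, rho Ov w z' = 0
    filter_upwards [hO.mem_nhds ⟨hc.2, mem_ball_self hr⟩] with z₁ hz₁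
    have h7 := (hJ0 (c z₁) hz₁.2).2 (h6 hz₁.2)
    rwa [c.left_inv hz₁.1] at h7
  rcases isClopen_iff.1 ⟨hAc, hAo⟩ with h | h
  · rw [Filter.Frequently]
    intro h1
    have : z ∈ A := by
      filter_upwards [h1] with z' h2
      exact not_not.1 h2
    rw [h] at this
    exact this
  · obtain ⟨z₀, hz₀⟩ := hne
    have : z₀ ∈ A := h ▸ mem_univ _
    exact absurd this.self_of_nhds hz₀

/-- all terms of `exh` are bounded by `exh` -/
theorem inv_rho_le_exh [T2Space Z] [CompactSpace Z] (hT : TMap L Ov) (hw : IsCanonicalMetric w)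
    {t : Cm q} (ht : t ∈ VZ Ov w) {z : Z} (hz : Ov t z) : (rho Ov w z)⁻¹ ≤ exh Ov w t := by
  rw [exh, finsum_mem_eq_finite_toFinset_sum _ (finite_fib' hT hw ht)]
  have h1 : (rho Ov w z)⁻¹ ≤ ∑ z ∈ (finite_fib' hT hw ht).toFinset, (rho Ov w z)⁻¹ :=
    Finset.single_le_sum (f := fun z => (rho Ov w z)⁻¹)
      (fun z _ => inv_nonneg.2 (rho_nonneg hT hw z))
      ((finite_fib' hT hw ht).mem_toFinset.2 hz)
  have h2 : 0 ≤ ∑ j, ‖t j‖ ^ 2 := Finset.sum_nonneg fun _ _ => by positivity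
  linarith

theorem norm_sq_le_exh [T2Space Z] [CompactSpace Z] (hT : TMap L Ov) (hw : IsCanonicalMetric w)
    {t : Cm q} (ht : t ∈ VZ Ov w) : ‖t‖ ^ 2 ≤ exh Ov w t := by
  rw [exh, finsum_mem_eq_finite_toFinset_sum _ (finite_fib' hT hw ht)]
  have h1 := Vale.Agent.P300.H113.ExhAux.norm_sq_le_sum t
  have h2 : 0 ≤ ∑ z ∈ (finite_fib' hT hw ht).toFinset, (rho Ov w z)⁻¹ :=
    Finset.sum_nonneg fun z _ => inv_nonneg.2 (rho_nonneg hT hw z)
  linarith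

theorem exh_nonneg [T2Space Z] [CompactSpace Z] (hT : TMap L Ov) (hw : IsCanonicalMetric w)
    {t : Cm q} (ht : t ∈ VZ Ov w) : 0 ≤ exh Ov w t := (sq_nonneg _).trans (norm_sq_le_exh hT hw ht)

/-- the limit of regular values with bounded `exh` is a regular value -/
theorem mem_VZ_of_closure [T2Space Z] [CompactSpace Z] [PreconnectedSpace Z] (hq : 1 ≤ q)
    (hT : TMap L Ov) (hw : IsCanonicalMetric w) (hne : ∃ z, rho Ov w z ≠ 0) {C : ℝ} {t : Cm q}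
    (ht : t ∈ closure {t | t ∈ VZ Ov w ∧ exh Ov w t ≤ C}) : t ∈ VZ Ov w := by
  obtain ⟨N, hN1, hN⟩ := exists_card hq hT hw hne
  set C' : ℝ := max C 1 with hC'
  have hC'0 : 0 < C' := lt_max_of_lt_right one_pos
  set K : Set Z := {z | C'⁻¹ ≤ rho Ov w z} with hK
  have hKc : IsClosed K := isClosed_le continuous_const (continuous_rho hT hw)
  have hK0 : ∀ z ∈ K, Ov t z → rho Ov w z ≠ 0 := fun z hz _ =>
    (lt_of_lt_of_le (inv_pos.2 hC'0) hz).ne'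
  have hfK : ∀ τ ∈ VZ Ov w, exh Ov w τ ≤ C → ∀ z, Ov τ z → z ∈ K := by
    intro τ hτ hτC z hz
    have h1 := (inv_rho_le_exh hT hw hτ hz).trans (hτC.trans (le_max_left C 1))
    have h2 : 0 < rho Ov w z := lt_of_le_of_ne (rho_nonneg hT hw z) (Ne.symm (hτ z hz))
    exact (inv_le_comm₀ h2 hC'0).1 h1
  obtain ⟨g, U, W, s, hWo, htW, h5, h6, h7⟩ := lemA hT hw (t := t) hKc hK0
  have hfin := finite_fib hT hw (t := t) hKc hK0
  set S := fib Ov t ∩ K with hS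
  -- injectivity
  have hinj : ∀ τ ∈ W, InjOn (fun z => s z τ) S := by
    intro τ hτ z hz z' hz' he
    by_contra hne
    have h4 := (h5 z hz).1.sU τ hτ
    have h5' := (h5 z' hz').1.sU τ hτ
    simp only at he
    rw [← he] at h5'
    exact Set.disjoint_left.1 (h6 hz hz' hne) h4 h5'
  have hsub : ∀ τ ∈ W, (fun z => s z τ) '' S ⊆ fib Ov τ := by
    rintro τ hτ _ ⟨z, hz, rfl⟩
    exact (h5 z hz).1.ov hτ
  -- the number of points of `S`
  obtain ⟨τ₀, hτ₀W, hτ₀V, hτ₀C⟩ := mem_closure_iff.1 ht W hWo htW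
  have hcard : S.ncard = N := by
    have h8 : (fun z => s z τ₀) '' S = fib Ov τ₀ := by
      refine Subset.antisymm (hsub τ₀ hτ₀W) fun z' hz' => ?_
      obtain ⟨z, hz, hzU⟩ := h7 τ₀ hτ₀W z' (hfK τ₀ hτ₀V hτ₀C z' hz') hz'
      exact ⟨z, hz, ((h5 z hz).1.uniq τ₀ hτ₀W z' hzU hz').symm⟩
    rw [← (hinj τ₀ hτ₀W).ncard_image, h8]
    exact hN τ₀ hτ₀V
  have hall : ∀ τ ∈ W, τ ∈ VZ Ov w → fib Ov τ = (fun z => s z τ) '' S := by
    intro τ hτ hτV
    refine (Set.eq_of_subset_of_ncard_le (hsub τ hτ) ?_ (finite_fib' hT hw hτV)).symm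
    rw [(hinj τ hτ).ncard_image, hcard, hN τ hτV]
  -- a critical point in the fibre
  intro z₁ hz₁ h0
  have hz₁S : z₁ ∉ S := fun h => hK0 z₁ h.2 hz₁ h0
  obtain ⟨O, hO, hOd⟩ := (hfin.insert z₁).t2_separation
  obtain ⟨g₁, hg₁, hg₁t, hg₁o⟩ := hT.hol t z₁ _ (at_chartAt z₁) hz₁
  have hc := at_chartAt (n := q) z₁
  set c := chartAt (Cm q) z₁ with hcd
  have hG : IsG Ov c z₁ g₁ := ⟨hg₁, hg₁o⟩
  have hgc : ContinuousAt (fun z' => g₁ (c z')) z₁ :=
    ContinuousAt.comp (g := g₁) hg₁.continuousAt (c.continuousAt hc.2)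
  have hW' : ∀ᶠ τ in 𝓝 t, τ ∈ W ∧ ∀ z ∈ S, s z τ ∈ O z := by
    refine Filter.Eventually.and (hWo.mem_nhds htW) ?_
    refine (hfin.eventually_all).2 fun z hz => ?_
    have h8 := (h5 z hz).1.cont.continuousAt (hWo.mem_nhds htW)
    have h9 : s z t = z := (h5 z hz).2.2
    rw [ContinuousAt, h9] at h8
    exact h8 ((hO z).2.mem_nhds (hO z).1)
  have hev : ∀ᶠ z' in 𝓝 z₁, z' ∈ O z₁ ∧ (At c z' ∧ IsG Ov c z' g₁) ∧ g₁ (c z') ∈ W ∧
      ∀ z ∈ S, s z (g₁ (c z')) ∈ O z := by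
    rw [ContinuousAt, hg₁t] at hgc
    filter_upwards [(hO z₁).2.mem_nhds (hO z₁).1, hG.eventually hc, hgc.eventually hW']
      with z' h1 h2 h3 using ⟨h1, h2, h3⟩
  obtain ⟨O', hO', hO'o, hz₁O'⟩ := _root_.eventually_nhds_iff.1 hev
  -- a regular point in `O'` over a regular value
  obtain ⟨z₂, hz₂, hz₂O'⟩ := ((freq_rho hT hw hne z₁).and_eventually (hO'o.mem_nhds hz₁O')).exists
  obtain ⟨-, ⟨hat₂, hG₂⟩, hW₂, -⟩ := hO' z₂ hz₂O'
  obtain ⟨U₂, W₂, s₂, h11, h12, h13, h14, h15⟩ := exists_lsec hT hat₂ hG₂ rfl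
    ((rho_ne hT hw hat₂ hG₂).1 hz₂) (hO'o.mem_nhds hz₂O')
  obtain ⟨τ, hτ₂, hτV⟩ := meets_VZ hq hT hw h11.openW ⟨_, h13⟩
  have hzz := h15 (h11.sU τ hτ₂)
  obtain ⟨hz3, ⟨hat₃, hG₃⟩, hW₃, hs₃⟩ := hO' _ hzz
  rw [h11.gs τ hτ₂] at hW₃ hs₃
  have h16 : s₂ τ ∈ fib Ov τ := h11.ov hτ₂
  rw [hall τ hW₃ hτV] at h16
  obtain ⟨z, hz, hzs⟩ := h16
  have hne' : z ≠ z₁ := fun h => hz₁S (h ▸ hz)
  have h17 := hs₃ z hz
  simp only at hzs
  rw [hzs] at h17
  exact Set.disjoint_left.1 (hOd (Or.inr hz) (Or.inl rfl) hne') h17 hz3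

theorem compact_exh [T2Space Z] [CompactSpace Z] [PreconnectedSpace Z] (hq : 1 ≤ q)
    (hT : TMap L Ov) (hw : IsCanonicalMetric w) (hne : ∃ z, rho Ov w z ≠ 0)
    (hpos : ∀ c z, At c z → (cHess (w c) (c z)).PosSemidef) (C : ℝ) :
    IsCompact {t | t ∈ VZ Ov w ∧ exh Ov w t ≤ C} := by
  refine Metric.isCompact_of_isClosed_isBounded ?_ ?_
  · rw [← closure_subset_iff_isClosed]
    intro t ht
    have h1 := mem_VZ_of_closure hq hT hw hne ht
    refine ⟨h1, ?_⟩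
    have h2 : ContinuousAt (exh Ov w) t := (exh_smooth hT hw hpos h1).continuousAt
    by_contra hcon
    push Not at hcon
    have h3 : ∀ᶠ τ in 𝓝 t, C < exh Ov w τ := h2.eventually_const_lt hcon
    obtain ⟨O, hO, hOo, htO⟩ := _root_.eventually_nhds_iff.1 h3
    obtain ⟨τ, hτO, -, hτ⟩ := mem_closure_iff.1 ht O hOo htO
    exact absurd (hO τ hτO) (not_lt.2 hτ)
  · refine (isBounded_closedBall (x := (0 : Cm q)) (r := Real.sqrt (max C 0))).subset ?_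
    rintro t ⟨h1, h2⟩
    rw [mem_closedBall_zero_iff]
    exact Real.le_sqrt_of_sq_le ((norm_sq_le_exh hT hw h1).trans (h2.trans (le_max_left _ _)))

end

end Vale.Agent.P284.H672
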