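import Vale.Agent.P284.H672.TE2
import Mathlib.Topology.Instances.Matrix

/-!
# P284 (helper672): the gradient of the exhaustion function
-/

set_option linter.unusedSectionVars false

open scoped Manifold ContDiff Topology ENNReal ComplexConjugate ComplexOrder
open Filter Set Metric MeasureTheory

noncomputable section

namespace Vale.Agent.P284.H672

open Vale.Agent.P272.K Vale.Agent.P272.KOD Vale.Agent.P284.H812 Vale.Agent.P284.H10

section lin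
variable {q : ℕ}

/-- sum of the norms of the entries of the adjugate -/
def adjN (A : Cm q →L[ℂ] Cm q) : ℝ :=
  ∑ i, ∑ j, ‖(LinearMap.toMatrix' (A : Cm q →ₗ[ℂ] Cm q)).adjugate i j‖

theorem continuous_adjN : Continuous (adjN (q := q)) := by
  unfold adjN
  refine continuous_finsetSum _ fun i _ => continuous_finsetSum _ fun j _ => ?_
  refine Continuous.norm ?_
  have h1 : Continuous fun A : Cm q →L[ℂ] Cm q =>
      LinearMap.toMatrix' (A : Cm q →ₗ[ℂ] Cm q) := by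
    refine continuous_matrix fun i j => ?_
    simp only [LinearMap.toMatrix'_apply]
    exact (continuous_apply i).comp ((ContinuousLinearMap.apply ℂ (Cm q) _).continuous)
  exact (h1.matrix_adjugate).matrix_elem i j

theorem norm_inv_le {A B : Cm q →L[ℂ] Cm q} (h : ∀ v, A (B v) = v) :
    ‖B‖ ≤ adjN A * ‖A.det‖⁻¹ := by
  set M := LinearMap.toMatrix' (A : Cm q →ₗ[ℂ] Cm q) with hM
  set MB := LinearMap.toMatrix' (B : Cm q →ₗ[ℂ] Cm q) with hMB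
  have h1 : M * MB = 1 := by
    rw [hM, hMB, ← LinearMap.toMatrix'_comp]
    have : (A : Cm q →ₗ[ℂ] Cm q) ∘ₗ (B : Cm q →ₗ[ℂ] Cm q) = LinearMap.id := by
      ext1 v
      refine LinearMap.ext fun v => ?_
      exact h _
    rw [this, LinearMap.toMatrix'_id]
  have h2 : MB = M⁻¹ := (Matrix.inv_eq_right_inv h1).symm
  have hdet : M.det = A.det := by rw [hM, LinearMap.det_toMatrix']
  have h3 : ∀ i j, ‖MB i j‖ = ‖M.adjugate i j‖ * ‖A.det‖⁻¹ := by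
    intro i j
    rw [h2, Matrix.inv_def, Matrix.smul_apply, Ring.inverse_eq_inv', smul_eq_mul, norm_mul,
      norm_inv, hdet, mul_comm]
  have h4 : adjN A * ‖A.det‖⁻¹ = ∑ i, ∑ j, ‖MB i j‖ := by
    rw [adjN, Finset.sum_mul]
    refine Finset.sum_congr rfl fun i _ => ?_
    rw [Finset.sum_mul]
    exact Finset.sum_congr rfl fun j _ => (h3 i j).symm
  rw [h4]
  refine ContinuousLinearMap.opNorm_le_bound _ (by positivity) fun v => ?_
  refine (pi_norm_le_iff_of_nonneg (by positivity)).2 fun i => ?_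
  have h5 : B v i = ∑ j, MB i j * v j := by
    have h6 : (B : Cm q →ₗ[ℂ] Cm q) v = MB.mulVec v := by
      rw [hMB, LinearMap.toMatrix'_mulVec]
    have h7 := congrFun h6 i
    exact h7
  rw [h5]
  calc ‖∑ j, MB i j * v j‖ ≤ ∑ j, ‖MB i j * v j‖ := norm_sum_le _ _
    _ ≤ ∑ j, ‖MB i j‖ * ‖v‖ := by
        refine Finset.sum_le_sum fun j _ => ?_
        rw [norm_mul]
        exact mul_le_mul_of_nonneg_left (norm_le_pi_norm v j) (norm_nonneg _)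
    _ = (∑ j, ‖MB i j‖) * ‖v‖ := by rw [Finset.sum_mul]
    _ ≤ (∑ i, ∑ j, ‖MB i j‖) * ‖v‖ := by
        refine mul_le_mul_of_nonneg_right ?_ (norm_nonneg _)
        exact Finset.single_le_sum (f := fun i => ∑ j, ‖MB i j‖) (fun _ _ => by positivity)
          (Finset.mem_univ i)

end lin

section
variable {q : ℕ} {Z : Type} [TopologicalSpace Z] [ChartedSpace (Cm q) Z]
  {L : AddSubgroup (Cm q)} {Ov : Cm q → Z → Prop} [IsManifold 𝓘(ℂ, Cm q) ω Z]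
  {w : Chart q Z → Cm q → ℝ}

/-- a section read in another chart: derivative is inverse to that of the local expression -/
theorem LSec.read (hT : TMap L Ov) {c : Chart q Z} {g : Cm q → Cm q} {U : Set Z}
    {W : Set (Cm q)} {s : Cm q → Z} (h : LSec Ov c g U W s) {τ : Cm q} (hτ : τ ∈ W)
    {c₀ : Chart q Z} {g₀ : Cm q → Cm q} (hc₀ : At c₀ (s τ)) (hg₀ : IsG Ov c₀ (s τ) g₀) :
    DifferentiableAt ℂ (fun τ => c₀ (s τ)) τ ∧
      ∀ v, fderiv ℂ g₀ (c₀ (s τ)) (fderiv ℂ (fun τ => c₀ (s τ)) τ v) = v := by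
  have hat := h.mem _ (h.sU τ hτ)
  have hsc : ContinuousAt s τ := h.cont.continuousAt (h.openW.mem_nhds hτ)
  have hd1 : DifferentiableAt ℂ (fun τ => c (s τ)) τ := h.diff.differentiableAt (h.openW.mem_nhds hτ)
  have hd2 := transition_differentiableAt hat hc₀
  have hev : (fun τ => c₀ (s τ)) =ᶠ[𝓝 τ] fun τ => c₀ (c.symm (c (s τ))) := by
    filter_upwards [h.openW.mem_nhds hτ] with τ' hτ'
    rw [c.left_inv (h.mem _ (h.sU τ' hτ')).2]
  have hd3 : DifferentiableAt ℂ (fun τ => c₀ (s τ)) τ :=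
    (DifferentiableAt.comp (g := fun y => c₀ (c.symm y)) τ hd2 hd1).congr_of_eventuallyEq hev
  refine ⟨hd3, fun v => ?_⟩
  -- `g₀ (c₀ (s τ')) - τ'` is locally constant
  obtain ⟨ε, hε, hiso⟩ := hT.disc.isolated (g₀ (c₀ (s τ)) - τ)
  have hgc : ContinuousAt (fun τ => g₀ (c₀ (s τ))) τ :=
    ContinuousAt.comp (g := g₀) hg₀.1.continuousAt hd3.continuousAt
  have h1 : ∀ᶠ τ' in 𝓝 τ, dist (g₀ (c₀ (s τ')) - τ') (g₀ (c₀ (s τ)) - τ) < ε :=
    (hgc.sub continuousAt_id).eventually (ball_mem_nhds _ hε)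
  have h2 : (fun τ' => g₀ (c₀ (s τ'))) =ᶠ[𝓝 τ] fun τ' => τ' + (g₀ (c₀ (s τ)) - τ) := by
    filter_upwards [h1, h.openW.mem_nhds hτ, hsc.eventually hg₀.2] with τ' h3 h4 h5
    have h6 := hiso _ (hT.sub_mem (h.ov h4) h5) h3
    rw [← h6]
    abel
  have h7 : fderiv ℂ (fun τ' => g₀ (c₀ (s τ'))) τ = ContinuousLinearMap.id ℂ (Cm q) := by
    rw [h2.fderiv_eq, fderiv_add_const, fderiv_fun_id]
  have h8 : fderiv ℂ (fun τ' => g₀ (c₀ (s τ'))) τ =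
      (fderiv ℂ g₀ (c₀ (s τ))).comp (fderiv ℂ (fun τ => c₀ (s τ)) τ) :=
    fderiv_comp τ (g := g₀) hg₀.1.differentiableAt hd3
  have h9 := congrArg (fun T : Cm q →L[ℂ] Cm q => T v) (h8.symm.trans h7)
  exact h9

/-- bound of the gradient of `1 / rho` along sections, near a point of `Z` -/
theorem grad_local (hT : TMap L Ov) (hw : IsCanonicalMetric w) (z₀ : Z) :
    ∃ O ∈ 𝓝 z₀, ∃ C : ℝ, 0 ≤ C ∧ ∀ (c : Chart q Z) (g : Cm q → Cm q) (U : Set Z) (W : Set (Cm q))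
      (s : Cm q → Z), LSec Ov c g U W s → ∀ τ ∈ W, s τ ∈ O →
      ‖fderiv ℝ (fun τ => (rho Ov w (s τ))⁻¹) τ‖ ≤ C * (rho Ov w (s τ))⁻¹ ^ 3 := by
  have hc := at_chartAt (n := q) z₀
  set c₀ := chartAt (Cm q) z₀ with hc₀
  obtain ⟨g₀, hg₀⟩ := hT.exists_isG hc
  set R : Cm q → ℝ := rhoC w c₀ g₀ with hR
  have hRs : ContDiffAt ℝ ∞ R (c₀ z₀) := rhoC_smooth hw hc hg₀
  -- bounds near the point
  have hcc : ContinuousAt c₀ z₀ := c₀.continuousAt hc.2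
  have hb1 : ∀ᶠ z in 𝓝 z₀, ‖fderiv ℝ R (c₀ z)‖ < ‖fderiv ℝ R (c₀ z₀)‖ + 1 := by
    have h1 : ContinuousAt (fun ζ => ‖fderiv ℝ R ζ‖) (c₀ z₀) :=
      (hRs.continuousAt_fderiv (by simp)).norm
    exact hcc.eventually (h1.eventually_lt_const (by linarith))
  have hb2 : ∀ᶠ z in 𝓝 z₀, adjN (fderiv ℂ g₀ (c₀ z)) < adjN (fderiv ℂ g₀ (c₀ z₀)) + 1 := by
    have h1 : ContinuousAt (fun ζ => adjN (fderiv ℂ g₀ ζ)) (c₀ z₀) :=
      continuous_adjN.continuousAt.comp hg₀.1.fderiv.continuousAt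
    exact hcc.eventually (h1.eventually_lt_const (by linarith))
  have hb3 : ∀ᶠ z in 𝓝 z₀, Real.exp (-w c₀ (c₀ z)) < Real.exp (-w c₀ (c₀ z₀)) + 1 := by
    have h1 : ContinuousAt (fun ζ => Real.exp (-w c₀ ζ)) (c₀ z₀) :=
      (hw.smooth c₀ z₀ hc).continuousAt.neg.rexp
    exact hcc.eventually (h1.eventually_lt_const (by linarith))
  have hb4 : ∀ᶠ z in 𝓝 z₀, rho Ov w z < rho Ov w z₀ + 1 :=
    (continuous_rho hT hw).continuousAt.eventually_lt_const (by linarith)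
  have hRd : ∀ᶠ z in 𝓝 z₀, DifferentiableAt ℝ R (c₀ z) := by
    have h1 : ∀ᶠ ζ in 𝓝 (c₀ z₀), ContDiffAt ℝ 1 R ζ :=
      (hRs.of_le (m := 1) (by norm_cast)).eventually (by simp)
    exact hcc.eventually (h1.mono fun ζ h => h.differentiableAt (by norm_num))
  set C1 := ‖fderiv ℝ R (c₀ z₀)‖ + 1 with hC1
  set C2 := adjN (fderiv ℂ g₀ (c₀ z₀)) + 1 with hC2
  set C3 := Real.exp (-w c₀ (c₀ z₀)) + 1 with hC3
  set C4 := rho Ov w z₀ + 1 with hC4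
  have hC10 : 0 ≤ C1 := by positivity
  have hC20 : 0 ≤ C2 := by
    have : 0 ≤ adjN (fderiv ℂ g₀ (c₀ z₀)) := by unfold adjN; positivity
    positivity
  have hC30 : 0 ≤ C3 := by positivity
  have hC40 : 0 ≤ C4 := by
    have := rho_nonneg hT hw z₀
    positivity
  have hev : ∀ᶠ z in 𝓝 z₀, (At c₀ z ∧ IsG Ov c₀ z g₀) ∧ ‖fderiv ℝ R (c₀ z)‖ < C1 ∧
      adjN (fderiv ℂ g₀ (c₀ z)) < C2 ∧ Real.exp (-w c₀ (c₀ z)) < C3 ∧ rho Ov w z < C4 ∧
      DifferentiableAt ℝ R (c₀ z) := by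
    filter_upwards [hg₀.eventually hc, hb1, hb2, hb3, hb4, hRd] with z h1 h2 h3 h4 h5 h6
      using ⟨h1, h2, h3, h4, h5, h6⟩
  refine ⟨_, hev, C1 * (C2 * (C3 + C4)), by positivity, ?_⟩
  intro c g U W s h τ hτ hsτ
  obtain ⟨⟨hat, hgz⟩, k1, k2, k3, k4, k5⟩ := hsτ
  obtain ⟨hd, hinv⟩ := h.read hT hτ hat hgz
  set z := s τ with hz
  set G : Cm q → Cm q := fun τ => c₀ (s τ) with hG
  have hdet : (fderiv ℂ g₀ (c₀ z)).det ≠ 0 := by
    have h1 := (rho_ne hT hw (h.mem _ (h.sU τ hτ)) (h.isG _ (h.sU τ hτ))).2 (h.det _ (h.sU τ hτ))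
    exact (rho_ne hT hw hat hgz).1 h1
  have hrho : rho Ov w z = ‖(fderiv ℂ g₀ (c₀ z)).det‖ ^ 2 * Real.exp (-w c₀ (c₀ z)) :=
    rho_eq hT hw hat hgz
  have hdpos : 0 < ‖(fderiv ℂ g₀ (c₀ z)).det‖ := norm_pos_iff.2 hdet
  have hpos : 0 < rho Ov w z := by rw [hrho]; positivity
  have hRz : R (G τ) = rho Ov w z := by rw [hrho]; rfl
  -- the local form
  have hsc : ContinuousAt s τ := h.cont.continuousAt (h.openW.mem_nhds hτ)
  have hloc : (fun τ => (rho Ov w (s τ))⁻¹) =ᶠ[𝓝 τ] fun τ => (R (G τ))⁻¹ := by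
    filter_upwards [hsc.eventually (rho_ev hT hw hat hgz)] with τ' h1
    rw [h1]
  have hDG : HasFDerivAt G ((fderiv ℂ G τ).restrictScalars ℝ) τ :=
    hd.hasFDerivAt.restrictScalars ℝ
  have hDR : HasFDerivAt (fun τ => R (G τ))
      ((fderiv ℝ R (G τ)).comp ((fderiv ℂ G τ).restrictScalars ℝ)) τ :=
    HasFDerivAt.comp τ (g := R) k5.hasFDerivAt hDG
  have hDi : HasFDerivAt (fun τ => (R (G τ))⁻¹)
      (-((R (G τ)) ^ 2)⁻¹ • ((fderiv ℝ R (G τ)).comp ((fderiv ℂ G τ).restrictScalars ℝ))) τ := by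
    have h1 : HasDerivAt (fun x : ℝ => x⁻¹) (-((R (G τ)) ^ 2)⁻¹) (R (G τ)) :=
      hasDerivAt_inv (by rw [hRz]; exact hpos.ne')
    exact h1.comp_hasFDerivAt τ hDR
  rw [hloc.fderiv_eq, hDi.fderiv, norm_smul, norm_neg, norm_inv, norm_pow, Real.norm_eq_abs,
    hRz, abs_of_pos hpos]
  have h2 : ‖(fderiv ℝ R (G τ)).comp ((fderiv ℂ G τ).restrictScalars ℝ)‖ ≤
      C1 * (C2 * ((C3 + C4) * (rho Ov w z)⁻¹)) := by
    refine (ContinuousLinearMap.opNorm_comp_le _ _).trans ?_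
    refine mul_le_mul k1.le ?_ (norm_nonneg _) hC10
    rw [ContinuousLinearMap.norm_restrictScalars]
    refine (norm_inv_le hinv).trans ?_
    refine mul_le_mul k2.le ?_ (by positivity) hC20
    have h3 : ‖(fderiv ℂ g₀ (c₀ z)).det‖⁻¹ ≤ 1 + (‖(fderiv ℂ g₀ (c₀ z)).det‖⁻¹) ^ 2 := by
      nlinarith [sq_nonneg (‖(fderiv ℂ g₀ (c₀ z)).det‖⁻¹ - 1), inv_pos.2 hdpos]
    have h4 : (‖(fderiv ℂ g₀ (c₀ z)).det‖⁻¹) ^ 2 = Real.exp (-w c₀ (c₀ z)) * (rho Ov w z)⁻¹ := by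
      rw [hrho]
      have := Real.exp_pos (-w c₀ (c₀ z))
      field_simp
    have h5 : 1 ≤ C4 * (rho Ov w z)⁻¹ := by
      rw [← div_eq_mul_inv, one_le_div hpos]
      exact k4.le
    rw [h4] at h3
    have h6 : Real.exp (-w c₀ (c₀ z)) * (rho Ov w z)⁻¹ ≤ C3 * (rho Ov w z)⁻¹ :=
      mul_le_mul_of_nonneg_right k3.le (by positivity)
    calc ‖(fderiv ℂ g₀ (c₀ z)).det‖⁻¹ ≤ 1 + Real.exp (-w c₀ (c₀ z)) * (rho Ov w z)⁻¹ := h3
      _ ≤ C4 * (rho Ov w z)⁻¹ + C3 * (rho Ov w z)⁻¹ := add_le_add h5 h6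
      _ = (C3 + C4) * (rho Ov w z)⁻¹ := by ring
  calc (rho Ov w z ^ 2)⁻¹ * ‖(fderiv ℝ R (G τ)).comp ((fderiv ℂ G τ).restrictScalars ℝ)‖
      ≤ (rho Ov w z ^ 2)⁻¹ * (C1 * (C2 * ((C3 + C4) * (rho Ov w z)⁻¹))) :=
        mul_le_mul_of_nonneg_left h2 (by positivity)
    _ = C1 * (C2 * (C3 + C4)) * (rho Ov w z)⁻¹ ^ 3 := by
        field_simp

/-- uniform bound -/
theorem grad_global [CompactSpace Z] (hT : TMap L Ov) (hw : IsCanonicalMetric w) :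
    ∃ C : ℝ, 0 ≤ C ∧ ∀ (c : Chart q Z) (g : Cm q → Cm q) (U : Set Z) (W : Set (Cm q))
      (s : Cm q → Z), LSec Ov c g U W s → ∀ τ ∈ W,
      ‖fderiv ℝ (fun τ => (rho Ov w (s τ))⁻¹) τ‖ ≤ C * (rho Ov w (s τ))⁻¹ ^ 3 := by
  choose O hO C hC0 hC using grad_local (Ov := Ov) (w := w) hT hw
  obtain ⟨F, hF⟩ := CompactSpace.elim_nhds_subcover O hO
  refine ⟨∑ z ∈ F, C z, Finset.sum_nonneg fun z _ => hC0 z, fun c g U W s h τ hτ => ?_⟩
  have h1 : s τ ∈ ⋃ z ∈ F, O z := by rw [hF]; trivial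
  obtain ⟨z, hz, hz2⟩ := mem_iUnion₂.1 h1
  refine (hC z c g U W s h τ hτ hz2).trans ?_
  refine mul_le_mul_of_nonneg_right ?_ (by
    have := rho_nonneg hT hw (s τ)
    positivity)
  exact Finset.single_le_sum (fun z _ => hC0 z) hz

end

end Vale.Agent.P284.H672
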