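import Vale.Agent.P284.H672.TE3

/-!
# P284 (helper672): the exhaustion function is an `Exh`
-/

set_option linter.unusedSectionVars false

open scoped Manifold ContDiff Topology ENNReal ComplexConjugate ComplexOrder
open Filter Set Metric MeasureTheory

noncomputable section

namespace Vale.Agent.P284.H672

open Vale.Agent.P272.K Vale.Agent.P272.KOD Vale.Agent.P284.H812 Vale.Agent.P284.H10

section
variable {q : ℕ} {Z : Type} [TopologicalSpace Z] [ChartedSpace (Cm q) Z]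
  {L : AddSubgroup (Cm q)} {Ov : Cm q → Z → Prop} [IsManifold 𝓘(ℂ, Cm q) ω Z]
  {w : Chart q Z → Cm q → ℝ}

theorem norm_fderiv_ofReal {f : Cm q → ℝ} {t : Cm q} (hf : DifferentiableAt ℝ f t) :
    ‖fderiv ℝ (fun y => (f y : ℂ)) t‖ ≤ ‖fderiv ℝ f t‖ := by
  have h1 : HasFDerivAt (fun y => (f y : ℂ)) (Complex.ofRealCLM.comp (fderiv ℝ f t)) t :=
    Complex.ofRealCLM.hasFDerivAt.comp t hf.hasFDerivAt
  rw [h1.fderiv]
  refine (ContinuousLinearMap.opNorm_comp_le _ _).trans ?_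
  rw [Complex.ofRealCLM_norm, one_mul]

theorem norm_fderiv_sq (t : Cm q) :
    ‖fderiv ℝ (fun τ : Cm q => ∑ j, ‖τ j‖ ^ 2) t‖ ≤ 2 * q * ‖t‖ := by
  have h1 : ∀ j : Fin q, HasFDerivAt (fun τ : Cm q => ‖τ j‖ ^ 2)
      (2 • (innerSL ℝ (t j)).comp (ContinuousLinearMap.proj (R := ℝ) (φ := fun _ : Fin q => ℂ) j)) t := by
    intro j
    exact ((ContinuousLinearMap.proj (R := ℝ) (φ := fun _ : Fin q => ℂ) j).hasFDerivAt).norm_sq
  have h2 := HasFDerivAt.fun_sum (u := Finset.univ) fun j _ => h1 j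
  rw [h2.fderiv]
  refine (norm_sum_le _ _).trans ?_
  have h3 : ∀ j ∈ (Finset.univ : Finset (Fin q)), ‖(2 • (innerSL ℝ (t j)).comp
      (ContinuousLinearMap.proj (R := ℝ) (φ := fun _ : Fin q => ℂ) j) : Cm q →L[ℝ] ℝ)‖ ≤ 2 * ‖t‖ := by
    intro j _
    refine ContinuousLinearMap.opNorm_le_bound _ (by positivity) fun v => ?_
    have e1 : (2 • (innerSL ℝ (t j)).comp
      (ContinuousLinearMap.proj (R := ℝ) (φ := fun _ : Fin q => ℂ) j) : Cm q →L[ℝ] ℝ) v =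
        2 * inner ℝ (t j) (v j) := by
      simp [two_smul, two_mul]
    rw [e1, norm_mul]
    have e2 := norm_inner_le_norm (𝕜 := ℝ) (t j) (v j)
    have e3 := norm_le_pi_norm t j
    have e4 := norm_le_pi_norm v j
    have e5 : ‖(2 : ℝ)‖ = 2 := by norm_num
    rw [e5]
    calc 2 * ‖inner ℝ (t j) (v j)‖ ≤ 2 * (‖t j‖ * ‖v j‖) := by linarith
      _ ≤ 2 * (‖t‖ * ‖v‖) := by gcongr
      _ = 2 * ‖t‖ * ‖v‖ := by ring
  refine (Finset.sum_le_card_nsmul _ _ _ h3).trans ?_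
  rw [Finset.card_univ, Fintype.card_fin, nsmul_eq_mul]
  linarith

theorem exh_grad [T2Space Z] [CompactSpace Z] [PreconnectedSpace Z] (hq : 1 ≤ q)
    (hT : TMap L Ov) (hw : IsCanonicalMetric w) (hne : ∃ z, rho Ov w z ≠ 0)
    (hpos : ∀ c z, At c z → (cHess (w c) (c z)).PosSemidef) :
    ∃ C : ℝ, 0 ≤ C ∧ ∀ t ∈ VZ Ov w, ‖fderiv ℝ (exh Ov w) t‖ ≤ C * (1 + exh Ov w t) ^ 3 := by
  obtain ⟨N, hN1, hN⟩ := exists_card hq hT hw hne
  obtain ⟨C, hC0, hC⟩ := grad_global (Ov := Ov) (w := w) hT hw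
  refine ⟨2 * q + C * N, by positivity, fun t ht => ?_⟩
  obtain ⟨g, U, W, s, hWo, htW, h5, h6⟩ := exh_ev hT hw ht
  set S := (finite_fib' hT hw ht).toFinset with hS
  have hmem : ∀ z ∈ S, Ov t z := fun z hz => (finite_fib' hT hw ht).mem_toFinset.1 hz
  have hev : exh Ov w =ᶠ[𝓝 t] fun τ => ∑ j, ‖τ j‖ ^ 2 + ∑ z ∈ S, (rho Ov w (s z τ))⁻¹ := by
    filter_upwards [hWo.mem_nhds htW] with τ hτ using h6 τ hτ
  have hd1 : DifferentiableAt ℝ (fun τ : Cm q => ∑ j, ‖τ j‖ ^ 2) t := by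
    have : ContDiffAt ℝ 1 (fun τ : Cm q => ∑ j, ‖τ j‖ ^ 2) t :=
      ContDiffAt.sum fun j _ => (contDiffAt_apply (𝕜 := ℝ) (E := ℂ) j t).norm_sq ℝ
    exact this.differentiableAt (by norm_num)
  have hd2 : ∀ z ∈ S, DifferentiableAt ℝ (fun τ => (rho Ov w (s z τ))⁻¹) t := fun z hz =>
    (inv_rho_sec hT hw (h5 z (hmem z hz)).1 hpos htW).1.differentiableAt (by simp)
  have he0 := exh_nonneg hT hw ht
  rw [hev.fderiv_eq, fderiv_fun_add hd1 (DifferentiableAt.fun_sum hd2), fderiv_fun_sum hd2]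
  have h8 : ∀ z ∈ S, ‖fderiv ℝ (fun τ => (rho Ov w (s z τ))⁻¹) t‖ ≤
      C * (1 + exh Ov w t) ^ 3 := by
    intro z hz
    have h9 := hC _ _ _ _ _ (h5 z (hmem z hz)).1 t htW
    rw [(h5 z (hmem z hz)).2.2] at h9
    refine h9.trans ?_
    have h10 := inv_rho_le_exh hT hw ht (hmem z hz)
    have h11 := inv_nonneg.2 (rho_nonneg hT hw z)
    gcongr
    linarith
  have hcard : S.card = N := by
    rw [hS, ← Set.ncard_eq_toFinset_card _ (finite_fib' hT hw ht)]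
    exact hN t ht
  have h12 : ‖t‖ ≤ (1 + exh Ov w t) ^ 3 := by
    have h13 := norm_sq_le_exh hT hw ht
    have h14 : ‖t‖ ≤ 1 + exh Ov w t := by nlinarith [sq_nonneg (‖t‖ - 1)]
    have h15 : 1 + exh Ov w t ≤ (1 + exh Ov w t) ^ 3 := le_self_pow₀ (by linarith) (by norm_num)
    exact h14.trans h15
  calc ‖fderiv ℝ (fun τ : Cm q => ∑ j, ‖τ j‖ ^ 2) t +
      ∑ z ∈ S, fderiv ℝ (fun τ => (rho Ov w (s z τ))⁻¹) t‖
      ≤ ‖fderiv ℝ (fun τ : Cm q => ∑ j, ‖τ j‖ ^ 2) t‖ +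
        ∑ z ∈ S, ‖fderiv ℝ (fun τ => (rho Ov w (s z τ))⁻¹) t‖ :=
        (norm_add_le _ _).trans (add_le_add le_rfl (norm_sum_le _ _))
    _ ≤ 2 * q * ‖t‖ + S.card • (C * (1 + exh Ov w t) ^ 3) :=
        add_le_add (norm_fderiv_sq t) (Finset.sum_le_card_nsmul _ _ _ h8)
    _ = 2 * q * ‖t‖ + N * (C * (1 + exh Ov w t) ^ 3) := by rw [hcard, nsmul_eq_mul]
    _ ≤ 2 * q * (1 + exh Ov w t) ^ 3 + N * (C * (1 + exh Ov w t) ^ 3) := by gcongr
    _ = (2 * q + C * N) * (1 + exh Ov w t) ^ 3 := by ring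

/-- **the exhaustion** -/
theorem isExh [T2Space Z] [CompactSpace Z] [PreconnectedSpace Z] (hq : 1 ≤ q)
    (hT : TMap L Ov) (hw : IsCanonicalMetric w) (hne : ∃ z, rho Ov w z ≠ 0)
    (hpos : ∀ c z, At c z → (cHess (w c) (c z)).PosSemidef) :
    ∃ C : ℝ, Vale.Agent.P300.L2.Exh (VZ Ov w) (exh Ov w) C 6 := by
  obtain ⟨C, hC0, hC⟩ := exh_grad hq hT hw hne hpos
  refine ⟨q * C ^ 2, ⟨fun t ht => ?_, fun t ht => norm_sq_le_exh hT hw ht,
    compact_exh hq hT hw hne hpos, fun t ht β => exh_psh hT hw hpos ht β, fun t ht => ?_⟩⟩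
  · exact ((exh_smooth hT hw hpos ht).of_le (by norm_cast)).contDiffWithinAt
  · have h1 := hC t ht
    have he0 := exh_nonneg hT hw ht
    have hd : DifferentiableAt ℝ (exh Ov w) t :=
      (exh_smooth hT hw hpos ht).differentiableAt (by simp)
    have h2 : ∀ j : Fin q, ‖Vale.Agent.P300.L2.dz j (fun z => (exh Ov w z : ℂ)) t‖ ^ 2 ≤
        C ^ 2 * (1 + exh Ov w t) ^ 6 := by
      intro j
      have h3 : ‖Vale.Agent.P300.L2.dz j (fun z => (exh Ov w z : ℂ)) t‖ ≤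
          C * (1 + exh Ov w t) ^ 3 :=
        (norm_dz_le _ j).trans ((norm_fderiv_ofReal hd).trans h1)
      calc _ ≤ (C * (1 + exh Ov w t) ^ 3) ^ 2 := pow_le_pow_left₀ (norm_nonneg _) h3 2
        _ = _ := by ring
    refine (Finset.sum_le_card_nsmul _ _ _ fun j _ => h2 j).trans ?_
    rw [Finset.card_univ, Fintype.card_fin, nsmul_eq_mul]
    apply le_of_eq
    ring

end

end Vale.Agent.P284.H672
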