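import Vale.Agent.P300.H14.SecL
import Vale.Agent.P300.H813.Jet

/-!
# P284 (helper672): holomorphic functions with prescribed values on a finite covering
-/

set_option linter.unusedSectionVars false

open scoped Topology ENNReal
open Filter Set Metric MeasureTheory

noncomputable section

namespace Vale.Agent.P284.H672

open Vale.Agent.P300.L2 Vale.Agent.P300.H113 Vale.Agent.P300.H266

variable {q : ℕ}

/-- the weight -/
def phi (z : Fin q → ℂ) : ℝ := Real.log (∑ j, ‖z j‖ ^ 2 + 1)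

theorem sumSq_cd {m : WithTop ℕ∞} : ContDiff ℝ m fun z : Fin q → ℂ => ∑ j, ‖z j‖ ^ 2 + 1 := by
  refine ContDiff.add (ContDiff.sum fun i _ => ?_) contDiff_const
  exact (contDiff_norm_sq ℝ).comp (contDiff_apply ℝ ℂ i)

theorem sumSq_pos (z : Fin q → ℂ) : 0 < ∑ j, ‖z j‖ ^ 2 + 1 := by positivity

theorem phi_cd {m : WithTop ℕ∞} : ContDiff ℝ m (phi (q := q)) :=
  sumSq_cd.log fun z => (sumSq_pos z).ne'

theorem phi_nonneg (z : Fin q → ℂ) : 0 ≤ phi z :=
  Real.log_nonneg (by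
    have : 0 ≤ ∑ j, ‖z j‖ ^ 2 := by positivity
    linarith)

theorem dF_sumSq (z β : Fin q → ℂ) :
    dF (fun z : Fin q → ℂ => ∑ i, ‖z i‖ ^ 2 + 1) β z = ∑ j, β j * (starRingEnd ℂ) (z j) := by
  have hd : ∀ i, DifferentiableOn ℂ (fun z : Fin q → ℂ => z i) Set.univ := fun i =>
    (ExhAux.diff_coord i).differentiableOn
  have hc : ∀ i ∈ (Finset.univ : Finset (Fin q)),
      DifferentiableAt ℝ (fun z : Fin q → ℂ => ‖z i‖ ^ 2) z := fun i _ =>
    (normSq_cda isOpen_univ (hd i) (Set.mem_univ z) 2).differentiableAt (by norm_num)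
  rw [dF_add (DifferentiableAt.fun_sum fun i hi => hc i hi) (differentiableAt_const _), dF_const,
    add_zero, dF_sum Finset.univ hc]
  refine Finset.sum_congr rfl fun i _ => ?_
  rw [dF_normSq isOpen_univ (hd i) (Set.mem_univ z)]
  simp [ExhAux.dz_coord]

/-- strict plurisubharmonicity -/
theorem phi_levi (z β : Fin q → ℂ) :
    ((∑ j, ‖z j‖ ^ 2 + 1) ^ 2)⁻¹ * ∑ j, ‖β j‖ ^ 2 ≤ leviF phi β z := by
  set u : (Fin q → ℂ) → ℝ := fun z => ∑ i, ‖z i‖ ^ 2 + 1 with hu
  have hpos : ∀ y, 0 < u y := sumSq_pos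
  have hc : ContDiffAt ℝ 2 u z := sumSq_cd.contDiffAt
  have h1 := leviF_comp (φ := Real.log) (φ' := fun t => t⁻¹) hc
    (Eventually.of_forall fun y => Real.hasDerivAt_log (hpos y).ne')
    (hasDerivAt_inv (hpos z).ne') β
  have hd : ∀ i, DifferentiableOn ℂ (fun z : Fin q → ℂ => z i) Set.univ := fun i =>
    (ExhAux.diff_coord i).differentiableOn
  have h2 : leviF u β z = ∑ j, ‖β j‖ ^ 2 := by
    rw [hu, leviF_add (ContDiffAt.sum fun i _ => normSq_cda isOpen_univ (hd i) (Set.mem_univ z) 2)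
      contDiffAt_const, leviF_const, add_zero, leviF_sumSq]
  have h3 : ‖dF u β z‖ ^ 2 ≤ (∑ j, ‖β j‖ ^ 2) * (u z - 1) := by
    rw [hu, dF_sumSq]
    have h4 := Vale.Agent.P300.H813.N.cs_sum β z
    simpa using h4
  show _ ≤ leviF (fun z => Real.log (u z)) β z
  rw [h1, h2]
  have h5 : 0 < u z := hpos z
  have h6 : (0 : ℝ) ≤ (u z ^ 2)⁻¹ := by positivity
  have h7 := mul_le_mul_of_nonneg_left h3 h6
  have h8 : (u z)⁻¹ = (u z ^ 2)⁻¹ * u z := by
    field_simp
  have h9 : (0 : ℝ) ≤ ∑ j, ‖β j‖ ^ 2 := by positivity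
  show (u z ^ 2)⁻¹ * _ ≤ (u z)⁻¹ * _ + -(u z ^ 2)⁻¹ * _
  rw [h8]
  nlinarith

theorem phi_le (z : Fin q → ℂ) : Real.exp (phi z) ≤ (1 + q) * (1 + ‖z‖) ^ 2 := by
  rw [phi, Real.exp_log (sumSq_pos z)]
  have h1 : ∑ j, ‖z j‖ ^ 2 ≤ q * ‖z‖ ^ 2 := by
    have : ∑ j, ‖z j‖ ^ 2 ≤ ∑ _j : Fin q, ‖z‖ ^ 2 :=
      Finset.sum_le_sum fun j _ => pow_le_pow_left₀ (norm_nonneg _) (norm_le_pi_norm z j) 2
    simpa using this
  have h2 : (0 : ℝ) ≤ q := by positivity
  have h3 := norm_nonneg z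
  nlinarith [mul_nonneg h2 h3]

theorem vz_le (w z : Fin q → ℂ) : 1 + vz w z ≤ (1 + q) * (1 + ‖w‖) ^ 2 * (1 + ‖z‖) ^ 2 := by
  have h1 : vz w z ≤ q * (‖w‖ + ‖z‖) ^ 2 := by
    have : vz w z ≤ ∑ _j : Fin q, (‖w‖ + ‖z‖) ^ 2 := by
      refine Finset.sum_le_sum fun j _ => pow_le_pow_left₀ (norm_nonneg _) ?_ 2
      have h2 := norm_sub_le (z j) (w j)
      have h3 := norm_le_pi_norm z j
      have h4 := norm_le_pi_norm w j
      linarith
    simpa using this
  have h2 : (0 : ℝ) ≤ q := by positivity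
  have h3 := norm_nonneg z
  have h4 := norm_nonneg w
  have h5 : ‖w‖ + ‖z‖ ≤ (1 + ‖w‖) * (1 + ‖z‖) := by nlinarith [mul_nonneg h3 h4]
  have h6 : (‖w‖ + ‖z‖) ^ 2 ≤ ((1 + ‖w‖) * (1 + ‖z‖)) ^ 2 := pow_le_pow_left₀ (by positivity) h5 2
  have h7 : 1 ≤ ((1 + ‖w‖) * (1 + ‖z‖)) ^ 2 := by
    have : 1 ≤ (1 + ‖w‖) * (1 + ‖z‖) := by nlinarith [mul_nonneg h3 h4]
    nlinarith
  have h8 := mul_le_mul_of_nonneg_left h6 h2
  calc 1 + vz w z ≤ 1 + q * (‖w‖ + ‖z‖) ^ 2 := by linarith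
    _ ≤ ((1 + ‖w‖) * (1 + ‖z‖)) ^ 2 + q * ((1 + ‖w‖) * (1 + ‖z‖)) ^ 2 := by linarith
    _ = _ := by ring

section
variable {E : Type} [TopologicalSpace E] [T2Space E] [SecondCountableTopology E] [Nonempty E]

theorem vz_small {w : Fin q → ℂ} {W : Set (Fin q → ℂ)} (hW : IsOpen W) (hw : w ∈ W) :
    ∃ r > 0, ∀ z, vz w z < 4 * r → z ∈ W := by
  obtain ⟨ε, hε, h1⟩ := Metric.isOpen_iff.1 hW w hw
  refine ⟨ε ^ 2 / 4, by positivity, fun z hz => h1 ?_⟩
  rw [mem_ball, dist_eq_norm, pi_norm_lt_iff hε]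
  intro j
  have h2 : ‖z j - w j‖ ^ 2 ≤ vz w z := Vale.Agent.P300.H813.N.norm_sq_coord_le
  have h3 : ‖z j - w j‖ ^ 2 < ε ^ 2 := by
    have : 4 * (ε ^ 2 / 4) = ε ^ 2 := by ring
    rw [this] at hz
    exact h2.trans_lt hz
  exact lt_of_pow_lt_pow_left₀ 2 hε.le h3

/-- a holomorphic function with value `1` at one point of a fibre and `0` at the others -/
theorem peak (hq : 1 ≤ q) {p : E → Fin q → ℂ} {V : Set (Fin q → ℂ)} {N : ℕ} (h : IsFinCov p V N)
    {ρ : (Fin q → ℂ) → ℝ} {C : ℝ} {k0 : ℕ} (hE : Exh V ρ C k0) (e₀ : E) :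
    ∃ F : E → ℂ, HoloE p V F ∧ F e₀ = 1 ∧ (∀ e, p e = p e₀ → e ≠ e₀ → F e = 0) ∧
      ∃ k : ℕ, ∫⁻ t in V, (∑ e ∈ h.ecov.fibE t, ENNReal.ofReal (‖F e‖ ^ 2)) *
        ENNReal.ofReal (((1 + ‖t‖) ^ k)⁻¹) ≠ ⊤ := by
  classical
  borelize E
  set D : ECov q N E := h.ecov with hD
  have hDp : D.p = p := rfl
  have hDV : D.V = V := rfl
  set t₀ := p e₀ with ht₀
  have ht₀V : t₀ ∈ V := h.mem e₀
  obtain ⟨T, hT⟩ := D.exists_triv (z₀ := t₀) ht₀V
  obtain ⟨i₀, hi₀⟩ := T.surj e₀ hT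
  rw [hDp] at hi₀
  obtain ⟨r, hr, hrW⟩ := vz_small T.isOpen hT
  have hvz : Continuous (vz t₀) := Vale.Agent.P300.H813.N.vz_cont
  have hvz0 : ∀ z, 0 ≤ vz t₀ z := fun z => Vale.Agent.P300.H813.N.vz_nonneg
  -- the sheet
  set S₀ : Set E := {e | D.p e ∈ T.W ∧ T.σ i₀ (D.p e) = e} with hS₀
  set f : E → ℂ := S₀.indicator 1 with hf
  have hf1 : ∀ e, ‖f e‖ ≤ 1 := by
    intro e
    by_cases he : e ∈ S₀
    · simp [hf, he]
    · simp [hf, he]
  have hfσ : ∀ i, ∀ z ∈ T.W, f (T.σ i z) = if i = i₀ then 1 else 0 := by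
    intro i z hz
    have h1 := (T.sec i).p_eq z hz
    by_cases hi : i = i₀
    · subst hi
      have : T.σ i z ∈ S₀ := ⟨by rw [h1]; exact hz, by rw [h1]⟩
      simp [hf, this]
    · have : T.σ i z ∉ S₀ := fun h2 => by
        have h3 := h2.2
        rw [h1] at h3
        exact hi (T.inj _ _ z hz h3.symm)
      simp [hf, this, hi]
  have hfev : ∀ e, p e ∈ T.W → ∀ᶠ e' in 𝓝 e, f e' = f e := by
    intro e he
    obtain ⟨i, hi⟩ := T.surj e he
    have h1 : ∀ᶠ e' in 𝓝 e, e' ∈ {e | D.p e ∈ T.W ∧ T.σ i (D.p e) = e} :=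
      (T.open_sheet i).mem_nhds ⟨he, hi⟩
    filter_upwards [h1] with e' he'
    have e1 := hfσ i _ he'.1
    have e2 := hfσ i _ he
    rw [he'.2] at e1
    rw [← hDp, hi] at e2
    rw [e1, e2]
  have hfB : HoloBE p V t₀ (4 * r) f := by
    intro W σ hσ hW z hz
    have h1 : ∀ᶠ e' in 𝓝 (σ z), f e' = f (σ z) := hfev _ (by
      rw [hσ.sec z hz]; exact hrW z (hW z hz))
    have h2 : ContinuousAt σ z := hσ.cont.continuousAt (hσ.isOpen.mem_nhds hz)
    have h3 : (fun z' => f (σ z')) =ᶠ[𝓝 z] fun _ => f (σ z) := h2.eventually h1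
    exact (differentiableAt_const (f (σ z))).congr_of_eventuallyEq h3 |>.differentiableWithinAt
  have hfm : Measurable f := (measurable_const (a := (1 : ℂ))).indicator
    (T.open_sheet i₀).measurableSet
  have hvol : volume {z : Fin q → ℂ | vz t₀ z ≤ r} < ⊤ := by
    have h1 : {z : Fin q → ℂ | vz t₀ z ≤ r} ⊆ closedBall t₀ (1 + r) := by
      intro z hz
      rw [mem_closedBall, dist_eq_norm, pi_norm_le_iff_of_nonneg (by positivity)]
      intro j
      have h2 : ‖z j - t₀ j‖ ^ 2 ≤ vz t₀ z := Vale.Agent.P300.H813.N.norm_sq_coord_le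
      have h3 : ‖z j - t₀ j‖ ^ 2 ≤ r := h2.trans hz
      show ‖z j - t₀ j‖ ≤ 1 + r
      nlinarith [norm_nonneg (z j - t₀ j), sq_nonneg (‖z j - t₀ j‖ - 1)]
    exact (measure_mono h1).trans_lt measure_closedBall_lt_top
  have hset : MeasurableSet {x : (Fin q → ℂ) × ℕ | Vale.Agent.P300.H813.N.vz t₀ x.1 ≤ r} :=
    Vale.Agent.P300.H813.N.meas_ball r
  have hint : ∫⁻ x in {x | Vale.Agent.P300.H813.N.vz t₀ x.1 ≤ r},
      ENNReal.ofReal (‖f (D.pt x)‖ ^ 2) ∂D.S.μ < ⊤ := by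
    have h1 : ∫⁻ x in {x | Vale.Agent.P300.H813.N.vz t₀ x.1 ≤ r},
        ENNReal.ofReal (‖f (D.pt x)‖ ^ 2) ∂D.S.μ ≤
        ∫⁻ x in {x | Vale.Agent.P300.H813.N.vz t₀ x.1 ≤ r}, 1 ∂D.S.μ := by
      refine lintegral_mono fun x => ?_
      rw [← ENNReal.ofReal_one]
      exact ENNReal.ofReal_le_ofReal (pow_le_one₀ (norm_nonneg _) (hf1 _))
    refine h1.trans_lt ?_
    rw [← lintegral_indicator hset]
    have h2 := Sheets.lintegral_μ (S := D.S)
      (Ψ := {x : (Fin q → ℂ) × ℕ | Vale.Agent.P300.H813.N.vz t₀ x.1 ≤ r}.indicator fun _ => 1)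
      (measurable_const.indicator hset)
    rw [h2]
    have h3 : ∀ z : Fin q → ℂ, ∑ w ∈ D.S.fib z,
        {x : (Fin q → ℂ) × ℕ | Vale.Agent.P300.H813.N.vz t₀ x.1 ≤ r}.indicator
          (fun _ => (1 : ℝ≥0∞)) (z, w) ≤
        {z : Fin q → ℂ | vz t₀ z ≤ r}.indicator (fun _ => (N : ℝ≥0∞)) z := by
      intro z
      by_cases hz : vz t₀ z ≤ r
      · have h4 : ∀ w, {x : (Fin q → ℂ) × ℕ | Vale.Agent.P300.H813.N.vz t₀ x.1 ≤ r}.indicator
            (fun _ => (1 : ℝ≥0∞)) (z, w) = 1 := fun w => by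
          rw [indicator_of_mem]
          exact hz
        simp only [h4]
        rw [indicator_of_mem (show z ∈ {z : Fin q → ℂ | vz t₀ z ≤ r} from hz)]
        show ∑ w ∈ Finset.range N, (1 : ℝ≥0∞) ≤ _
        simp
      · have h4 : ∀ w, {x : (Fin q → ℂ) × ℕ | Vale.Agent.P300.H813.N.vz t₀ x.1 ≤ r}.indicator
            (fun _ => (1 : ℝ≥0∞)) (z, w) = 0 := fun w => by
          rw [indicator_of_notMem]
          exact hz
        simp [h4]
    refine (lintegral_mono h3).trans_lt ?_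
    refine (setLIntegral_le_lintegral _ _).trans_lt ?_
    rw [lintegral_indicator (isClosed_le hvz continuous_const).measurableSet, lintegral_const,
      Measure.restrict_apply MeasurableSet.univ, univ_inter]
    exact ENNReal.mul_lt_top (ENNReal.natCast_lt_top N) hvol
  -- application of the existence theorem
  set c₁ : ℝ := ((2 * (1 + r + ∑ j, ‖t₀ j‖ ^ 2)) ^ 2)⁻¹ with hc₁
  have hc₁0 : 0 < c₁ := by positivity
  have hbd : ∀ z, vz t₀ z ≤ r → ∑ j, ‖z j‖ ^ 2 + 1 ≤ 2 * (1 + r + ∑ j, ‖t₀ j‖ ^ 2) := by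
    intro z hz
    have h1 : ∑ j, ‖z j‖ ^ 2 ≤ 2 * vz t₀ z + 2 * ∑ j, ‖t₀ j‖ ^ 2 := by
      rw [vz, Finset.mul_sum, Finset.mul_sum, ← Finset.sum_add_distrib]
      refine Finset.sum_le_sum fun j _ => ?_
      have h2 : ‖z j‖ ≤ ‖z j - t₀ j‖ + ‖t₀ j‖ := by
        have := norm_add_le (z j - t₀ j) (t₀ j)
        simpa using this
      have h3 := norm_nonneg (z j)
      nlinarith [sq_nonneg (‖z j - t₀ j‖ - ‖t₀ j‖), norm_nonneg (z j - t₀ j), norm_nonneg (t₀ j)]
    linarith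
  obtain ⟨X, hX, hX1, hX2⟩ := Vale.Agent.P300.H813.N.sec (S := D.S) hE (φ := phi)
    (phi_cd.contDiffOn) (fun z _ => phi_nonneg z)
    (fun z _ β => le_trans (by positivity) (phi_levi z β)) hr hc₁0
    (fun z _ hz β => by
      refine le_trans ?_ (phi_levi z β)
      refine mul_le_mul_of_nonneg_right ?_ (by positivity)
      rw [hc₁]
      refine inv_anti₀ (by positivity) ?_
      exact pow_le_pow_left₀ (by positivity) (hbd z hz) 2)
    (B := Real.log (2 * (1 + r + ∑ j, ‖t₀ j‖ ^ 2)))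
    (fun z _ hz => Real.log_le_log (sumSq_pos z) (hbd z hz)) (D.holoB_of hfB)
    ⟨1, 0, fun x _ _ => by simpa using hf1 (D.pt x)⟩ hint q
  set F : E → ℂ := fun e => X (D.q e) with hF
  have hFh : HoloE p V F := D.holoE_of hX
  have hFc : Continuous F := D.continuous_of_holoE hFh
  have hvc : Continuous fun e => vz t₀ (p e) := hvz.comp h.cont
  have hphc : Continuous fun e => phi (p e) := (phi_cd (m := 0)).continuous.comp h.cont
  -- the values over `t₀`
  have hval : ∀ i, F (T.σ i t₀) = f (T.σ i t₀) := by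
    intro i
    set K : Set E := {e : E | vz t₀ (p e) ≤ r / 2} with hK
    have hKc : IsClosed K := isClosed_le hvc continuous_const
    set G : E → ℝ≥0∞ := fun e => ENNReal.ofReal (‖F e - f e‖ ^ 2 * (vz t₀ (p e) ^ q)⁻¹) with hG
    have hGm : Measurable G := by
      refine ENNReal.measurable_ofReal.comp ?_
      exact ((hFc.measurable.sub hfm).norm.pow_const 2).mul (hvc.measurable.pow_const q).inv
    have h1 : ∫⁻ e, K.indicator G e ∂D.μE < ⊤ := by
      rw [lintegral_indicator hKc.measurableSet]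
      rw [D.setLIntegral_q] at hX2
      refine lt_of_le_of_lt (le_of_eq ?_) hX2
      have hs : D.q ⁻¹' {x | Vale.Agent.P300.H813.N.vz t₀ x.1 ≤ r / 2} = K := rfl
      rw [hs]
      refine setLIntegral_congr_fun hKc.measurableSet fun e he => ?_
      simp only [D.pt_q]
      rfl
    rw [D.lintegral_μE (hGm.indicator hKc.measurableSet)] at h1
    -- a ball
    have hball : ∃ δ > 0, ∀ z ∈ ball t₀ δ, vz t₀ z < r / 2 := by
      have h2 : {z | vz t₀ z < r / 2} ∈ 𝓝 t₀ := (isOpen_lt hvz continuous_const).mem_nhds (by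
        show vz t₀ t₀ < r / 2
        simp [vz]; exact hr)
      obtain ⟨δ, hδ, h3⟩ := Metric.mem_nhds_iff.1 h2
      exact ⟨δ, hδ, fun z hz => h3 hz⟩
    obtain ⟨δ, hδ, hδb⟩ := hball
    have hbW : ∀ z ∈ ball t₀ δ, z ∈ T.W := fun z hz => hrW z (by
      have := hδb z hz
      linarith)
    have h2 : ∫⁻ z in ball t₀ δ, G (T.σ i z) < ⊤ := by
      refine lt_of_le_of_lt ?_ h1
      refine le_trans ?_ (lintegral_mono_set (μ := volume)
        (f := fun z => ∑ e ∈ D.fibE z, K.indicator G e) (s := ball t₀ δ) (t := D.V)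
        fun z hz => T.subset (hbW z hz))
      refine setLIntegral_mono' measurableSet_ball fun z hz => ?_
      have h3 : D.p (T.σ i z) = z := (T.sec i).p_eq z (hbW z hz)
      have h4 : T.σ i z ∈ D.fibE z := (D.mem_fibE (T.subset (hbW z hz)) _).2 h3
      have h5 : T.σ i z ∈ K := by
        show vz t₀ (p (T.σ i z)) ≤ r / 2
        rw [← hDp, h3]
        exact (hδb z hz).le
      calc G (T.σ i z) = K.indicator G (T.σ i z) := (indicator_of_mem h5 _).symm
        _ ≤ _ := Finset.single_le_sum (f := fun e => K.indicator G e) (fun _ _ => zero_le) h4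
    have h3 : ∫⁻ x in ball (0 : Fin q → ℂ) δ, G (T.σ i (t₀ + x)) < ⊤ := by
      have h4 : ∫⁻ x in ball (0 : Fin q → ℂ) δ, G (T.σ i (t₀ + x)) =
          ∫⁻ z in ball t₀ δ, G (T.σ i z) := by
        rw [← lintegral_indicator measurableSet_ball, ← lintegral_indicator measurableSet_ball,
          ← lintegral_add_left_eq_self ((ball t₀ δ).indicator fun z => G (T.σ i z)) t₀]
        refine lintegral_congr fun x => ?_
        by_cases hx : x ∈ ball (0 : Fin q → ℂ) δ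
        · have hx' : t₀ + x ∈ ball t₀ δ := by simpa using hx
          rw [indicator_of_mem hx, indicator_of_mem hx']
        · have hx' : t₀ + x ∉ ball t₀ δ := by simpa using hx
          rw [indicator_of_notMem hx, indicator_of_notMem hx']
      rwa [h4]
    have h4 : (fun x => F (T.σ i (t₀ + x)) - f (T.σ i (t₀ + x))) 0 = 0 := by
      refine Vale.Agent.P300.H813.jet_zero (g := fun x => F (T.σ i (t₀ + x)) - f (T.σ i (t₀ + x)))
        (m := 2 * q) (by omega) le_rfl hδ ?_ ?_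
      · have h5 : ContinuousAt (fun x : Fin q → ℂ => t₀ + x) 0 := by fun_prop
        have h6 : ContinuousAt (T.σ i) (t₀ + 0) := by
          rw [add_zero]
          exact (T.sec i).cont.continuousAt (T.isOpen.mem_nhds hT)
        have h7 : ContinuousAt (fun e => F e - f e) (T.σ i (t₀ + 0)) := by
          refine hFc.continuousAt.sub ?_
          have h8 := hfev (T.σ i (t₀ + 0)) (by
            rw [add_zero, ← hDp, (T.sec i).p_eq _ hT]; exact hT)
          exact (continuousAt_const (y := f (T.σ i (t₀ + 0)))).congr (h8.mono fun _ h => h.symm)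
        exact ContinuousAt.comp (g := fun e => F e - f e) (f := fun x => T.σ i (t₀ + x)) h7
          (ContinuousAt.comp (g := T.σ i) (f := fun x => t₀ + x) h6 h5)
      · refine ne_of_lt (lt_of_le_of_lt ?_ (ENNReal.mul_lt_top (ENNReal.ofReal_lt_top
          (r := (q : ℝ) ^ q)) h3))
        rw [← lintegral_const_mul' _ _ ENNReal.ofReal_ne_top]
        refine setLIntegral_mono' measurableSet_ball fun x hx => ?_
        have hx' : t₀ + x ∈ ball t₀ δ := by simpa using hx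
        have h5 : p (T.σ i (t₀ + x)) = t₀ + x := (T.sec i).p_eq _ (hbW _ hx')
        simp only [hG]
        rw [h5, ← ENNReal.ofReal_mul (by positivity), ← ofReal_norm, ← ENNReal.ofReal_pow
          (norm_nonneg _), ← ENNReal.ofReal_mul (by positivity)]
        refine ENNReal.ofReal_le_ofReal ?_
        have h6 : vz t₀ (t₀ + x) = ∑ j, ‖x j‖ ^ 2 := by simp [vz]
        have h7 : ∑ j, ‖x j‖ ^ 2 ≤ q * ‖x‖ ^ 2 := by
          have : ∑ j, ‖x j‖ ^ 2 ≤ ∑ _j : Fin q, ‖x‖ ^ 2 :=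
            Finset.sum_le_sum fun j _ => pow_le_pow_left₀ (norm_nonneg _) (norm_le_pi_norm x j) 2
          simpa using this
        rw [h6]
        have h8 : (‖x‖ ^ (2 * q))⁻¹ ≤ (q : ℝ) ^ q * ((∑ j, ‖x j‖ ^ 2) ^ q)⁻¹ := by
          by_cases hx0 : x = 0
          · subst hx0
            simp only [norm_zero]
            rw [zero_pow (by omega), inv_zero]
            positivity
          · have h9 : 0 < ∑ j, ‖x j‖ ^ 2 := by
              obtain ⟨j, hj⟩ : ∃ j, x j ≠ 0 := by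
                by_contra hcon
                push Not at hcon
                exact hx0 (funext hcon)
              have h10 : 0 < ‖x j‖ ^ 2 := by
                have := norm_pos_iff.2 hj
                positivity
              exact h10.trans_le (Finset.single_le_sum (f := fun j => ‖x j‖ ^ 2)
                (fun _ _ => by positivity) (Finset.mem_univ j))
            have h10 : 0 < ‖x‖ := norm_pos_iff.2 hx0
            rw [← div_eq_mul_inv, le_div_iff₀ (by positivity), inv_mul_le_iff₀ (by positivity)]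
            calc (∑ j, ‖x j‖ ^ 2) ^ q ≤ (q * ‖x‖ ^ 2) ^ q := pow_le_pow_left₀ h9.le h7 q
              _ = ‖x‖ ^ (2 * q) * (q : ℝ) ^ q := by rw [mul_pow, ← pow_mul]; ring
        calc _ ≤ ‖F (T.σ i (t₀ + x)) - f (T.σ i (t₀ + x))‖ ^ 2 *
              ((q : ℝ) ^ q * ((∑ j, ‖x j‖ ^ 2) ^ q)⁻¹) :=
              mul_le_mul_of_nonneg_left h8 (by positivity)
          _ = _ := by ring
    simp only [add_zero] at h4
    exact sub_eq_zero.1 h4
  have he₀ : e₀ ∈ S₀ := ⟨hT, hi₀⟩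
  refine ⟨F, hFh, ?_, ?_, 2 + 2 * q, ?_⟩
  · rw [← hi₀, hval i₀, hfσ i₀ _ hT, if_pos rfl]
  · intro e he hne
    obtain ⟨i, hi⟩ := T.surj e (by rw [hDp, he]; exact hT)
    rw [hDp, he] at hi
    rw [← hi, hval i, hfσ i _ hT, if_neg]
    rintro rfl
    exact hne (hi.symm.trans hi₀)
  · -- the global bound
    set G : E → ℝ≥0∞ := fun e => ENNReal.ofReal (‖F e‖ ^ 2 *
      (Real.exp (-phi (p e)) * ((1 + vz t₀ (p e)) ^ q)⁻¹)) with hG
    have hGm : Measurable G := by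
      refine ENNReal.measurable_ofReal.comp ?_
      refine (hFc.measurable.norm.pow_const 2).mul (Measurable.mul ?_ ?_)
      · exact (Real.measurable_exp.comp hphc.measurable.neg)
      · exact ((hvc.measurable.const_add 1).pow_const q).inv
    have h1 : ∫⁻ e, G e ∂D.μE < ⊤ := by
      rw [D.lintegral_q] at hX1
      exact hX1
    rw [D.lintegral_μE hGm] at h1
    set c₂ : ℝ := (1 + q) * ((1 + q) * (1 + ‖t₀‖) ^ 2) ^ q with hc₂
    refine ne_of_lt (lt_of_le_of_lt ?_ (ENNReal.mul_lt_top (ENNReal.ofReal_lt_top (r := c₂)) h1))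
    rw [← lintegral_const_mul' _ _ ENNReal.ofReal_ne_top]
    refine setLIntegral_mono' h.isOpen.measurableSet fun z hz => ?_
    rw [Finset.sum_mul, Finset.mul_sum]
    refine Finset.sum_le_sum fun e he => ?_
    have h2 : p e = z := (D.mem_fibE hz e).1 he
    simp only [hG]
    rw [h2, ← ENNReal.ofReal_mul (by positivity), ← ENNReal.ofReal_mul (by positivity)]
    refine ENNReal.ofReal_le_ofReal ?_
    have h3 : ((1 + ‖z‖) ^ (2 + 2 * q))⁻¹ ≤
        c₂ * (Real.exp (-phi z) * ((1 + vz t₀ z) ^ q)⁻¹) := by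
      rw [Real.exp_neg, ← mul_inv, ← div_eq_mul_inv]
      have h4 := phi_le z
      have h5 := vz_le t₀ z
      have h6 := hvz0 z
      have h7 : 0 < Real.exp (phi z) := Real.exp_pos _
      rw [le_div_iff₀ (by positivity), inv_mul_le_iff₀ (by positivity)]
      calc Real.exp (phi z) * (1 + vz t₀ z) ^ q ≤ ((1 + q) * (1 + ‖z‖) ^ 2) *
            ((1 + q) * (1 + ‖t₀‖) ^ 2 * (1 + ‖z‖) ^ 2) ^ q := by gcongr
        _ = _ := by rw [hc₂, mul_pow, pow_add, pow_mul]; ring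
    calc _ ≤ ‖F e‖ ^ 2 * (c₂ * (Real.exp (-phi z) * ((1 + vz t₀ z) ^ q)⁻¹)) :=
          mul_le_mul_of_nonneg_left h3 (by positivity)
      _ = _ := by ring

end

end Vale.Agent.P284.H672
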