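import Vale.Agent.P284.H812.Glob
import Vale.Agent.P284.H10.S4i

/-!
# P284 (helper672): holomorphic maps to the quotient of `ℂ^q` by a discrete group

`TMap L Ov`: `Ov t z` says that `t` is a value at `z : Z` of the (multivalued) holomorphic map
`Z → ℂ^q / L`.
-/

open scoped Manifold ContDiff Topology ENNReal
open Filter Set Metric MeasureTheory

noncomputable section

namespace Vale.Agent.P284.H672

open Vale.Agent.P272.K Vale.Agent.P272.KOD Vale.Agent.P284.H812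

/-! ### discrete groups -/

/-- finitely many elements in every ball -/
def Disc {q : ℕ} (L : AddSubgroup (Cm q)) : Prop := ∀ R : ℝ, {v | v ∈ L ∧ ‖v‖ ≤ R}.Finite

section disc
variable {q : ℕ} {L : AddSubgroup (Cm q)}

/-- a point has a neighbourhood which contains no other element of `L` -/
theorem Disc.isolated (hL : Disc L) (v : Cm q) : ∃ ε > 0, ∀ u ∈ L, dist u v < ε → u = v := by
  have hfin : ({u | u ∈ L ∧ ‖u‖ ≤ ‖v‖ + 1} \ {v}).Finite := (hL _).subset sdiff_subset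
  have hcl : IsClosed ({u | u ∈ L ∧ ‖u‖ ≤ ‖v‖ + 1} \ {v}) := hfin.isClosed
  have hv : v ∉ ({u | u ∈ L ∧ ‖u‖ ≤ ‖v‖ + 1} \ {v}) := fun h => h.2 rfl
  obtain ⟨ε, hε, hb⟩ := Metric.isOpen_iff.1 hcl.isOpen_compl v hv
  refine ⟨min ε 1, lt_min hε one_pos, fun u hu hd => ?_⟩
  by_contra hne
  refine hb (mem_ball.2 (hd.trans_le (min_le_left _ _))) ⟨⟨hu, ?_⟩, hne⟩
  have h1 : ‖u‖ ≤ ‖v‖ + ‖u - v‖ := by
    calc ‖u‖ = ‖v + (u - v)‖ := by congr 1; abel
      _ ≤ _ := norm_add_le _ _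
  have h2 : ‖u - v‖ < 1 := by
    rw [← dist_eq_norm]; exact hd.trans_le (min_le_right _ _)
  linarith

theorem Disc.isClosed (hL : Disc L) : IsClosed (L : Set (Cm q)) := by
  rw [← isOpen_compl_iff, Metric.isOpen_iff]
  intro v hv
  obtain ⟨ε, hε, h⟩ := hL.isolated v
  refine ⟨ε, hε, fun u hu huL => hv ?_⟩
  rw [← h u huL (mem_ball.1 hu)]
  exact huL

theorem Disc.countable (hL : Disc L) : (L : Set (Cm q)).Countable := by
  have h1 : (L : Set (Cm q)) = ⋃ r : ℕ, {v | v ∈ L ∧ ‖v‖ ≤ r} := by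
    ext v
    simp only [mem_iUnion]
    constructor
    · intro hv
      obtain ⟨r, hr⟩ := exists_nat_ge ‖v‖
      exact ⟨r, hv, hr⟩
    · rintro ⟨r, hv, -⟩
      exact hv
  rw [h1]
  exact countable_iUnion fun r => (hL r).countable

end disc

section
variable {q : ℕ} {Z : Type*} [TopologicalSpace Z] [ChartedSpace (Cm q) Z]

/-- `Ov` is the graph of a holomorphic map `Z → ℂ^q / L`. -/
structure TMap (L : AddSubgroup (Cm q)) (Ov : Cm q → Z → Prop) : Prop where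
  disc : Disc L
  ex : ∀ z, ∃ t, Ov t z
  add : ∀ t z, Ov t z → ∀ t', Ov t' z ↔ t' - t ∈ L
  hol : ∀ t z (c : Chart q Z), At c z → Ov t z → ∃ g : Cm q → Cm q, AnalyticAt ℂ g (c z) ∧
    g (c z) = t ∧ ∀ᶠ z' in 𝓝 z, Ov (g (c z')) z'

/-- `g` is a local expression of the map in the chart `c`. -/
def IsG (Ov : Cm q → Z → Prop) (c : Chart q Z) (z : Z) (g : Cm q → Cm q) : Prop :=
  AnalyticAt ℂ g (c z) ∧ ∀ᶠ z' in 𝓝 z, Ov (g (c z')) z'

variable {L : AddSubgroup (Cm q)} {Ov : Cm q → Z → Prop} {c c' : Chart q Z} {z : Z}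
  {g g' : Cm q → Cm q}

omit [ChartedSpace (Cm q) Z] in
theorem IsG.ov (h : IsG Ov c z g) : Ov (g (c z)) z := h.2.self_of_nhds

theorem IsG.eventually (h : IsG Ov c z g) (hc : At c z) : ∀ᶠ z' in 𝓝 z, At c z' ∧ IsG Ov c z' g := by
  have h1 : ∀ᶠ z' in 𝓝 z, AnalyticAt ℂ g (c z') :=
    (c.continuousAt hc.2).eventually h.1.eventually_analyticAt
  filter_upwards [h1, h.2.eventually_nhds, c.open_source.mem_nhds hc.2] with z' h2 h3 h4
  exact ⟨⟨hc.1, h4⟩, h2, h3⟩

theorem TMap.exists_isG (hT : TMap L Ov) (hc : At c z) : ∃ g, IsG Ov c z g := by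
  obtain ⟨t, ht⟩ := hT.ex z
  obtain ⟨g, h1, -, h3⟩ := hT.hol t z c hc ht
  exact ⟨g, h1, h3⟩

theorem TMap.sub_mem (hT : TMap L Ov) {t t' : Cm q} (h : Ov t z) (h' : Ov t' z) : t' - t ∈ L :=
  (hT.add t z h t').1 h'

/-- transfer of neighbourhoods to the chart -/
theorem ev_chart {P : Z → Prop} (hc : At c z) (h : ∀ᶠ z' in 𝓝 z, P z') :
    ∀ᶠ ζ in 𝓝 (c z), P (c.symm ζ) := by
  refine (c.continuousAt_symm (c.map_source hc.2)).eventually ?_
  rw [c.left_inv hc.2]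
  exact h

theorem ev_target (hc : At c z) : ∀ᶠ ζ in 𝓝 (c z), ζ ∈ c.target :=
  c.open_target.mem_nhds (c.map_source hc.2)

/-- two local expressions differ by a constant -/
theorem IsG.unique (hT : TMap L Ov) (hc : At c z) (h : IsG Ov c z g) (h' : IsG Ov c z g') :
    ∃ v ∈ L, ∀ᶠ ζ in 𝓝 (c z), g' ζ = g ζ + v := by
  have hv := hT.sub_mem h.ov h'.ov
  obtain ⟨ε, hε, hi⟩ := hT.disc.isolated (g' (c z) - g (c z))
  refine ⟨_, hv, ?_⟩
  have h1 : ∀ᶠ ζ in 𝓝 (c z), dist (g' ζ - g ζ) (g' (c z) - g (c z)) < ε :=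
    (h'.1.continuousAt.sub h.1.continuousAt).eventually (Metric.ball_mem_nhds _ hε)
  filter_upwards [h1, ev_target hc, ev_chart hc h.2, ev_chart hc h'.2] with ζ h2 h3 h4 h5
  rw [c.right_inv h3] at h4 h5
  have := hi _ (hT.sub_mem h4 h5) h2
  rw [← this]
  abel

theorem IsG.fderiv_eq (hT : TMap L Ov) (hc : At c z) (h : IsG Ov c z g) (h' : IsG Ov c z g') :
    fderiv ℂ g' (c z) = fderiv ℂ g (c z) := by
  obtain ⟨v, -, hv⟩ := h.unique hT hc h'
  have h1 : g' =ᶠ[𝓝 (c z)] fun ζ => g ζ + v := hv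
  rw [h1.fderiv_eq, fderiv_add_const]

variable [IsManifold 𝓘(ℂ, Cm q) ω Z]

/-- change of charts -/
theorem IsG.change (hc : At c z) (hc' : At c' z) (h : IsG Ov c' z g) :
    IsG Ov c z (fun ζ => g (c' (c.symm ζ))) := by
  constructor
  · have h1 := (transition hc hc').analyticAt
    exact h.1.comp_of_eq h1 (by rw [c.left_inv hc.2])
  · filter_upwards [h.2, c.open_source.mem_nhds hc.2] with z' h1 h2
    rw [c.left_inv h2]
    exact h1

theorem IsG.det_change (hc : At c z) (hc' : At c' z) (h : IsG Ov c' z g) :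
    (fderiv ℂ (fun ζ => g (c' (c.symm ζ))) (c z)).det =
      (jacM c c' z).det * (fderiv ℂ g (c' z)).det := by
  rw [← det_transition hc hc', mul_comm]
  have h1 : fderiv ℂ (fun ζ => g (c' (c.symm ζ))) (c z) =
      (fderiv ℂ g (c' z)).comp (fderiv ℂ (fun y => c' (c.symm y)) (c z)) := by
    have h2 : DifferentiableAt ℂ g ((fun y => c' (c.symm y)) (c z)) := by
      simp only [c.left_inv hc.2]
      exact h.1.differentiableAt
    have h3 := fderiv_comp (c z) (g := g) h2 (transition_differentiableAt hc hc')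
    simp only [c.left_inv hc.2] at h3
    exact h3
  rw [h1]
  exact LinearMap.det_comp _ _

open Classical in
/-- the weight `|det dF|²` on `K_Z` -/
def NF (Ov : Cm q → Z → Prop) (c : Chart q Z) (ζ : Cm q) : ℝ :=
  if h : ∃ g, IsG Ov c (c.symm ζ) g then ‖(fderiv ℂ h.choose ζ).det‖ ^ 2 else 0

omit [IsManifold 𝓘(ℂ, Cm q) ω Z] in
theorem NF_eq (hT : TMap L Ov) (hc : At c z) (h : IsG Ov c z g) :
    NF Ov c (c z) = ‖(fderiv ℂ g (c z)).det‖ ^ 2 := by
  have key : ∀ x, x = z → ∀ hex : ∃ g, IsG Ov c x g,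
      fderiv ℂ hex.choose (c z) = fderiv ℂ g (c z) := by
    rintro x rfl hex
    exact h.fderiv_eq hT hc hex.choose_spec
  have hex : ∃ g, IsG Ov c (c.symm (c z)) g := by
    rw [c.left_inv hc.2]; exact ⟨g, h⟩
  rw [NF, dif_pos hex, key _ (c.left_inv hc.2) hex]

theorem det_analytic {ζ : Cm q} (hg : AnalyticAt ℂ g ζ) :
    AnalyticAt ℂ (fun y => (fderiv ℂ g y).det) ζ := by
  have h1 : (fun y => (fderiv ℂ g y).det) = fun y =>
      ∑ σ : Equiv.Perm (Fin q), (Equiv.Perm.sign σ : ℂ) * ∏ i, fderiv ℂ g y (Pi.single i 1) (σ i) := by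
    funext y
    rw [ContinuousLinearMap.det, ← LinearMap.det_toMatrix', Matrix.det_apply']
    rfl
  rw [h1]
  have h2 : ∀ i j : Fin q, AnalyticAt ℂ (fun y => fderiv ℂ g y (Pi.single i 1) j) ζ := by
    intro i j
    have h3 : AnalyticAt ℂ (fderiv ℂ g) ζ := hg.fderiv
    have h4 : AnalyticAt ℂ (fun y => fderiv ℂ g y (Pi.single i 1)) ζ :=
      AnalyticAt.fun_comp (g := fun A : Cm q →L[ℂ] Cm q => A (Pi.single i (1 : ℂ)))
        ((ContinuousLinearMap.apply ℂ (Cm q) (Pi.single i (1 : ℂ) : Cm q)).analyticAt _) h3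
    exact ((ContinuousLinearMap.proj (R := ℂ) (φ := fun _ : Fin q => ℂ) j).analyticAt _).comp h4
  refine Finset.analyticAt_fun_sum _ fun σ _ => ?_
  exact analyticAt_const.mul (Finset.analyticAt_fun_prod _ fun i _ => h2 i (σ i))

theorem hmet_NF (hT : TMap L Ov) : HMet q 1 Z ℂ (NF Ov : Chart q Z → Cm q → ℝ) where
  loc := by
    intro c z hc
    obtain ⟨g, hg⟩ := hT.exists_isG hc
    refine ⟨fun y => (fderiv ℂ g y).det, det_analytic hg.1, ?_⟩
    filter_upwards [ev_chart hc (hg.eventually hc), ev_target hc] with ζ h1 h2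
    have := NF_eq hT h1.1 h1.2
    rwa [c.right_inv h2] at this
  change := by
    intro c c' z hc hc'
    obtain ⟨g, hg⟩ := hT.exists_isG hc'
    rw [NF_eq hT hc (hg.change hc hc'), NF_eq hT hc' hg, IsG.det_change hc hc' hg, norm_mul]
    ring

/-- the norm of `dF₁ ∧ … ∧ dF_q` in the canonical metric `w` -/
def rho (Ov : Cm q → Z → Prop) (w : Chart q Z → Cm q → ℝ) (z : Z) : ℝ := ratio 1 (NF Ov) w z

variable {w : Chart q Z → Cm q → ℝ}

theorem rho_eq (hT : TMap L Ov) (hw : IsCanonicalMetric w) (hc : At c z) (h : IsG Ov c z g) :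
    rho Ov w z = ‖(fderiv ℂ g (c z)).det‖ ^ 2 * Real.exp (-w c (c z)) := by
  rw [rho, ratio_eq (hmet_NF hT).change hw hc, NF_eq hT hc h]
  simp

theorem continuous_rho (hT : TMap L Ov) (hw : IsCanonicalMetric w) : Continuous (rho Ov w) :=
  continuous_ratio (hmet_NF hT) hw

theorem rho_nonneg (hT : TMap L Ov) (hw : IsCanonicalMetric w) (z : Z) : 0 ≤ rho Ov w z := by
  obtain ⟨g, hg⟩ := hT.exists_isG (at_chartAt z)
  rw [rho_eq hT hw (at_chartAt z) hg]
  positivity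

theorem rho_ne (hT : TMap L Ov) (hw : IsCanonicalMetric w) (hc : At c z) (h : IsG Ov c z g) :
    rho Ov w z ≠ 0 ↔ (fderiv ℂ g (c z)).det ≠ 0 := by
  rw [rho_eq hT hw hc h]
  constructor
  · intro h1 h2
    apply h1
    rw [h2]
    simp
  · intro h1
    have := Real.exp_pos (-w c (c z))
    positivity

end

end Vale.Agent.P284.H672
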