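import Vale.Agent.P284.H672.TM
import Mathlib.Topology.Maps.Proper.Basic
import Vale.Agent.P284.H10.S4d
import Vale.Agent.P284.H10.S4e

/-!
# P284 (helper672): the regular values of a holomorphic map to `ℂ^q / L`, local sections
-/

set_option linter.unusedSectionVars false

open scoped Manifold ContDiff Topology ENNReal
open Filter Set Metric MeasureTheory

noncomputable section

namespace Vale.Agent.P284.H672

open Vale.Agent.P272.K Vale.Agent.P272.KOD Vale.Agent.P284.H812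

section
variable {q : ℕ} {Z : Type} [TopologicalSpace Z] [ChartedSpace (Cm q) Z]
  {L : AddSubgroup (Cm q)} {Ov : Cm q → Z → Prop}

theorem isClosed_ov (hT : TMap L Ov) : IsClosed {x : Cm q × Z | Ov x.1 x.2} := by
  rw [← isOpen_compl_iff, isOpen_iff_mem_nhds]
  rintro ⟨t, z⟩ h
  have hc := at_chartAt (n := q) z
  obtain ⟨g, hg⟩ := hT.exists_isG hc
  have h1 : t - g (chartAt (Cm q) z z) ∉ L := fun h' => h ((hT.add _ _ hg.ov t).2 h')
  have hcont : ContinuousAt (fun x : Cm q × Z => g (chartAt (Cm q) z x.2)) (t, z) := by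
    have h2 : ContinuousAt (fun z' => g (chartAt (Cm q) z z')) z :=
      ContinuousAt.comp (g := g) hg.1.continuousAt ((chartAt (Cm q) z).continuousAt hc.2)
    exact ContinuousAt.comp (g := fun z' => g (chartAt (Cm q) z z')) (f := Prod.snd) h2
      continuousAt_snd
  have h3 : ∀ᶠ x : Cm q × Z in 𝓝 (t, z), x.1 - g (chartAt (Cm q) z x.2) ∈ ((L : Set (Cm q)))ᶜ :=
    (continuousAt_fst.sub hcont).eventually (hT.disc.isClosed.isOpen_compl.mem_nhds h1)
  have h4 : ∀ᶠ x : Cm q × Z in 𝓝 (t, z), Ov (g (chartAt (Cm q) z x.2)) x.2 :=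
    (continuous_snd.tendsto' (t, z) z rfl).eventually hg.2
  filter_upwards [h3, h4] with x h5 h6 h7
  exact h5 ((hT.add _ _ h6 _).1 h7)

variable [IsManifold 𝓘(ℂ, Cm q) ω Z] {w : Chart q Z → Cm q → ℝ}

/-- the regular values -/
def VZ (Ov : Cm q → Z → Prop) (w : Chart q Z → Cm q → ℝ) : Set (Cm q) :=
  {t | ∀ z, Ov t z → rho Ov w z ≠ 0}

theorem isOpen_VZ [CompactSpace Z] (hT : TMap L Ov) (hw : IsCanonicalMetric w) :
    IsOpen (VZ Ov w) := by
  have h1 : IsClosed ({x : Cm q × Z | Ov x.1 x.2} ∩ {x | rho Ov w x.2 = 0}) :=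
    (isClosed_ov hT).inter (isClosed_eq ((continuous_rho hT hw).comp continuous_snd)
      continuous_const)
  have h2 := isClosedMap_fst_of_compactSpace _ h1
  rw [← isClosed_compl_iff]
  convert h2 using 1
  ext t
  simp only [VZ, mem_compl_iff, mem_ofPred_eq, not_forall, not_not, mem_image, mem_inter_iff,
    Prod.exists, exists_and_right, exists_eq_right]
  constructor
  · rintro ⟨z, h3, h4⟩
    exact ⟨z, h3, h4⟩
  · rintro ⟨z, h3, h4⟩
    exact ⟨z, h3, h4⟩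

/-- `s` is the section over `W` with values in the open set `U`; `g` is the local expression of the
map on `U`, in the chart `c`. -/
structure LSec (Ov : Cm q → Z → Prop) (c : Chart q Z) (g : Cm q → Cm q) (U : Set Z)
    (W : Set (Cm q)) (s : Cm q → Z) : Prop where
  openU : IsOpen U
  openW : IsOpen W
  mem : ∀ z ∈ U, At c z
  isG : ∀ z ∈ U, IsG Ov c z g
  det : ∀ z ∈ U, (fderiv ℂ g (c z)).det ≠ 0
  sU : ∀ τ ∈ W, s τ ∈ U
  gs : ∀ τ ∈ W, g (c (s τ)) = τ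
  uniq : ∀ τ ∈ W, ∀ z ∈ U, Ov τ z → z = s τ
  diff : DifferentiableOn ℂ (fun τ => c (s τ)) W
  cont : ContinuousOn s W

theorem LSec.mono {c : Chart q Z} {g : Cm q → Cm q} {U : Set Z} {W W' : Set (Cm q)}
    {s : Cm q → Z} (h : LSec Ov c g U W s) (hW' : IsOpen W') (hs : W' ⊆ W) :
    LSec Ov c g U W' s :=
  ⟨h.openU, hW', h.mem, h.isG, h.det, fun τ hτ => h.sU τ (hs hτ), fun τ hτ => h.gs τ (hs hτ),
    fun τ hτ => h.uniq τ (hs hτ), h.diff.mono hs, h.cont.mono hs⟩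

theorem LSec.ov {c : Chart q Z} {g : Cm q → Cm q} {U : Set Z} {W : Set (Cm q)}
    {s : Cm q → Z} (h : LSec Ov c g U W s) {τ : Cm q} (hτ : τ ∈ W) : Ov τ (s τ) := by
  have h1 := (h.isG _ (h.sU τ hτ)).ov
  rwa [h.gs τ hτ] at h1

theorem exists_lsec (hT : TMap L Ov) {t : Cm q} {z : Z} {c : Chart q Z} (hc : At c z)
    {g : Cm q → Cm q} (hg : IsG Ov c z g) (hgt : g (c z) = t)
    (hdet : (fderiv ℂ g (c z)).det ≠ 0) {O : Set Z} (hO : O ∈ 𝓝 z) :
    ∃ (U : Set Z) (W : Set (Cm q)) (s : Cm q → Z), LSec Ov c g U W s ∧ z ∈ U ∧ t ∈ W ∧ s t = z ∧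
      U ⊆ O := by
  obtain ⟨ε, hε, hiso⟩ := hT.disc.isolated 0
  have hst : HasStrictFDerivAt g ((fderiv ℂ g (c z)).toContinuousLinearEquivOfDetNeZero hdet :
      Cm q →L[ℂ] Cm q) (c z) := by
    rw [ContinuousLinearMap.coe_toContinuousLinearEquivOfDetNeZero]
    exact hg.1.hasStrictFDerivAt
  set e := hst.toOpenPartialHomeomorph g with he
  have hez : c z ∈ e.source := hst.mem_toOpenPartialHomeomorph_source
  have hcoe : (e : Cm q → Cm q) = g := hst.toOpenPartialHomeomorph_coe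
  -- a ball in the chart
  have hdc : ∀ᶠ ζ in 𝓝 (c z), (fderiv ℂ g ζ).det ≠ 0 :=
    (det_analytic hg.1).continuousAt.eventually_ne hdet
  have hgc : ∀ᶠ ζ in 𝓝 (c z), dist (g ζ) t < ε / 2 := by
    have := hg.1.continuousAt
    rw [ContinuousAt, hgt] at this
    exact this.eventually (ball_mem_nhds t (by positivity))
  have hall : ∀ᶠ ζ in 𝓝 (c z), (At c (c.symm ζ) ∧ IsG Ov c (c.symm ζ) g) ∧ c.symm ζ ∈ O ∧
      ζ ∈ c.target ∧ ζ ∈ e.source ∧ (fderiv ℂ g ζ).det ≠ 0 ∧ dist (g ζ) t < ε / 2 := by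
    filter_upwards [ev_chart hc (hg.eventually hc), ev_chart hc hO, ev_target hc,
      e.open_source.mem_nhds hez, hdc, hgc] with ζ h1 h2 h3 h4 h5 h6
    exact ⟨h1, h2, h3, h4, h5, h6⟩
  obtain ⟨r, hr, hB⟩ := Metric.eventually_nhds_iff_ball.1 hall
  set B := ball (c z) r with hBd
  have hzB : c z ∈ B := mem_ball_self hr
  set W : Set (Cm q) := (e.target ∩ e.symm ⁻¹' B) ∩ ball t (ε / 2) with hW
  have hWo : IsOpen W := (e.symm.isOpen_inter_preimage isOpen_ball).inter isOpen_ball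
  have hU : ∀ z' ∈ c.source ∩ c ⁻¹' B, c.symm (c z') = z' := fun z' hz' => c.left_inv hz'.1
  have hget : ∀ τ, e.symm τ ∈ B → τ ∈ e.target → g (e.symm τ) = τ := fun τ h1 h2 => by
    have := e.right_inv h2
    rwa [hcoe] at this
  refine ⟨c.source ∩ c ⁻¹' B, W, fun τ => c.symm (e.symm τ), ⟨?_, hWo, ?_, ?_, ?_, ?_, ?_, ?_, ?_,
    ?_⟩, ⟨hc.2, hzB⟩, ?_, ?_, ?_⟩
  · exact c.isOpen_inter_preimage isOpen_ball
  · intro z' hz'
    exact ⟨hc.1, hz'.1⟩
  · intro z' hz'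
    have := (hB _ hz'.2).1.2
    rwa [hU z' hz'] at this
  · intro z' hz'
    exact (hB _ hz'.2).2.2.2.2.1
  · rintro τ ⟨⟨h1, h2⟩, -⟩
    have h3 := (hB _ h2).2.2.1
    refine ⟨c.map_target h3, ?_⟩
    rw [mem_preimage, c.right_inv h3]
    exact h2
  · rintro τ ⟨⟨h1, h2⟩, -⟩
    have h3 := (hB _ h2).2.2.1
    rw [c.right_inv h3]
    exact hget τ h2 h1
  · rintro τ ⟨⟨h1, h2⟩, h4⟩ z' hz' hov
    have h5 := (hB _ hz'.2).1.2
    rw [hU z' hz'] at h5
    have h6 := hT.sub_mem h5.ov hov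
    have h7 : τ - g (c z') = 0 := by
      refine hiso _ h6 ?_
      have h8 := (hB _ hz'.2).2.2.2.2.2
      have h9 : dist τ (g (c z')) < ε := by
        calc dist τ (g (c z')) ≤ dist τ t + dist t (g (c z')) := dist_triangle _ _ _
          _ < ε / 2 + ε / 2 := add_lt_add (mem_ball.1 h4) (by rwa [dist_comm])
          _ = ε := by ring
      rwa [dist_eq_norm, sub_zero, ← dist_eq_norm]
    have h10 : g (c z') = τ := (sub_eq_zero.1 h7).symm
    have h11 : e (c z') = τ := by rw [hcoe]; exact h10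
    have h12 : e.symm τ = c z' := by
      rw [← h11]
      exact e.left_inv (hB _ hz'.2).2.2.2.1
    rw [h12, hU z' hz']
  · rintro τ ⟨⟨h1, h2⟩, -⟩
    have h3 := hB _ h2
    have h13 : HasFDerivAt e ((fderiv ℂ g (e.symm τ)).toContinuousLinearEquivOfDetNeZero
        h3.2.2.2.2.1 : Cm q →L[ℂ] Cm q) (e.symm τ) := by
      rw [ContinuousLinearMap.coe_toContinuousLinearEquivOfDetNeZero, hcoe]
      have h14 := h3.1.2.1
      rw [c.right_inv h3.2.2.1] at h14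
      exact h14.differentiableAt.hasFDerivAt
    have h15 : DifferentiableAt ℂ e.symm τ := (e.hasFDerivAt_symm h1 h13).differentiableAt
    have h16 : (fun τ => c (c.symm (e.symm τ))) =ᶠ[𝓝 τ] e.symm := by
      filter_upwards [(e.symm.isOpen_inter_preimage isOpen_ball).mem_nhds
        (show τ ∈ e.symm.source ∩ e.symm ⁻¹' B from ⟨h1, h2⟩)] with τ' hτ'
      exact c.right_inv (hB _ hτ'.2).2.2.1
    exact (h15.congr_of_eventuallyEq h16).differentiableWithinAt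
  · rintro τ ⟨⟨h1, h2⟩, -⟩
    have h3 := (hB _ h2).2.2.1
    exact (ContinuousAt.comp (g := c.symm) (c.continuousAt_symm h3)
      (e.continuousAt_symm h1)).continuousWithinAt
  · have h17 : e (c z) = t := by rw [hcoe]; exact hgt
    refine ⟨⟨?_, ?_⟩, mem_ball_self (by positivity)⟩
    · rw [← h17]; exact e.map_source hez
    · rw [mem_preimage, ← h17, e.left_inv hez]; exact hzB
  · have h17 : e (c z) = t := by rw [hcoe]; exact hgt
    show c.symm (e.symm t) = z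
    rw [← h17, e.left_inv hez, c.left_inv hc.2]
  · intro z' hz'
    have := (hB _ hz'.2).2.1
    rwa [hU z' hz'] at this

/-- version in the chart at `z` -/
theorem exists_lsec' (hT : TMap L Ov) (hw : IsCanonicalMetric w) {t : Cm q} {z : Z}
    (h : Ov t z) (hr : rho Ov w z ≠ 0) {O : Set Z} (hO : O ∈ 𝓝 z) :
    ∃ (g : Cm q → Cm q) (U : Set Z) (W : Set (Cm q)) (s : Cm q → Z),
      LSec Ov (chartAt (Cm q) z) g U W s ∧ z ∈ U ∧ t ∈ W ∧ s t = z ∧ U ⊆ O := by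
  obtain ⟨g, hg1, hg2, hg3⟩ := hT.hol t z _ (at_chartAt z) h
  have hg : IsG Ov (chartAt (Cm q) z) z g := ⟨hg1, hg3⟩
  obtain ⟨U, W, s, h1⟩ := exists_lsec hT (at_chartAt z) hg hg2
    ((rho_ne hT hw (at_chartAt z) hg).1 hr) hO
  exact ⟨g, U, W, s, h1⟩

/-- the fibre -/
def fib (Ov : Cm q → Z → Prop) (t : Cm q) : Set Z := {z | Ov t z}

theorem isClosed_fib (hT : TMap L Ov) (t : Cm q) : IsClosed (fib Ov t) :=
  (isClosed_ov hT).preimage (f := fun z : Z => (t, z)) (by fun_prop)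

/-- compact pieces of the fibre which consist of regular points are finite -/
theorem finite_fib [CompactSpace Z] (hT : TMap L Ov) (hw : IsCanonicalMetric w) {t : Cm q}
    {K : Set Z} (hK : IsClosed K) (h : ∀ z ∈ K, Ov t z → rho Ov w z ≠ 0) :
    (fib Ov t ∩ K).Finite := by
  have hc : IsCompact (fib Ov t ∩ K) := ((isClosed_fib hT t).inter hK).isCompact
  refine hc.finite ?_
  rw [isDiscrete_iff_forall_mem_exists_isOpen]
  rintro z ⟨hz, hzK⟩
  obtain ⟨g, U, W, s, h1, h2, h3, h4, -⟩ := exists_lsec' hT hw hz (h z hzK hz) univ_mem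
  refine ⟨U, h1.openU, ?_⟩
  ext z'
  constructor
  · rintro ⟨h5, h6, -⟩
    rw [mem_singleton_iff, h1.uniq t h3 z' h5 h6, h4]
  · rintro rfl
    exact ⟨h2, hz, hzK⟩

/-- simultaneous local sections through the points of a closed set of regular points -/
theorem lemA [T2Space Z] [CompactSpace Z] (hT : TMap L Ov) (hw : IsCanonicalMetric w) {t : Cm q}
    {K : Set Z} (hK : IsClosed K) (h : ∀ z ∈ K, Ov t z → rho Ov w z ≠ 0) :
    ∃ (g : Z → Cm q → Cm q) (U : Z → Set Z) (W : Set (Cm q)) (s : Z → Cm q → Z), IsOpen W ∧ t ∈ W ∧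
      (∀ z ∈ fib Ov t ∩ K, LSec Ov (chartAt (Cm q) z) (g z) (U z) W (s z) ∧ z ∈ U z ∧ s z t = z) ∧
      (fib Ov t ∩ K).PairwiseDisjoint U ∧
      ∀ τ ∈ W, ∀ z' ∈ K, Ov τ z' → ∃ z ∈ fib Ov t ∩ K, z' ∈ U z := by
  have hfin := finite_fib hT hw (t := t) hK h
  obtain ⟨O, hO, hOd⟩ := hfin.t2_separation
  have hex : ∀ z, ∃ (g : Cm q → Cm q) (U : Set Z) (W : Set (Cm q)) (s : Cm q → Z),
      z ∈ fib Ov t ∩ K → LSec Ov (chartAt (Cm q) z) g U W s ∧ z ∈ U ∧ t ∈ W ∧ s t = z ∧ U ⊆ O z := by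
    intro z
    by_cases hz : z ∈ fib Ov t ∩ K
    · obtain ⟨g, U, W, s, h1⟩ := exists_lsec' hT hw hz.1 (h z hz.2 hz.1)
        ((hO z).2.mem_nhds (hO z).1)
      exact ⟨g, U, W, s, fun _ => h1⟩
    · exact ⟨fun _ => 0, ∅, ∅, fun _ => z, fun h' => absurd h' hz⟩
  choose g U W s hgs using hex
  set UU : Set Z := ⋃ z ∈ fib Ov t ∩ K, U z with hUU
  have hUUo : IsOpen UU := isOpen_biUnion fun z hz => (hgs z hz).1.openU
  have hC : IsClosed ({x : Cm q × Z | Ov x.1 x.2} ∩ Prod.snd ⁻¹' (K \ UU)) :=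
    (isClosed_ov hT).inter ((hK.sdiff hUUo).preimage continuous_snd)
  have hC2 := isClosedMap_fst_of_compactSpace _ hC
  refine ⟨g, U, (⋂ z ∈ fib Ov t ∩ K, W z) ∩
    (Prod.fst '' ({x : Cm q × Z | Ov x.1 x.2} ∩ Prod.snd ⁻¹' (K \ UU)))ᶜ, s, ?_, ⟨?_, ?_⟩, ?_, ?_, ?_⟩
  · exact (hfin.isOpen_biInter fun z hz => (hgs z hz).1.openW).inter hC2.isOpen_compl
  · exact mem_iInter₂.2 fun z hz => (hgs z hz).2.2.1
  · rintro ⟨⟨t', z⟩, ⟨h1, h2⟩, rfl⟩
    exact h2.2 (mem_iUnion₂.2 ⟨z, ⟨h1, h2.1⟩, (hgs z ⟨h1, h2.1⟩).2.1⟩)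
  · intro z hz
    have h1 := hgs z hz
    refine ⟨h1.1.mono ?_ ?_, h1.2.1, h1.2.2.2.1⟩
    · exact (hfin.isOpen_biInter fun z hz => (hgs z hz).1.openW).inter hC2.isOpen_compl
    · exact fun x hx => mem_iInter₂.1 hx.1 z hz
  · intro z hz z' hz' hne
    exact (hOd hz hz' hne).mono (hgs z hz).2.2.2.2 (hgs z' hz').2.2.2.2
  · intro τ hτ z' hz' hov
    by_contra hcon
    refine hτ.2 ⟨(τ, z'), ⟨hov, hz', fun hU => hcon ?_⟩, rfl⟩
    obtain ⟨z, hz, h1⟩ := mem_iUnion₂.1 hU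
    exact ⟨z, hz, h1⟩

end

end Vale.Agent.P284.H672
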