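import Vale.Agent.P284.H672.TB
import Vale.Agent.P284.H672.TX
import Vale.Agent.P284.H998.Z6

/-!
# P284 (helper672): `ExStmt`
-/

set_option linter.unusedSectionVars false

open scoped Manifold ContDiff Topology ENNReal ComplexOrder
open Filter Set Metric MeasureTheory

noncomputable section

namespace Vale.Agent.P284.H672

open Vale.Agent.P272.K Vale.Agent.P284.H894.G Vale.Agent.P284.H894.W Vale.Agent.P284.H494
  Vale.Agent.P284.H10 Vale.Agent.P284.H224 Vale.Agent.P272.KOD Vale.Agent.P284.H812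
  Vale.Agent.P300.H266 Vale.Agent.P300.L2 Vale.Agent.P284.H998

section
variable {n : ℕ} {X : Type} [TopologicalSpace X] [ChartedSpace (Cm n) X] {E : Type}
  [TopologicalSpace E] {p : E → X} {Γ : Type} [Group Γ] [MulAction Γ E]
  {w : Chart n X → Cm n → Matrix (Fin n) (Fin n) ℂ} {q : ℕ} {F : E → Cm q} {c : Γ → Cm q}
  [T2Space X] [CompactSpace X] [IsManifold 𝓘(ℂ, Cm n) ω X]

/-- the manifold `Z` -/
theorem exists_Z [Nonempty E] {ι : Type} [Fintype ι] (PJX : PJ n X ι) (hq : 1 ≤ q)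
    (hp : IsGalois Γ p) (hA : Per p w F c) (hex : ∃ y, Reg (n := n) p F y) :
    ∃ (Z : Type) (_ : TopologicalSpace Z) (_ : T2Space Z) (_ : CompactSpace Z)
      (_ : ConnectedSpace Z) (_ : ChartedSpace (Cm q) Z) (_ : IsManifold 𝓘(ℂ, Cm q) ω Z)
      (j : Z → X) (_ : ContMDiff 𝓘(ℂ, Cm q) 𝓘(ℂ, Cm n) ω j)
      (wz : Chart q Z → Cm q → ℝ), IsCanonicalMetric wz ∧
      (∀ c z, At c z → (cHess (wz c) (c z)).PosSemidef) ∧ ∃ z, rho (OvE p F j) wz z ≠ 0 := by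
  obtain ⟨y, hy⟩ := hex
  obtain ⟨B, hB⟩ := id hA.hol
  set e : Chart n X := chartAt (Cm n) (p y) with he'
  have he : At e (p y) := ⟨chart_mem_atlas _ _, mem_chart_source _ _⟩
  obtain ⟨f, hf, hfF⟩ := exists_expr hB y e he
  have hs := hy e f he hfF
  have hev : ∀ᶠ y₁ in 𝓝 y, (∀ᶠ y' in 𝓝 y₁, F y' = f (e (p y'))) ∧ AnalyticAt ℂ f (e (p y₁)) ∧
      At e (p y₁) := by
    have h1 : ContinuousAt (fun y' => e (p y')) y :=
      ContinuousAt.comp (g := e) (f := p) (e.continuousAt he.2) hp.cov.continuous.continuousAt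
    have h2 : ∀ᶠ y₁ in 𝓝 y, p y₁ ∈ e.source :=
      hp.cov.continuous.continuousAt.eventually (e.open_source.mem_nhds he.2)
    filter_upwards [hfF.eventually_nhds, h1.eventually hf.eventually_analyticAt, h2] with y₁ h3 h4 h5
    exact ⟨h3, h4, he.1, h5⟩
  obtain ⟨O, hO1, hO2, hO3⟩ := _root_.eventually_nhds_iff.1 hev
  have hW : p '' O ∈ 𝓝 (p y) := hp.cov.isLocalHomeomorph.isOpenMap.image_mem_nhds
    (hO2.mem_nhds hO3)
  obtain ⟨Z, i1, i2, i3, i4, i5, i6, j, hj, wz, hwz, hpos, z₁, cc, hcc, hz₁, -, -, hbij⟩ :=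
    zStmt n q hq (N_le_n hs) X ι PJX e (p y) he (p '' O) hW f hf hs
  refine ⟨Z, i1, i2, i3, i4, i5, i6, j, hj, wz, hwz, fun c z hc => (hpos c z hc).posSemidef, z₁, ?_⟩
  obtain ⟨y₁, hy₁, hpy₁⟩ := hz₁
  obtain ⟨h1, h2, h3⟩ := hO1 y₁ hy₁
  obtain ⟨h4, -, -, -⟩ := isG_of (F := F) hp.cov hj hpy₁ h3 h2 h1 hcc
  refine (rho_ne (tmap hp hA hj) hwz hcc h4).2 fun h5 => ?_
  exact not_surj_of_det h5 hbij.2

/-- two points over a good value which are not equivalent -/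
theorem exists_pair [ConnectedSpace E] (hp : IsGalois Γ p) (hA : Per p w F c)
    {V₁ : Set (Cm q)} (hV : ∀ O : Set (Cm q), IsOpen O → O.Nonempty → (O ∩ V₁).Nonempty)
    {y y' : E} (hyy : F y' = F y) (hyR : F y ∈ RV n p F) (hne : ¬ Cl F c y y') :
    ∃ x x' : E, F x ∈ V₁ ∧ F x' = F x ∧ ¬ Cl F c x x' := by
  obtain ⟨B, hB⟩ := id hA.hol
  obtain ⟨U, hU, U', hU', h1⟩ := cl_loc (n := n) hp hA y y' hyR hyy
  obtain ⟨r, hr, σ, hσ, hσy, hσF⟩ := exists_section hp.cov hB (hyR y rfl)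
  obtain ⟨r', hr', σ', hσ', hσy', hσF'⟩ := exists_section hp.cov hB (hyR y' hyy)
  rw [hyy] at hσ' hσy' hσF'
  have h2 : ∀ᶠ τ in 𝓝 (F y), σ τ ∈ U :=
    (hσ.continuousAt (ball_mem_nhds _ hr)).eventually (by rw [hσy]; exact hU)
  have h3 : ∀ᶠ τ in 𝓝 (F y), σ' τ ∈ U' :=
    (hσ'.continuousAt (ball_mem_nhds _ hr')).eventually (by rw [hσy']; exact hU')
  have h2' : ∀ᶠ τ in 𝓝 (F y), τ ∈ ball (F y) r := ball_mem_nhds (F y) hr
  have h3' : ∀ᶠ τ in 𝓝 (F y), τ ∈ ball (F y) r' := ball_mem_nhds (F y) hr'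
  obtain ⟨O, hO1, hO2, hO3⟩ := _root_.eventually_nhds_iff.1 ((h2.and h3).and (h2'.and h3'))
  obtain ⟨τ, hτO, hτV⟩ := hV O hO2 ⟨_, hO3⟩
  obtain ⟨⟨h4, h5⟩, h6, h7⟩ := hO1 τ hτO
  have h8 := hσF τ h6
  have h9 := hσF' τ h7
  refine ⟨σ τ, σ' τ, by rw [h8]; exact hτV, by rw [h8, h9], fun h10 => hne ?_⟩
  exact (h1 _ h4 _ h5 (by rw [h8, h9])).1 h10

variable {Z : Type} [TopologicalSpace Z] {j : Z → X} [T2Space Z] [CompactSpace Z]
  [ChartedSpace (Cm q) Z] [IsManifold 𝓘(ℂ, Cm q) ω Z] {wz : Chart q Z → Cm q → ℝ}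

/-- the dominating function -/
def sE (n : ℕ) [ChartedSpace (Cm n) X] (p : E → X) (F : E → Cm q) (j : Z → X)
    (wz : Chart q Z → Cm q → ℝ) (N : ℕ) (G : TT (OvE p F j) wz → ℂ) (t : Cm q) : ℝ≥0∞ :=
  open Classical in if t ∈ V1 n p F j wz then
    N * ∑ᶠ z ∈ fib (OvE p F j) t, ENNReal.ofReal (‖onZ G t z‖ ^ 2) else ⊤

theorem sE_meas [ConnectedSpace E] (hp : IsGalois Γ p) (hA : Per p w F c)
    (hj : ContMDiff 𝓘(ℂ, Cm q) 𝓘(ℂ, Cm n) ω j) (hwz : IsCanonicalMetric wz)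
    {G : TT (OvE p F j) wz → ℂ} (hG : HoloE TT.p (VZ (OvE p F j) wz) G) (N : ℕ) :
    Measurable (sE n p F j wz N G) := by
  classical
  have h1 : sE n p F j wz N G = (V1 n p F j wz).piecewise
      (fun t => N * ∑ᶠ z ∈ fib (OvE p F j) t, ENNReal.ofReal (‖onZ G t z‖ ^ 2)) fun _ => ⊤ := by
    funext t
    unfold sE Set.piecewise
    congr
  rw [h1]
  refine ContinuousOn.measurable_piecewise ?_ continuousOn_const
    (isOpen_V1 hp hA hj hwz).measurableSet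
  refine ContinuousOn.comp (g := fun x : ℝ≥0∞ => N * x) (t := univ)
    (ENNReal.continuous_const_mul (ENNReal.natCast_ne_top N)).continuousOn ?_ fun _ _ => mem_univ _
  refine (continuousOn_sum (tmap hp hA hj) hwz (K := fun t z => ENNReal.ofReal (‖onZ G t z‖ ^ 2))
    ?_).mono inter_subset_left
  intro t W s hL z hz
  have h2 : ContinuousAt (fun τ => onZ G τ (s z τ)) t :=
    ((hL.onZ_diff hG hz) t hL.mem).differentiableAt (hL.openW.mem_nhds hL.mem) |>.continuousAt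
  exact ENNReal.continuous_ofReal.continuousAt.comp (h2.norm.pow 2)

theorem sE_int [ConnectedSpace E] (hq : 1 ≤ q) (hp : IsGalois Γ p) (hA : Per p w F c)
    (hj : ContMDiff 𝓘(ℂ, Cm q) 𝓘(ℂ, Cm n) ω j) (hwz : IsCanonicalMetric wz)
    {G : TT (OvE p F j) wz → ℂ} (N k : ℕ) {I : ℝ≥0∞}
    (hI : ∫⁻ t in VZ (OvE p F j) wz, (∑ᶠ z ∈ fib (OvE p F j) t,
      ENNReal.ofReal (‖onZ G t z‖ ^ 2)) * ENNReal.ofReal (((1 + ‖t‖) ^ k)⁻¹) ≤ I) (R : ℝ)
    (hR : 0 ≤ R) : ∫⁻ t in ball (0 : Cm q) R, sE n p F j wz N G t ≤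
      (N * I) * ENNReal.ofReal ((1 + R) ^ k) := by
  have hV := isOpen_V1 hp hA hj hwz (n := n)
  have hnull : volume (V1 n p F j wz)ᶜ = 0 := by
    have h1 := null_of_cov (cov_V1 (n := n) hq hp hA hj hwz) (by simp; omega)
    exact (Measure.absolutelyContinuous_isAddHaarMeasure volume Measure.addHaar) h1
  have h1 : ∫⁻ t in ball (0 : Cm q) R, sE n p F j wz N G t ≤
      (∫⁻ t in ball (0 : Cm q) R ∩ V1 n p F j wz, sE n p F j wz N G t) +
      ∫⁻ t in (V1 n p F j wz)ᶜ, sE n p F j wz N G t := by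
    refine le_trans (lintegral_mono_set (t := (ball (0 : Cm q) R ∩ V1 n p F j wz) ∪
      (V1 n p F j wz)ᶜ) fun t ht => ?_) (lintegral_union_le _ _ _)
    by_cases h : t ∈ V1 n p F j wz
    · exact Or.inl ⟨ht, h⟩
    · exact Or.inr h
  rw [setLIntegral_measure_zero _ _ hnull, add_zero] at h1
  refine h1.trans ?_
  have h2 : ∫⁻ t in ball (0 : Cm q) R ∩ V1 n p F j wz, sE n p F j wz N G t ≤
      ∫⁻ t in ball (0 : Cm q) R ∩ V1 n p F j wz, (N * ENNReal.ofReal ((1 + R) ^ k)) *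
        ((∑ᶠ z ∈ fib (OvE p F j) t, ENNReal.ofReal (‖onZ G t z‖ ^ 2)) *
          ENNReal.ofReal (((1 + ‖t‖) ^ k)⁻¹)) := by
    refine setLIntegral_mono' (measurableSet_ball.inter hV.measurableSet) fun t ht => ?_
    rw [sE, if_pos ht.2]
    set A := ∑ᶠ z ∈ fib (OvE p F j) t, ENNReal.ofReal (‖onZ G t z‖ ^ 2)
    have h3 : (1 : ℝ≥0∞) ≤ ENNReal.ofReal ((1 + R) ^ k) * ENNReal.ofReal (((1 + ‖t‖) ^ k)⁻¹) := by
      rw [← ENNReal.ofReal_mul (by positivity), ← ENNReal.ofReal_one]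
      refine ENNReal.ofReal_le_ofReal ?_
      rw [← div_eq_mul_inv, le_div_iff₀ (by positivity), one_mul]
      refine pow_le_pow_left₀ (by positivity) ?_ k
      have := mem_ball_zero_iff.1 ht.1
      linarith
    calc N * A = N * A * 1 := by rw [mul_one]
      _ ≤ N * A * (ENNReal.ofReal ((1 + R) ^ k) * ENNReal.ofReal (((1 + ‖t‖) ^ k)⁻¹)) :=
          mul_le_mul_right h3 _
      _ = _ := by ring
  refine h2.trans ?_
  rw [lintegral_const_mul' _ _ (ENNReal.mul_ne_top (ENNReal.natCast_ne_top N)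
    ENNReal.ofReal_ne_top)]
  calc _ ≤ N * ENNReal.ofReal ((1 + R) ^ k) * I :=
        mul_le_mul_right ((lintegral_mono_set fun t ht => ht.2.1).trans hI) _
    _ = _ := by ring

theorem fib_add [Nonempty E] (hp : IsGalois Γ p) (hA : Per p w F c) (t : Cm q) (g : Γ) :
    fib (OvE p F j) (t + c g) = fib (OvE p F j) t := by
  ext z
  constructor
  · intro h
    refine (ovE_add hp hA h t).2 ⟨g⁻¹, ?_⟩
    rw [per_inv hA]; abel
  · intro h
    refine (ovE_add hp hA h (t + c g)).2 ⟨g, ?_⟩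
    abel

/-- the trace vanishes -/
theorem trace_zero [ConnectedSpace E] (hp : IsGalois Γ p) (hA : Per p w F c)
    {G : TT (OvE p F j) wz → ℂ} {N N₁ : ℕ} (hN0 : N ≠ 0) {t : Cm q}
    (hfin : (fib (OvE p F j) t).Finite) (hN : (fib (OvE p F j) t).ncard = N)
    (hN₁ : ∀ y, F y = t → (AA p F c j y).ncard = N₁) {lf : Z → E}
    (hlf : ∀ z ∈ fib (OvE p F j) t, p (lf z) = j z ∧ F (lf z) = t) (g : Γ) :
    ∑ z ∈ hfin.toFinset, h0 p F c j G N N₁ (g • lf z) = 0 := by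
  classical
  have h1 : ∀ z ∈ hfin.toFinset, h0 p F c j G N N₁ (g • lf z) =
      ∑ z' ∈ hfin.toFinset, wt p F c j N N₁ (lf z) z' * onZ G (t + c g) z' := by
    intro z hz
    have h2 : F (g • lf z) = t + c g := by rw [hA.equiv, (hlf z ((hfin.mem_toFinset).1 hz)).2]
    rw [h0, h2, fib_add hp hA, finsum_mem_eq_finite_toFinset_sum _ hfin]
    refine Finset.sum_congr rfl fun z' _ => ?_
    rw [wt_smul hp hA]
  rw [Finset.sum_congr rfl h1, Finset.sum_comm]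
  refine Finset.sum_eq_zero fun z' hz' => ?_
  rw [← Finset.sum_mul]
  have hz't := (hfin.mem_toFinset).1 hz'
  have h3 : ∑ z ∈ hfin.toFinset, wt p F c j N N₁ (lf z) z' = 0 := by
    unfold wt
    rw [Finset.sum_sub_distrib, Finset.sum_const, Finset.sum_boole]
    have h4 : (hfin.toFinset.filter fun z => z' ∈ AA p F c j (lf z)).card = N₁ := by
      rw [← hN₁ (lf z') (hlf z' hz't).2, ← Set.ncard_coe_finset]
      congr 1
      ext z
      simp only [Finset.coe_filter, Set.Finite.mem_toFinset, mem_ofPred_eq]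
      constructor
      · rintro ⟨h5, h6⟩
        have h7 := (mem_AA_iff hp hA (hlf z' hz't).1
          ((hlf z' hz't).2.trans (hlf z h5).2.symm)).1 h6
        exact (mem_AA_iff hp hA (hlf z h5).1 ((hlf z h5).2.trans (hlf z' hz't).2.symm)).2
          (h7.symm hp hA)
      · intro h5
        have h6 : z ∈ fib (OvE p F j) t := by
          have := AA_sub hA _ h5
          rwa [(hlf z' hz't).2] at this
        refine ⟨h6, ?_⟩
        have h7 := (mem_AA_iff hp hA (hlf z h6).1 ((hlf z h6).2.trans (hlf z' hz't).2.symm)).1 h5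
        exact (mem_AA_iff hp hA (hlf z' hz't).1 ((hlf z' hz't).2.trans (hlf z h6).2.symm)).2
          (h7.symm hp hA)
    have h8 : hfin.toFinset.card = N := by
      rw [← hN, ncard_eq_toFinset_card _ hfin]
    rw [h4, h8, nsmul_eq_mul, mul_div_cancel₀ _ (by exact_mod_cast hN0), sub_self]
  rw [h3, zero_mul]

end

/-- **MF(I), existence.** -/
theorem exStmt : ExStmt := by
  intro n q X _ _ _ _ _ _ ι _ PJX w hw E Γ _ _ _ _ p hp F c hA y y' hyy hyR hne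
  rcases Nat.eq_zero_or_pos q with rfl | hq
  · exact absurd (same_of_conn (conn_zero (F y)) (Subsingleton.elim _ _) (Subsingleton.elim _ _))
      (hne 1 (per_one hA))
  have hex : ∃ y, Reg (n := n) p F y := ⟨y, hyR y rfl⟩
  obtain ⟨Z, _, _, _, _, _, _, j, hj, wz, hwz, hpos, hrho⟩ := exists_Z PJX hq hp hA hex
  have hT := tmap hp hA hj
  obtain ⟨N, hN1, hN⟩ := exists_card hq hT hwz hrho
  obtain ⟨N₁, hN₁1, hN₁⟩ := exists_N1 hq hp hA hj hwz hrho hex
  have hVo := isOpen_V1 (n := n) hp hA hj hwz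
  have hVc := cov_V1 (n := n) hq hp hA hj hwz
  have hmeet : ∀ O : Set (Cm q), IsOpen O → O.Nonempty → (O ∩ V1 n p F j wz).Nonempty :=
    fun O hO hne => meets_V1 hq hp hA hj hwz hO hne
  obtain ⟨x, x', hx, hxx, hcl⟩ := exists_pair hp hA hmeet hyy hyR
    (fun ⟨g, hg, hs⟩ => hne g hg hs)
  set t₀ := F x with ht₀
  have hfin := finite_fib' hT hwz hx.1
  -- the point of `Z`
  have hAne : (AA p F c j x).Nonempty := by
    rw [nonempty_iff_ne_empty]
    intro h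
    have := hN₁ x hx
    rw [h, ncard_empty] at this
    omega
  obtain ⟨z₀, hz₀⟩ := hAne
  have hz₀t : OvE p F j t₀ z₀ := AA_sub hA x hz₀
  set e₀ : TT (OvE p F j) wz := TT.mk t₀ z₀ hx.1 hz₀t with he₀
  have hNE : Nonempty (TT (OvE p F j) wz) := ⟨e₀⟩
  have hsc : SecondCountableTopology Z := ChartedSpace.secondCountable_of_sigmaCompact (Cm q) Z
  have hfc := isFinCov hT hwz hN1 hN
  obtain ⟨CE, hE⟩ := isExh hq hT hwz hrho hpos
  obtain ⟨G, hG, hG1, hG0, k, hGi⟩ := peak hq hfc hE e₀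
  set I := ∫⁻ t in VZ (OvE p F j) wz, (∑ e ∈ hfc.ecov.fibE t, ENNReal.ofReal (‖G e‖ ^ 2)) *
        ENNReal.ofReal (((1 + ‖t‖) ^ k)⁻¹) with hI
  have hI' : ∫⁻ t in VZ (OvE p F j) wz, (∑ᶠ z ∈ fib (OvE p F j) t,
      ENNReal.ofReal (‖onZ G t z‖ ^ 2)) * ENNReal.ofReal (((1 + ‖t‖) ^ k)⁻¹) ≤ I := by
    rw [hI]
    refine setLIntegral_mono' (isOpen_VZ hT hwz).measurableSet fun t ht => ?_
    rw [← sum_fibE hfc (fun t z => ENNReal.ofReal (‖onZ G t z‖ ^ 2)) ht]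
    refine mul_le_mul_left (le_of_eq (Finset.sum_congr rfl fun e _ => ?_)) _
    rw [onZ_eq G e.mem e.ov]
    rfl
  have hNN : N₁ ≤ N := by
    rw [← hN₁ x hx, ← hN t₀ hx.1]
    exact ncard_le_ncard (AA_sub hA x) hfin
  set h₀ := h0 p F c j G N N₁ with hh₀
  set s := sE n p F j wz N G with hs
  have hloc : ∀ y, F y ∈ V1 n p F j wz → ∃ f : Cm q → ℂ, AnalyticAt ℂ f (F y) ∧
      ∀ᶠ y' in 𝓝 y, h₀ y' = f (F y') := fun y hy => h0_loc hp hA hj hwz hG N N₁ hy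
  have hle : ∀ y, F y ∈ V1 n p F j wz → ENNReal.ofReal (‖h₀ y‖ ^ 2) ≤ s (F y) := by
    intro y hy
    rw [hs, sE, if_pos hy]
    exact h0_le hp hA hj hwz hNN hN hy
  have hs1 : ∀ t, t ∉ V1 n p F j wz → s t = ⊤ := fun t ht => by rw [hs, sE, if_neg ht]
  have hsm : Measurable s := sE_meas hp hA hj hwz hG N
  have hsi : ∀ R : ℝ, 0 ≤ R → ∫⁻ t in ball (0 : Cm q) R, s t ≤
      (N * I) * ENNReal.ofReal ((1 + R) ^ k) := fun R hR =>
    sE_int hq hp hA hj hwz N k hI' R hR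
  have hP : (N : ℝ≥0∞) * I ≠ ⊤ := ENNReal.mul_ne_top (ENNReal.natCast_ne_top N) hGi
  obtain ⟨hS, hgr⟩ := ext_main hw hq hp hA hex hVo hVc hloc hle hsm hs1 hP hsi
  have hsf : ∀ R : ℝ, ∫⁻ t in ball (0 : Cm q) R, s t ≠ ⊤ := by
    intro R
    refine ne_of_lt (lt_of_le_of_lt (lintegral_mono_set (ball_subset_ball (le_abs_self R)))
      (lt_of_le_of_lt (hsi |R| (abs_nonneg R)) ?_))
    exact ENNReal.mul_lt_top (lt_top_iff_ne_top.2 hP) ENNReal.ofReal_lt_top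
  refine ⟨hext (V1 n p F j wz) F h₀, ⟨hS, ?_, ⟨k, hgr⟩, ?_, ?_⟩⟩
  · -- invariance
    intro g hg y hy
    refine hext_ker hq hp hA hex hVo hVc hloc hle hsf hg (fun y _ => ?_) y hy
    have h1 : F (g • y) = F y := by rw [hA.equiv, hg, add_zero]
    rw [hh₀, h0, h0, h1]
    simp only [wt_smul hp hA]
  · -- trace
    obtain ⟨N', rfl⟩ : ∃ N', N = N' + 1 := ⟨N - 1, by omega⟩
    have hlf : ∀ z, ∃ e, z ∈ fib (OvE p F j) t₀ → p e = j z ∧ F e = t₀ := by
      intro z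
      by_cases hz : z ∈ fib (OvE p F j) t₀
      · obtain ⟨e, he⟩ := id hz
        exact ⟨e, fun _ => he⟩
      · exact ⟨y, fun h => absurd h hz⟩
    choose lf hlf using hlf
    have hcard : hfin.toFinset.card = N' + 1 := by
      rw [← hN t₀ hx.1, ncard_eq_toFinset_card _ hfin]
    set en := (Finset.equivFinOfCardEq hcard).symm with hen
    refine ⟨N', fun i => lf (en i), fun i => ?_, fun g => ?_⟩
    · have h1 := hlf (en i) ((hfin.mem_toFinset).1 (en i).2)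
      exact hx.2 _ h1.2
    · have h1 := trace_zero (G := G) (N := N' + 1) (N₁ := N₁) hp hA (by omega) hfin (hN t₀ hx.1)
        (fun y hy => hN₁ y (by rw [hy]; exact hx)) (lf := lf) (fun z hz => hlf z hz) g
      rw [← h1, ← Finset.sum_coe_sort hfin.toFinset, ← Equiv.sum_comp en]
      refine Finset.sum_congr rfl fun i _ => ?_
      refine hext_eq ?_
      rw [hA.equiv, (hlf (en i) ((hfin.mem_toFinset).1 (en i).2)).2]
      exact V1_add hp hA g hj hx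
  · -- not zero
    have hx'V : F x' ∈ V1 n p F j wz := by rw [hxx]; exact hx
    refine ⟨x', hx'V.2 x' rfl, ?_⟩
    rw [hext_eq hx'V, hh₀, h0, hxx, finsum_mem_eq_finite_toFinset_sum _ hfin]
    have hz₀f : z₀ ∈ hfin.toFinset := (hfin.mem_toFinset).2 hz₀t
    rw [Finset.sum_eq_single_of_mem z₀ hz₀f]
    · have h1 : onZ G t₀ z₀ = 1 := by rw [onZ_eq G hx.1 hz₀t]; exact hG1
      have h2 : z₀ ∉ AA p F c j x' := by
        rintro ⟨e', he', hc'⟩
        obtain ⟨e, he, hc⟩ := hz₀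
        have h3 : F e = F e' := by rw [← hc.eq hA, ← hc'.eq hA, hxx]
        exact hcl (((hc.symm hp hA).trans hp hA (cl_of_lift hp hA (he.trans he'.symm) h3)).trans
          hp hA hc')
      rw [h1, mul_one, wt, if_neg h2, zero_sub, neg_ne_zero]
      refine div_ne_zero ?_ ?_
      · exact_mod_cast (by omega : N₁ ≠ 0)
      · exact_mod_cast (by omega : N ≠ 0)
    · intro z hz hzne
      have hzt : OvE p F j t₀ z := (hfin.mem_toFinset).1 hz
      rw [onZ_eq G hx.1 hzt, hG0 (TT.mk t₀ z hx.1 hzt) rfl fun h => hzne (congrArg TT.z h), mul_zero]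

end Vale.Agent.P284.H672
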