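import Vale.Agent.P284.H672.TS
import Vale.Agent.P284.H672.TE4
import Vale.Agent.P284.H672.TH
import Vale.Agent.P284.H573.HCalc

/-!
# P284 (helper672): the values of `F` over a compact manifold `Z → X`
-/

set_option linter.unusedSectionVars false

open scoped Manifold ContDiff Topology ENNReal
open Filter Set Metric MeasureTheory

noncomputable section

namespace Vale.Agent.P284.H672

open Vale.Agent.P272.K Vale.Agent.P284.H894.G Vale.Agent.P284.H894.W Vale.Agent.P284.H494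
  Vale.Agent.P284.H10 Vale.Agent.P284.H224 Vale.Agent.P272.KOD Vale.Agent.P284.H812

section
variable {n : ℕ} {X : Type} [TopologicalSpace X] [ChartedSpace (Cm n) X] {E : Type}
  [TopologicalSpace E] {p : E → X} {Γ : Type} [Group Γ] [MulAction Γ E]
  {w : Chart n X → Cm n → Matrix (Fin n) (Fin n) ℂ} {q : ℕ} {F : E → Cm q} {c : Γ → Cm q}

/-- the group of periods -/
def Lc [Nonempty E] (hA : Per p w F c) : AddSubgroup (Cm q) where
  carrier := range c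
  add_mem' := by rintro _ _ ⟨a, rfl⟩ ⟨b, rfl⟩; exact ⟨a * b, per_add hA a b⟩
  zero_mem' := ⟨1, per_one hA⟩
  neg_mem' := by rintro _ ⟨a, rfl⟩; exact ⟨a⁻¹, per_inv hA a⟩

theorem mem_Lc [Nonempty E] (hA : Per p w F c) {v : Cm q} : v ∈ Lc hA ↔ ∃ g, c g = v := Iff.rfl

variable {Z : Type} [TopologicalSpace Z] {j : Z → X}

/-- `t` is a value of `F` over `z ∈ Z` -/
def OvE (p : E → X) (F : E → Cm q) {Z : Type} (j : Z → X) (t : Cm q) (z : Z) : Prop :=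
  ∃ y, p y = j z ∧ F y = t

/-- local lifts of `j` -/
theorem exists_lift (hp : IsCoveringMap p) (hj : Continuous j) {y₀ : E} {z₀ : Z}
    (h : p y₀ = j z₀) : ∃ (O : Set Z) (l : Z → E), IsOpen O ∧ z₀ ∈ O ∧ ContinuousOn l O ∧
      l z₀ = y₀ ∧ ∀ z ∈ O, p (l z) = j z := by
  obtain ⟨φ, hφ, hφp⟩ := hp.isLocalHomeomorph y₀
  refine ⟨j ⁻¹' φ.target, fun z => φ.symm (j z), φ.open_target.preimage hj, ?_, ?_, ?_, ?_⟩
  · show j z₀ ∈ φ.target
    rw [← h, hφp]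
    exact φ.map_source hφ
  · exact φ.continuousOn_symm.comp hj.continuousOn fun z hz => hz
  · show φ.symm (j z₀) = y₀
    rw [← h, hφp, φ.left_inv hφ]
  · intro z hz
    show p (φ.symm (j z)) = j z
    rw [hφp]
    exact φ.right_inv hz

theorem ovE_add [Nonempty E] (hp : IsGalois Γ p) (hA : Per p w F c) {t : Cm q} {z : Z}
    (h : OvE p F j t z) (t' : Cm q) : OvE p F j t' z ↔ t' - t ∈ Lc hA := by
  obtain ⟨y, hy, rfl⟩ := h
  constructor
  · rintro ⟨y', hy', rfl⟩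
    obtain ⟨γ, rfl⟩ := (hp.orb y y').1 (by rw [hy, hy'])
    exact ⟨γ, by rw [hA.equiv]; abel⟩
  · rintro ⟨γ, hγ⟩
    refine ⟨γ • y, ?_, ?_⟩
    · rw [← hy]; exact ((hp.orb y (γ • y)).2 ⟨γ, rfl⟩).symm
    · rw [hA.equiv, hγ]; abel

variable [IsManifold 𝓘(ℂ, Cm n) ω X] [ChartedSpace (Cm q) Z] [IsManifold 𝓘(ℂ, Cm q) ω Z]

/-- the local expression of the multivalued function `F` on `Z` -/
theorem isG_of (hp : IsCoveringMap p) (hj : ContMDiff 𝓘(ℂ, Cm q) 𝓘(ℂ, Cm n) ω j) {y₀ : E} {z₀ : Z}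
    (h : p y₀ = j z₀) {e : Chart n X} (he : At e (p y₀)) {f : Cm n → Cm q}
    (hf : AnalyticAt ℂ f (e (p y₀))) (hfF : ∀ᶠ y' in 𝓝 y₀, F y' = f (e (p y')))
    {cc : Chart q Z} (hc : At cc z₀) :
    IsG (OvE p F j) cc z₀ (fun ζ => f (e (j (cc.symm ζ)))) ∧
      AnalyticAt ℂ (fun ζ => e (j (cc.symm ζ))) (cc z₀) ∧
      f (e (j (cc.symm (cc z₀)))) = F y₀ ∧
      ∀ l : Z → E, ContinuousAt l z₀ → l z₀ = y₀ → (∀ᶠ z in 𝓝 z₀, p (l z) = j z) →
        ∀ᶠ z in 𝓝 z₀, F (l z) = f (e (j (cc.symm (cc z)))) := by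
  rw [h] at he hf
  have hι : AnalyticAt ℂ (fun ζ => e (j (cc.symm ζ))) (cc z₀) := by
    refine Vale.Agent.P284.H573.analyticAt_map (hj _) hc.1 (cc.map_source hc.2) ?_
    rw [cc.left_inv hc.2]
    exact he
  have hleft : ∀ᶠ z in 𝓝 z₀, cc.symm (cc z) = z := by
    filter_upwards [cc.open_source.mem_nhds hc.2] with z hz using cc.left_inv hz
  have hl : ∀ l : Z → E, ContinuousAt l z₀ → l z₀ = y₀ → (∀ᶠ z in 𝓝 z₀, p (l z) = j z) →
      ∀ᶠ z in 𝓝 z₀, F (l z) = f (e (j (cc.symm (cc z)))) := by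
    intro l hlc hl0 hlp
    have h1 : ∀ᶠ z in 𝓝 z₀, F (l z) = f (e (p (l z))) := by
      refine hlc.eventually (p := fun y' => F y' = f (e (p y'))) ?_
      rw [hl0]
      exact hfF
    filter_upwards [h1, hlp, hleft] with z h2 h3 h4
    rw [h2, h3, h4]
  refine ⟨⟨?_, ?_⟩, hι, ?_, hl⟩
  · refine AnalyticAt.comp (g := f) (f := fun ζ => e (j (cc.symm ζ))) ?_ hι
    rw [cc.left_inv hc.2]
    exact hf
  · obtain ⟨O, l, hO, hzO, hlc, hl0, hlp⟩ := exists_lift hp hj.continuous h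
    have h1 := hl l (hlc.continuousAt (hO.mem_nhds hzO)) hl0
      (by filter_upwards [hO.mem_nhds hzO] with z hz using hlp z hz)
    filter_upwards [h1, hO.mem_nhds hzO] with z h2 h3
    exact ⟨l z, hlp z h3, h2⟩
  · rw [cc.left_inv hc.2, ← h, hfF.self_of_nhds]

/-- analyticity of the local expressions -/
theorem exists_expr {B : ℝ} (hB : HolB p w F B) (y : E) (e : Chart n X) (he : At e (p y)) :
    ∃ f : Cm n → Cm q, AnalyticAt ℂ f (e (p y)) ∧ ∀ᶠ y' in 𝓝 y, F y' = f (e (p y')) := by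
  obtain ⟨f, h1, h2, -⟩ := hB y e he
  obtain ⟨O, h3, h4, h5⟩ := _root_.eventually_nhds_iff.1 h2
  exact ⟨f, Vale.Agent.P268.analyticOnNhd_of_differentiableOn h4
    (fun z hz => (h3 z hz).differentiableWithinAt) _ h5, h1⟩

theorem tmap [Nonempty E] (hp : IsGalois Γ p) (hA : Per p w F c)
    (hj : ContMDiff 𝓘(ℂ, Cm q) 𝓘(ℂ, Cm n) ω j) : TMap (Lc hA) (OvE p F j) where
  disc := hA.disc
  ex z := by
    obtain ⟨y, hy⟩ := hp.surj (j z)
    exact ⟨F y, y, hy, rfl⟩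
  add t z h t' := ovE_add hp hA h t'
  hol := by
    rintro t z cc hc ⟨y, hy, rfl⟩
    obtain ⟨B, hB⟩ := hA.hol
    obtain ⟨f, h1, h2⟩ := exists_expr hB y (chartAt (Cm n) (p y))
      ⟨chart_mem_atlas _ _, mem_chart_source _ _⟩
    obtain ⟨h3, -, h4, -⟩ := isG_of (F := F) hp.cov hj hy
      ⟨chart_mem_atlas _ _, mem_chart_source _ _⟩ h1 h2 hc
    exact ⟨_, h3.1, h4, h3.2⟩

end

end Vale.Agent.P284.H672
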